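import Vale.Agent.P074.Barycentre

/-!
Transport values of weighted finite families of points, and their increments along segments.
-/

open MeasureTheory Filter Topology
open scoped ENNReal NNReal RealInnerProductSpace

namespace Vale.Agent.P074

variable {d : ℕ} {ι : Type*} [Fintype ι]

/-- The set of positions of a family of points. -/
noncomputable def sites (p : ι → Space d) : Finset (Space d) :=
  open Classical in Finset.univ.image p

/-- The mass sitting at a position. -/
noncomputable def massAt (π : ι → ℝ) (p : ι → Space d) (z : Space d) : ℝ :=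
  open Classical in ∑ j ∈ Finset.univ.filter (fun j => p j = z), π j

/-- The dual value of `Φ`. -/
noncomputable def dualVal (K : Set (Space d)) (g : Space d → ℝ) (π : ι → ℝ) (p : ι → Space d)
    (Φ : Space d → ℝ) : ℝ :=
  (∫ x in K, conj (sites p : Set (Space d)) Φ x * g x) + ∑ j, π j * Φ (p j)

/-- `Φ` cuts `K` into cells of the prescribed masses for the density `g`. -/
def IsPot (K : Set (Space d)) (g : Space d → ℝ) (π : ι → ℝ) (p : ι → Space d)
    (Φ : Space d → ℝ) : Prop :=
  Continuous Φ ∧ ∀ z ∈ sites p, ∫ x in cell (sites p) Φ K z, g x = massAt π p z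

/-- Coordinate `i` of the centroid of the cell of the point `j`. -/
noncomputable def centroid (K : Set (Space d)) (g : Space d → ℝ) (π : ι → ℝ) (p : ι → Space d)
    (Φ : Space d → ℝ) (j : ι) (i : Fin d) : ℝ :=
  (∫ x in cell (sites p) Φ K (p j), x i * g x) / massAt π p (p j)

variable {π : ι → ℝ} {p q : ι → Space d} {K : Set (Space d)} {g : Space d → ℝ}

lemma mem_sites (p : ι → Space d) (j : ι) : p j ∈ sites p := by
  classical
  exact Finset.mem_image_of_mem p (Finset.mem_univ j)

lemma sites_nonempty [Nonempty ι] (p : ι → Space d) : (sites p).Nonempty :=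
  ⟨p (Classical.arbitrary ι), mem_sites p _⟩

lemma isCompact_sites (p : ι → Space d) : IsCompact (sites p : Set (Space d)) :=
  (sites p).finite_toSet.isCompact

lemma massAt_pos (hπ : ∀ j, 0 < π j) (j : ι) : 0 < massAt π p (p j) := by
  classical
  exact Finset.sum_pos (fun k _ => hπ k) ⟨j, by simp⟩

lemma sum_by_sites (F : ι → ℝ) :
    ∑ j, F j = ∑ z ∈ sites p, (open Classical in ∑ j ∈ Finset.univ.filter (fun j => p j = z), F j) := by
  classical
  exact (Finset.sum_fiberwise_of_maps_to (fun j _ => mem_sites p j) F).symm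

lemma sum_mass (F : Space d → ℝ) :
    ∑ j, π j * F (p j) = ∑ z ∈ sites p, massAt π p z * F z := by
  classical
  rw [sum_by_sites (p := p)]
  refine Finset.sum_congr rfl fun z _ => ?_
  rw [massAt, Finset.sum_mul]
  exact Finset.sum_congr rfl fun j hj => by rw [(Finset.mem_filter.1 hj).2]

/-- A density on a compact set with bounded values. -/
structure Density (K : Set (Space d)) (g : Space d → ℝ) : Prop where
  compact : IsCompact K
  meas : Measurable g
  nonneg : ∀ x, 0 ≤ g x
  bdd : ∀ x, g x ≤ 2

lemma Density.integrable (h : Density K g) {f : Space d → ℝ} (hf : Continuous f) :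
    IntegrableOn (fun x => f x * g x) K := by
  haveI : IsFiniteMeasure (volume.restrict K) :=
    isFiniteMeasure_restrict.2 h.compact.measure_lt_top.ne
  obtain ⟨M, hM⟩ := (h.compact.image hf).isBounded.exists_norm_le
  refine Integrable.of_bound (hf.measurable.mul h.meas).aestronglyMeasurable (M * 2) ?_
  filter_upwards [ae_restrict_mem h.compact.measurableSet] with x hx
  rw [norm_mul]
  have h2 : ‖g x‖ ≤ 2 := by rw [Real.norm_eq_abs, abs_of_nonneg (h.nonneg x)]; exact h.bdd x
  have := hM _ ⟨x, hx, rfl⟩
  exact mul_le_mul this h2 (norm_nonneg _) ((norm_nonneg _).trans this)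

lemma Density.integrableOn (h : Density K g) : IntegrableOn g K := by
  simpa using h.integrable (f := fun _ => (1:ℝ)) continuous_const

lemma dualVal_eq [Nonempty ι] (hg : Density K g) {Φ Φ' : Space d → ℝ} (h : IsPot K g π p Φ)
    (hΦ' : Continuous Φ') :
    dualVal K g π p Φ' = ∑ z ∈ sites p, ∫ x in cell (sites p) Φ K z,
      (conj (sites p : Set (Space d)) Φ' x + Φ' z) * g x := by
  have hc := continuous_conj (isCompact_sites p) (by simpa using sites_nonempty p) hΦ'.continuousOn
  rw [dualVal, integral_cells (sites_nonempty p) h.1 hg.compact (hg.integrable hc), sum_mass,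
    ← Finset.sum_add_distrib]
  refine Finset.sum_congr rfl fun z hz => ?_
  simp only [add_mul]
  rw [integral_add ((hg.integrable hc).mono_set fun x hx => hx.1)
    ((hg.integrableOn.mono_set fun x hx => hx.1).const_mul _), integral_const_mul, h.2 z hz]
  ring

/-- A potential with the right cell masses minimises the dual value. -/
lemma dualVal_le [Nonempty ι] (hg : Density K g) {Φ Φ' : Space d → ℝ} (h : IsPot K g π p Φ)
    (hΦ' : Continuous Φ') : dualVal K g π p Φ ≤ dualVal K g π p Φ' := by
  rw [dualVal_eq hg h h.1, dualVal_eq hg h hΦ']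
  refine Finset.sum_le_sum fun z hz => ?_
  have hne : (sites p : Set (Space d)).Nonempty := by simpa using sites_nonempty p
  have hc := continuous_conj (isCompact_sites p) hne hΦ'.continuousOn
  have hc' := continuous_conj (isCompact_sites p) hne h.1.continuousOn
  refine setIntegral_mono_on ((hg.integrable (hc'.add continuous_const)).mono_set fun x hx => hx.1)
    ((hg.integrable (hc.add continuous_const)).mono_set fun x hx => hx.1)
    (isCompact_cell (sites_nonempty p) h.1 hg.compact z).measurableSet fun x hx => ?_
  refine mul_le_mul_of_nonneg_right ?_ (hg.nonneg x)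
  have := le_conj (isCompact_sites p) hΦ'.continuousOn x (Finset.mem_coe.2 hz)
  linarith [hx.2]

lemma moment_inner (hg : Density K g) {A : Set (Space d)} (hA : A ⊆ K) (w : Space d) :
    ∫ x in A, ⟪x, w⟫ * g x = ∑ i, w i * ∫ x in A, x i * g x := by
  have he : ∀ x : Space d, ⟪x, w⟫ * g x = ∑ i, w i * (x i * g x) := fun x => by
    simp [PiLp.inner_apply, Finset.sum_mul, mul_assoc]
  simp only [he]
  rw [integral_finsetSum _ fun i _ => ((hg.integrable (by fun_prop)).mono_set hA).const_mul _]
  exact Finset.sum_congr rfl fun i _ => integral_const_mul _ _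

/-- Moving the points gives a plan, hence a lower bound. -/
lemma plan_le_dualVal [Nonempty ι] (hg : Density K g) (hπ : ∀ j, 0 < π j)
    {Φ Ψ : Space d → ℝ} (h : IsPot K g π p Φ) (hΨ : Continuous Ψ) :
    ∑ j, π j * ∑ i, q j i * centroid K g π p Φ j i ≤ dualVal K g π q Ψ := by
  classical
  have hne : (sites q : Set (Space d)).Nonempty := by simpa using sites_nonempty q
  have hc := continuous_conj (isCompact_sites q) hne hΨ.continuousOn
  let A := fun z => cell (sites p) Φ K z
  rw [dualVal, integral_cells (sites_nonempty p) h.1 hg.compact (hg.integrable hc)]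
  have hsplit : ∀ z ∈ sites p, ∫ x in A z, conj (sites q : Set (Space d)) Ψ x * g x =
      ∑ j ∈ Finset.univ.filter (fun j => p j = z), π j / massAt π p z *
        ∫ x in A z, conj (sites q : Set (Space d)) Ψ x * g x := by
    intro z hz
    rw [← Finset.sum_mul, ← Finset.sum_div]
    obtain ⟨j, -, rfl⟩ := Finset.mem_image.1 hz
    have hsum : (∑ k ∈ Finset.univ.filter (fun k => p k = p j), π k) = massAt π p (p j) := by
      rw [massAt]
    rw [hsum, div_self (massAt_pos hπ j).ne', one_mul]
  rw [Finset.sum_congr rfl hsplit]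
  have hfib : ∑ z ∈ sites p, ∑ j ∈ Finset.univ.filter (fun j => p j = z), π j / massAt π p z *
      (∫ x in A z, conj (sites q : Set (Space d)) Ψ x * g x) =
      ∑ j, π j / massAt π p (p j) * ∫ x in A (p j), conj (sites q : Set (Space d)) Ψ x * g x := by
    rw [sum_by_sites (p := p)]
    refine Finset.sum_congr rfl fun z _ => Finset.sum_congr rfl fun j hj => ?_
    rw [(Finset.mem_filter.1 hj).2]
  rw [hfib, ← Finset.sum_add_distrib]
  refine Finset.sum_le_sum fun j _ => ?_
  have hpos := massAt_pos (p := p) hπ j
  have hsub : A (p j) ⊆ K := fun x hx => hx.1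
  have hlow : (∫ x in A (p j), ⟪x, q j⟫ * g x) - Ψ (q j) * massAt π p (p j) ≤
      ∫ x in A (p j), conj (sites q : Set (Space d)) Ψ x * g x := by
    rw [← h.2 _ (mem_sites p j), ← integral_const_mul]
    have i1 : IntegrableOn (fun x => ⟪x, q j⟫ * g x) (A (p j)) :=
      (hg.integrable (continuous_id.inner continuous_const)).mono_set hsub
    have i2 : IntegrableOn (fun x => Ψ (q j) * g x) (A (p j)) :=
      (hg.integrableOn.mono_set hsub).const_mul _
    rw [← integral_sub i1 i2]
    refine setIntegral_mono_on (i1.sub i2) ((hg.integrable hc).mono_set hsub)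
      (isCompact_cell (sites_nonempty p) h.1 hg.compact _).measurableSet fun x _ => ?_
    rw [← sub_mul]
    exact mul_le_mul_of_nonneg_right
      (le_conj (isCompact_sites q) hΨ.continuousOn x (Finset.mem_coe.2 (mem_sites q j))) (hg.nonneg x)
  rw [moment_inner hg hsub] at hlow
  have hcent : ∑ i, q j i * centroid K g π p Φ j i =
      (∑ i, q j i * ∫ x in A (p j), x i * g x) / massAt π p (p j) := by
    rw [Finset.sum_div]
    exact Finset.sum_congr rfl fun i _ => mul_div_assoc' _ _ _
  rw [hcent]
  have := mul_le_mul_of_nonneg_left hlow (div_nonneg (hπ j).le hpos.le)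
  calc π j * ((∑ i, q j i * ∫ x in A (p j), x i * g x) / massAt π p (p j))
      = π j / massAt π p (p j) *
          ((∑ i, q j i * ∫ x in A (p j), x i * g x) - Ψ (q j) * massAt π p (p j)) +
          π j * Ψ (q j) := by field_simp; ring
    _ ≤ _ := by linarith

/-- The value in terms of the centroids. -/
lemma dualVal_centroid [Nonempty ι] (hg : Density K g) (hπ : ∀ j, 0 < π j)
    {Φ : Space d → ℝ} (h : IsPot K g π p Φ) :
    dualVal K g π p Φ = ∑ j, π j * ∑ i, p j i * centroid K g π p Φ j i := by
  classical
  rw [dualVal_eq hg h h.1]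
  have e : ∑ j, π j * ∑ i, p j i * centroid K g π p Φ j i =
      ∑ z ∈ sites p, massAt π p z *
        ∑ i, z i * ((∫ x in cell (sites p) Φ K z, x i * g x) / massAt π p z) := by
    rw [← sum_mass (fun z => ∑ i, z i * ((∫ x in cell (sites p) Φ K z, x i * g x) / massAt π p z))]
    rfl
  rw [e]
  refine Finset.sum_congr rfl fun z hz => ?_
  obtain ⟨j, -, rfl⟩ := Finset.mem_image.1 hz
  have hpos := massAt_pos (p := p) hπ j
  rw [Finset.mul_sum]
  have : ∀ i, massAt π p (p j) * (p j i *
      ((∫ x in cell (sites p) Φ K (p j), x i * g x) / massAt π p (p j))) =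
      p j i * ∫ x in cell (sites p) Φ K (p j), x i * g x := fun i => by field_simp
  rw [Finset.sum_congr rfl fun i _ => this i, ← moment_inner hg fun x hx => hx.1]
  refine setIntegral_congr_fun (isCompact_cell (sites_nonempty p) h.1 hg.compact _).measurableSet
    fun x hx => ?_
  show (conj (sites p : Set (Space d)) Φ x + Φ (p j)) * g x = _
  rw [hx.2]
  ring

/-- Potentials with prescribed cell masses exist. -/
lemma exists_pot [Nonempty ι] (hg : Density K g) (hπ : ∀ j, 0 < π j)
    (hm : ∫ x in K, g x = ∑ j, π j) (p : ι → Space d) : ∃ Φ, IsPot K g π p Φ := by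
  classical
  set V := ∑ j, π j with hV
  have hVpos : 0 < V := Finset.sum_pos (fun j _ => hπ j) Finset.univ_nonempty
  let ρ : Measure (Space d) :=
    (volume.restrict K).withDensity fun x => ENNReal.ofReal (g x / V)
  let ν : Measure (Space d) := ∑ j, ENNReal.ofReal (π j / V) • Measure.dirac (p j)
  have hρA : ∀ A : Set (Space d), MeasurableSet A → A ⊆ K →
      ρ A = ENNReal.ofReal ((∫ x in A, g x) / V) := by
    intro A hA hAK
    rw [withDensity_apply _ hA, Measure.restrict_restrict hA, Set.inter_eq_left.2 hAK,
      ← integral_div, ofReal_integral_eq_lintegral_ofReal ((hg.integrableOn.mono_set hAK).div_const V)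
        (Eventually.of_forall fun x => div_nonneg (hg.nonneg x) hVpos.le)]
  have hρK : ρ Kᶜ = 0 := by
    rw [withDensity_apply _ hg.compact.measurableSet.compl,
      Measure.restrict_restrict hg.compact.measurableSet.compl, Set.compl_inter_self,
      Measure.restrict_empty, lintegral_zero_measure]
  haveI : IsProbabilityMeasure ρ := by
    constructor
    rw [← measure_add_measure_compl hg.compact.measurableSet, hρK, add_zero,
      hρA K hg.compact.measurableSet subset_rfl, hm, div_self hVpos.ne', ENNReal.ofReal_one]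
  haveI : IsProbabilityMeasure ν := by
    constructor
    simp only [ν, Measure.finsetSum_apply, Measure.smul_apply, Measure.dirac_apply_of_mem
      (Set.mem_univ _), smul_eq_mul, mul_one]
    rw [← ENNReal.ofReal_sum_of_nonneg fun j _ => (div_pos (hπ j) hVpos).le, ← Finset.sum_div,
      ← hV, div_self hVpos.ne', ENNReal.ofReal_one]
  have hν : ν (sites p : Set (Space d))ᶜ = 0 := by
    simp [ν, Measure.finsetSum_apply, mem_sites]
  have hac : ρ ≪ volume :=
    (withDensity_absolutelyContinuous _ _).trans Measure.absolutelyContinuous_restrict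
  have hKne : K.Nonempty := by
    by_contra h
    rw [Set.not_nonempty_iff_eq_empty] at h
    rw [h] at hm
    simp at hm
    linarith
  obtain ⟨L, hL⟩ := bound_on_compact hg.compact
  have hne : (sites p : Set (Space d)).Nonempty := by simpa using sites_nonempty p
  obtain ⟨Φ, G, hΦ, hGm, hmap, hG⟩ :=
    brenier hg.compact (isCompact_sites p) hKne hne hρK hν hac hL
  refine ⟨Φ, hΦ.continuous, fun z hz => ?_⟩
  set A := cell (sites p) Φ K z
  have hAm : MeasurableSet A := (isCompact_cell (sites_nonempty p) hΦ.continuous hg.compact z).measurableSet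
  have hae : (A : Set (Space d)) =ᵐ[ρ] (G ⁻¹' {z} : Set (Space d)) := by
    filter_upwards [hG, ae_iff.2 hρK] with x hx hxK
    refine propext ⟨fun h => (hx.2.2 z (Finset.mem_coe.2 hz) h.2).symm, fun h => ⟨hxK, ?_⟩⟩
    replace h : G x = z := h
    rw [← h]; exact hx.2.1
  have h1 : ρ A = ν {z} := by
    rw [measure_congr hae, ← Measure.map_apply hGm (measurableSet_singleton z), hmap]
  have h2 : ν {z} = ENNReal.ofReal (massAt π p z / V) := by
    simp only [ν, Measure.finsetSum_apply, Measure.smul_apply, smul_eq_mul,
      Measure.dirac_apply' _ (measurableSet_singleton z)]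
    rw [massAt, Finset.sum_div, ENNReal.ofReal_sum_of_nonneg fun j _ => (div_pos (hπ j) hVpos).le,
      Finset.sum_filter]
    refine Finset.sum_congr rfl fun j _ => ?_
    by_cases hj : p j = z <;> simp [hj]
  rw [hρA A hAm fun x hx => hx.1, h2,
    ENNReal.ofReal_eq_ofReal_iff (div_nonneg (setIntegral_nonneg hAm fun x _ => hg.nonneg x) hVpos.le)
      (show 0 ≤ massAt π p z / V from
        div_nonneg (Finset.sum_nonneg fun j _ => (hπ j).le) hVpos.le)] at h1
  exact (div_left_inj' hVpos.ne').1 h1

lemma abs_centroid_le [Nonempty ι] (hg : Density K g) (hπ : ∀ j, 0 < π j) {Φ : Space d → ℝ}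
    (h : IsPot K g π p Φ) {L : ℝ} (hL : ∀ x ∈ K, ‖x‖ ≤ L) (j : ι) (i : Fin d) :
    |centroid K g π p Φ j i| ≤ L := by
  have hK : K.Nonempty := by
    by_contra he
    rw [Set.not_nonempty_iff_eq_empty] at he
    have := h.2 _ (mem_sites p j)
    simp [cell, he] at this
    linarith [massAt_pos (p := p) hπ j]
  obtain ⟨x₀, hx₀⟩ := hK
  refine ratio_bound ((norm_nonneg _).trans (hL x₀ hx₀)) (massAt_pos hπ j).le ?_
  rw [← h.2 _ (mem_sites p j)]
  exact abs_setIntegral_mul_le (isCompact_cell (sites_nonempty p) h.1 hg.compact _)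
    ((hg.integrable (by fun_prop)).mono_set fun x hx => hx.1)
    (hg.integrableOn.mono_set fun x hx => hx.1) (fun x hx => abs_coord_le (hL x hx.1) i) hg.nonneg

/-- One step: how the difference of the two values can grow. -/
lemma value_step [Nonempty ι] {K' : Set (Space d)} {g' : Space d → ℝ} (hg : Density K g)
    (hg' : Density K' g') (hπ : ∀ j, 0 < π j) {Φp Φq Φp' Φq' : Space d → ℝ}
    (hp : IsPot K g π p Φp) (hq : IsPot K g π q Φq) (hp' : IsPot K' g' π p Φp')
    (hq' : IsPot K' g' π q Φq') :
    (dualVal K' g' π q Φq' - dualVal K g π q Φq) - (dualVal K' g' π p Φp' - dualVal K g π p Φp) ≤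
      ∑ j, π j * ∑ i, (q j i - p j i) *
        (centroid K' g' π q Φq' j i - centroid K g π p Φp j i) := by
  have h1 := plan_le_dualVal (q := q) hg hπ hp hq.1
  have h2 := plan_le_dualVal (q := p) hg' hπ hq' hp'.1
  rw [dualVal_centroid hg hπ hp, dualVal_centroid hg' hπ hq']
  have e : ∑ j, π j * ∑ i, (q j i - p j i) *
      (centroid K' g' π q Φq' j i - centroid K g π p Φp j i) =
      (∑ j, π j * ∑ i, q j i * centroid K' g' π q Φq' j i)
        - (∑ j, π j * ∑ i, p j i * centroid K' g' π q Φq' j i)
        - (∑ j, π j * ∑ i, q j i * centroid K g π p Φp j i)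
        + ∑ j, π j * ∑ i, p j i * centroid K g π p Φp j i := by
    rw [← Finset.sum_sub_distrib, ← Finset.sum_sub_distrib, ← Finset.sum_add_distrib]
    refine Finset.sum_congr rfl fun j _ => ?_
    simp only [Finset.mul_sum]
    rw [← Finset.sum_sub_distrib, ← Finset.sum_sub_distrib, ← Finset.sum_add_distrib]
    exact Finset.sum_congr rfl fun i _ => by ring
  linarith

end Vale.Agent.P074
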