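import Vale.Agent.P074.Duality

/-!
Existence, uniqueness and potentials of optimal maps; optimality from a potential.
-/

open MeasureTheory Filter Topology
open scoped ENNReal NNReal RealInnerProductSpace

namespace Vale.Agent.P074

variable {d : ℕ}

lemma uniformOn_props {K : Set (Space d)} (hK : IsCompact K) (hint : (interior K).Nonempty) :
    IsProbabilityMeasure (uniformOn K) ∧ uniformOn K Kᶜ = 0 ∧ uniformOn K ≪ volume := by
  have h0 : volume K ≠ 0 :=
    ((isOpen_interior.measure_pos volume hint).trans_le (measure_mono interior_subset)).ne'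
  have htop : volume K ≠ ∞ := hK.measure_lt_top.ne
  refine ⟨⟨?_⟩, ?_, ?_⟩
  · simp [uniformOn, ENNReal.inv_mul_cancel h0 htop]
  · simp [uniformOn, Measure.restrict_apply hK.measurableSet.compl]
  · exact Measure.smul_absolutelyContinuous.trans Measure.absolutelyContinuous_restrict

variable {K Y : Set (Space d)} {ρ ν : Measure (Space d)}

lemma ae_mem_of_map {T : Space d → Space d} (hY : IsCompact Y) (hν : ν Yᶜ = 0)
    (hT : Measurable T) (hmap : ρ.map T = ν) : ∀ᵐ x ∂ρ, T x ∈ Y := by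
  rw [← hmap, Measure.map_apply hT hY.measurableSet.compl] at hν
  exact ae_iff.2 hν

/-- A map which touches a potential almost everywhere is optimal. -/
lemma isOTMap_of_potential (hK : IsCompact K) (hY : IsCompact Y) (hne : Y.Nonempty)
    [IsProbabilityMeasure ρ] (hρ : ρ Kᶜ = 0) (hν : ν Yᶜ = 0)
    {Φ : Space d → ℝ} (hΦ : Continuous Φ) {T : Space d → Space d} (hT : Measurable T)
    (hmap : ρ.map T = ν) (hpot : ∀ᵐ x ∂ρ, conj Y Φ x = ⟪x, T x⟫ - Φ (T x)) :
    IsOTMap ρ ν T := by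
  refine ⟨hT, hmap, fun U hU hUmap => ?_⟩
  obtain ⟨R, hR⟩ := bound_on_compact hY
  obtain ⟨L, hL⟩ := bound_on_compact hK
  have hint : ∀ V : Space d → Space d, Measurable V → ρ.map V = ν →
      Integrable (fun x => ‖x - V x‖ ^ 2) ρ ∧ Integrable (fun x => ⟪x, V x⟫) ρ := by
    intro V hV hVm
    constructor
    · refine Integrable.of_bound ((measurable_id.sub hV).norm.pow_const 2).aestronglyMeasurable
        (((L:ℝ) + R) ^ 2) ?_
      filter_upwards [ae_iff.2 hρ, ae_mem_of_map hY hν hV hVm] with x hx hy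
      rw [Real.norm_eq_abs, abs_of_nonneg (sq_nonneg _)]
      gcongr
      exact (norm_sub_le _ _).trans (add_le_add (hL x hx) (hR _ hy))
    · refine Integrable.of_bound (measurable_id.inner hV).aestronglyMeasurable ((L:ℝ) * R) ?_
      filter_upwards [ae_iff.2 hρ, ae_mem_of_map hY hν hV hVm] with x hx hy
      exact (norm_inner_le_norm _ _).trans
        (mul_le_mul (hL x hx) (hR _ hy) (norm_nonneg _) L.coe_nonneg)
  have hexp : ∀ V : Space d → Space d, Measurable V → ρ.map V = ν →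
      ∫ x, ‖x - V x‖ ^ 2 ∂ρ = (∫ x, ‖x‖ ^ 2 ∂ρ) + (∫ y, ‖y‖ ^ 2 ∂ν) - 2 * ∫ x, ⟪x, V x⟫ ∂ρ := by
    intro V hV hVm
    have hc : Continuous fun y : Space d => ‖y‖ ^ 2 := continuous_norm.pow 2
    have h1 : Integrable (fun x => ‖V x‖ ^ 2) ρ := by
      refine Integrable.of_bound (hV.norm.pow_const 2).aestronglyMeasurable ((R:ℝ) ^ 2) ?_
      filter_upwards [ae_mem_of_map hY hν hV hVm] with x hy
      rw [Real.norm_eq_abs, abs_of_nonneg (sq_nonneg _)]
      gcongr
      exact hR _ hy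
    calc ∫ x, ‖x - V x‖ ^ 2 ∂ρ = ∫ x, ((‖x‖ ^ 2 + ‖V x‖ ^ 2) - 2 * ⟪x, V x⟫) ∂ρ := by
          refine integral_congr_ae (Eventually.of_forall fun x => ?_)
          simp only [norm_sub_sq_real]
          ring
      _ = _ := by
          rw [integral_sub, integral_add (integrable_of_continuous hK hρ hc) h1,
            integral_const_mul, ← hVm, integral_map hV.aemeasurable hc.aestronglyMeasurable]
          · exact (integrable_of_continuous hK hρ hc).add h1
          · exact (hint V hV hVm).2.const_mul 2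
  rw [← ofReal_integral_eq_lintegral_ofReal (hint T hT hmap).1 (Eventually.of_forall fun x => sq_nonneg _),
    ← ofReal_integral_eq_lintegral_ofReal (hint U hU hUmap).1 (Eventually.of_forall fun x => sq_nonneg _)]
  refine ENNReal.ofReal_le_ofReal ?_
  rw [hexp T hT hmap, hexp U hU hUmap]
  have hphi := integrable_of_continuous hK hρ (continuous_conj hY hne hΦ.continuousOn)
  have hΦV : ∀ V : Space d → Space d, Measurable V → ρ.map V = ν →
      Integrable (fun x => Φ (V x)) ρ ∧ ∫ x, Φ (V x) ∂ρ = ∫ y, Φ y ∂ν := by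
    intro V hV hVm
    haveI : IsProbabilityMeasure ν := hVm ▸ Measure.isProbabilityMeasure_map hV.aemeasurable
    have hi := integrable_of_continuous hY hν hΦ
    rw [← hVm] at hi
    refine ⟨hi.comp_measurable hV, ?_⟩
    rw [← hVm, integral_map hV.aemeasurable hΦ.aestronglyMeasurable]
  have hTeq : ∫ x, ⟪x, T x⟫ ∂ρ = (∫ x, conj Y Φ x ∂ρ) + ∫ y, Φ y ∂ν := by
    rw [← (hΦV T hT hmap).2, ← integral_add hphi (hΦV T hT hmap).1]
    refine integral_congr_ae ?_
    filter_upwards [hpot] with x hx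
    rw [hx]; ring
  have hUle : ∫ x, ⟪x, U x⟫ ∂ρ ≤ (∫ x, conj Y Φ x ∂ρ) + ∫ y, Φ y ∂ν := by
    rw [← (hΦV U hU hUmap).2, ← integral_add hphi (hΦV U hU hUmap).1]
    refine integral_mono_ae (hint U hU hUmap).2 (hphi.add (hΦV U hU hUmap).1) ?_
    filter_upwards [ae_mem_of_map hY hν hU hUmap] with x hx
    linarith [le_conj hY hΦ.continuousOn x hx]
  linarith

/-- An optimal map exists, any two agree almost everywhere, and a potential touches it. -/
theorem optimal_maps (hK : IsCompact K) (hKne : K.Nonempty) (hY : IsCompact Y) (hne : Y.Nonempty)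
    [IsProbabilityMeasure ρ] [IsProbabilityMeasure ν] (hρ : ρ Kᶜ = 0) (hν : ν Yᶜ = 0)
    (hac : ρ ≪ volume) {L : ℝ≥0} (hL : ∀ x ∈ K, ‖x‖ ≤ L) :
    ∃ (Φ : Space d → ℝ) (G : Space d → Space d), LipschitzWith L Φ ∧ IsOTMap ρ ν G ∧
      ∀ T, IsOTMap ρ ν T → T =ᵐ[ρ] G ∧
        ∀ᵐ x ∂ρ, T x ∈ Y ∧ conj Y Φ x = ⟪x, T x⟫ - Φ (T x) := by
  obtain ⟨Φ, G, hΦL, hGm, hGmap, hG⟩ := brenier hK hY hKne hne hρ hν hac hL
  have hGopt : IsOTMap ρ ν G :=
    isOTMap_of_potential hK hY hne hρ hν hΦL.continuous hGm hGmap (hG.mono fun x hx => hx.2.1)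
  refine ⟨Φ, G, hΦL, hGopt, fun T hT => ?_⟩
  obtain ⟨hTm, hTmap, hTopt⟩ := hT
  obtain ⟨R, hR⟩ := bound_on_compact hY
  have hTY := ae_mem_of_map hY hν hTm hTmap
  have hGY := ae_mem_of_map hY hν hGm hGmap
  have hle := hTopt G hGm hGmap
  have hsq : ∀ V : Space d → Space d, Measurable V → (∀ᵐ x ∂ρ, V x ∈ Y) →
      Integrable (fun x => ‖x - V x‖ ^ 2) ρ ∧ Integrable (fun x => ⟪x, V x⟫) ρ ∧
        Integrable (fun x => ‖V x‖ ^ 2) ρ ∧ Integrable (fun x => Φ (V x)) ρ := by
    intro V hV hVY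
    have hb : ∀ f : Space d × Space d → ℝ, Continuous f →
        Integrable (fun x => f (x, V x)) ρ := by
      intro f hf
      obtain ⟨M, hM⟩ := ((hK.prod hY).image hf).isBounded.exists_norm_le
      refine Integrable.of_bound (hf.measurable.comp (measurable_id.prodMk hV)).aestronglyMeasurable
        M ?_
      filter_upwards [ae_iff.2 hρ, hVY] with x hx hy
      exact hM _ ⟨(x, V x), ⟨hx, hy⟩, rfl⟩
    exact ⟨hb _ ((continuous_fst.sub continuous_snd).norm.pow 2),
      hb _ (continuous_fst.inner continuous_snd), hb _ (continuous_snd.norm.pow 2),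
      hb _ (hΦL.continuous.comp continuous_snd)⟩
  obtain ⟨hT1, hT2, hT3, hT4⟩ := hsq T hTm hTY
  obtain ⟨hG1, hG2, hG3, hG4⟩ := hsq G hGm hGY
  rw [← ofReal_integral_eq_lintegral_ofReal hT1 (Eventually.of_forall fun x => sq_nonneg _),
    ← ofReal_integral_eq_lintegral_ofReal hG1 (Eventually.of_forall fun x => sq_nonneg _),
    ENNReal.ofReal_le_ofReal_iff (integral_nonneg fun x => sq_nonneg _)] at hle
  have hexp : ∀ V : Space d → Space d, Integrable (fun x => ⟪x, V x⟫) ρ →
      Integrable (fun x => ‖V x‖ ^ 2) ρ →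
      ∫ x, ‖x - V x‖ ^ 2 ∂ρ = (∫ x, ‖x‖ ^ 2 ∂ρ) + (∫ x, ‖V x‖ ^ 2 ∂ρ) - 2 * ∫ x, ⟪x, V x⟫ ∂ρ := by
    intro V h2 h3
    have h1 : Integrable (fun x => ‖x‖ ^ 2) ρ := integrable_of_continuous hK hρ (continuous_norm.pow 2)
    rw [← integral_const_mul, ← integral_add h1 h3, ← integral_sub (f := fun x => ‖x‖ ^ 2 + ‖V x‖ ^ 2) (h1.add h3) (h2.const_mul 2)]
    refine integral_congr_ae (Eventually.of_forall fun x => ?_)
    simp only [norm_sub_sq_real, Pi.add_apply]
    ring
  rw [hexp T hT2 hT3, hexp G hG2 hG3] at hle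
  have htr : ∀ f : Space d → ℝ, Continuous f → ∫ x, f (T x) ∂ρ = ∫ x, f (G x) ∂ρ := by
    intro f hf
    rw [← integral_map hTm.aemeasurable hf.aestronglyMeasurable, hTmap, ← hGmap,
      integral_map hGm.aemeasurable hf.aestronglyMeasurable]
  rw [htr (fun y => ‖y‖ ^ 2) (continuous_norm.pow 2)] at hle
  have hphi := integrable_of_continuous hK hρ (continuous_conj hY hne hΦL.continuous.continuousOn)
  let gap : Space d → ℝ := fun x => conj Y Φ x + Φ (T x) - ⟪x, T x⟫
  have hgapint : Integrable gap ρ := (hphi.add hT4).sub hT2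
  have hgap0 : 0 ≤ᵐ[ρ] gap := by
    filter_upwards [hTY] with x hx
    have := le_conj hY hΦL.continuous.continuousOn x hx
    simp only [gap, Pi.zero_apply]
    linarith
  have hgapI : ∫ x, gap x ∂ρ ≤ 0 := by
    have hGI : ∫ x, ⟪x, G x⟫ ∂ρ = (∫ x, conj Y Φ x ∂ρ) + ∫ x, Φ (G x) ∂ρ := by
      rw [← integral_add hphi hG4]
      refine integral_congr_ae ?_
      filter_upwards [hG] with x hx
      rw [hx.2.1]; ring
    simp only [gap]
    rw [integral_sub (f := fun x => conj Y Φ x + Φ (T x)) (hphi.add hT4) hT2,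
      integral_add hphi hT4, htr Φ hΦL.continuous]
    linarith
  have hzero : gap =ᵐ[ρ] 0 :=
    (integral_eq_zero_iff_of_nonneg_ae hgap0 hgapint).1
      (le_antisymm hgapI (integral_nonneg_of_ae hgap0))
  constructor
  · filter_upwards [hzero, hTY, hG] with x hx hxY hGx
    refine hGx.2.2 _ hxY ?_
    simp only [gap, Pi.zero_apply] at hx
    linarith
  · filter_upwards [hzero, hTY] with x hx hxY
    refine ⟨hxY, ?_⟩
    simp only [gap, Pi.zero_apply] at hx
    linarith

end Vale.Agent.P074
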