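import Vale.Agent.P074.CellLemma
import Vale.Agent.P074.Maps

/-!
Stability of the centroids of Laguerre cells under a change of the source.
-/

open MeasureTheory Filter Topology
open scoped ENNReal NNReal RealInnerProductSpace

namespace Vale.Agent.P074

variable {d : ℕ}

/-- The cell of the site `z` in `K`. -/
def cell (S : Finset (Space d)) (Φ : Space d → ℝ) (K : Set (Space d)) (z : Space d) :
    Set (Space d) :=
  {x | x ∈ K ∧ conj (S : Set (Space d)) Φ x = ⟪x, z⟫ - Φ z}

variable {S : Finset (Space d)} {Φ : Space d → ℝ} {K : Set (Space d)}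

lemma isCompact_cell (hS : S.Nonempty) (hΦ : Continuous Φ) (hK : IsCompact K) (z : Space d) :
    IsCompact (cell S Φ K z) := by
  refine hK.inter_right (t := {x | conj (S : Set (Space d)) Φ x = ⟪x, z⟫ - Φ z}) ?_
  exact isClosed_eq
    (continuous_conj S.finite_toSet.isCompact (by simpa using hS) hΦ.continuousOn)
    ((continuous_id.inner continuous_const).sub continuous_const)

lemma volume_tie {z z' : Space d} (h : z ≠ z') (c : ℝ) :
    volume {x : Space d | ⟪x, z - z'⟫ = c} = 0 := by
  have h0 : innerSL ℝ (z - z') ≠ 0 := fun e => by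
    have e2 := congrArg (fun g : Space d →L[ℝ] ℝ => g (z - z')) e
    simp only [innerSL_apply_apply, zero_apply, inner_self_eq_zero, sub_eq_zero] at e2
    exact h e2
  have e : {x : Space d | ⟪x, z - z'⟫ = c} = {x | innerSL ℝ (z - z') x = c} := by
    ext x
    simp only [Set.mem_ofPred_eq, innerSL_apply_apply, real_inner_comm x (z - z')]
  rw [e]
  exact volume_level (innerSL ℝ (z - z')) h0 c

/-- The cells cover `K` and overlap in null sets. -/
lemma integral_cells (hS : S.Nonempty) (hΦ : Continuous Φ) (hK : IsCompact K) {f : Space d → ℝ}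
    (hf : IntegrableOn f K) :
    ∫ x in K, f x = ∑ z ∈ S, ∫ x in cell S Φ K z, f x := by
  have hSc : IsCompact (S : Set (Space d)) := S.finite_toSet.isCompact
  have hi : ∀ z, Integrable ((cell S Φ K z).indicator f) := fun z =>
    (integrable_indicator_iff (isCompact_cell hS hΦ hK z).measurableSet).2
      (hf.mono_set fun x hx => hx.1)
  rw [← integral_indicator hK.measurableSet,
    Finset.sum_congr rfl fun z _ => (integral_indicator (μ := volume) (f := f)
      (isCompact_cell hS hΦ hK z).measurableSet).symm,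
    ← integral_finsetSum _ fun z _ => hi z]
  refine integral_congr_ae ?_
  have htie : ∀ᵐ x : Space d, ∀ z ∈ S, ∀ z' ∈ S, z ≠ z' →
      ⟪x, z - z'⟫ ≠ Φ z - Φ z' := by
    refine (ae_ball_iff S.countable_toSet).2 fun z _ => (ae_ball_iff S.countable_toSet).2 fun z' _ => ?_
    by_cases h : z = z'
    · exact Eventually.of_forall fun x h' => absurd h h'
    · filter_upwards [compl_mem_ae_iff.2 (volume_tie h (Φ z - Φ z'))] with x hx _ using hx
  filter_upwards [htie] with x hx
  by_cases hxK : x ∈ K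
  · obtain ⟨z₀, hz₀, he⟩ := exists_max hSc (by simpa using hS) hΦ.continuousOn x
    rw [Finset.mem_coe] at hz₀
    rw [Set.indicator_of_mem hxK, Finset.sum_eq_single z₀]
    · rw [Set.indicator_of_mem (show x ∈ cell S Φ K z₀ from ⟨hxK, he⟩)]
    · intro z hz hne
      rw [Set.indicator_of_notMem]
      rintro ⟨-, he'⟩
      apply hx z hz z₀ hz₀ hne
      rw [inner_sub_right]
      linarith
    · exact fun h => absurd hz₀ h
  · rw [Set.indicator_of_notMem hxK, Finset.sum_eq_zero]
    exact fun z _ => Set.indicator_of_notMem (fun h => hxK h.1) _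

lemma midSet_cell_subset {K' : Set (Space d)} {Φ' : Space d → ℝ}
    (hS : S.Nonempty) (hΦ : Continuous Φ) (hΦ' : Continuous Φ') (hsub : K ⊆ K')
    (hK' : Convex ℝ K') {z : Space d} (hz : z ∈ S) :
    midSet (cell S Φ K z) (cell S Φ' K' z) ⊆ cell S (fun y => (Φ y + Φ' y) / 2) K' z := by
  rintro _ ⟨⟨x, y⟩, ⟨⟨hx, hxe⟩, ⟨hy, hye⟩⟩, rfl⟩
  have hmid : Continuous fun y => (Φ y + Φ' y) / 2 := (hΦ.add hΦ').div_const _
  have hSc : IsCompact (S : Set (Space d)) := S.finite_toSet.isCompact
  refine ⟨?_, le_antisymm ?_ (le_conj hSc hmid.continuousOn _ hz)⟩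
  · simpa [smul_add] using hK' (hsub hx) hy (by norm_num : (0:ℝ) ≤ 2⁻¹)
      (by norm_num : (0:ℝ) ≤ 2⁻¹) (by norm_num)
  · obtain ⟨w, hw, he⟩ := exists_max hSc (by simpa using hS) hmid.continuousOn
      ((2⁻¹ : ℝ) • (x + y))
    have h1 := le_conj hSc hΦ.continuousOn x hw
    have h2 := le_conj hSc hΦ'.continuousOn y hw
    rw [he]
    simp only [inner_smul_left, inner_add_left, RCLike.conj_to_real]
    linarith

lemma abs_coord_le {R : ℝ} {x : Space d} (h : ‖x‖ ≤ R) (i : Fin d) : |x i| ≤ R :=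
  ((Real.norm_eq_abs _).symm.le.trans (PiLp.norm_apply_le x i)).trans h

lemma ratio_bound {I m R : ℝ} (hR : 0 ≤ R) (hm : 0 ≤ m) (h : |I| ≤ R * m) : |I / m| ≤ R := by
  rcases eq_or_lt_of_le hm with h0 | h0
  · simp [← h0, hR]
  · rw [abs_div, abs_of_pos h0, div_le_iff₀ h0]
    exact h

lemma change_density {β γ b m ε R : ℝ} (hR : 0 ≤ R) (hb : 0 < b) (hm : 0 < m)
    (hbm : |b - m| ≤ ε) (hβ : |β| ≤ R * b) (hγ : |γ - β| ≤ R * ε) :
    |β / b - γ / m| ≤ 2 * R * ε / m := by
  have h1 : β / b - γ / m = (β / b) * (m - b) / m - (γ - β) / m := by field_simp; ring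
  rw [h1]
  refine (abs_sub _ _).trans ?_
  rw [abs_div, abs_div _ m, abs_mul, abs_of_pos hm, ← add_div]
  refine div_le_div_of_nonneg_right ?_ hm.le
  have h2 : |β / b| ≤ R := ratio_bound hR hb.le hβ
  have h3 : |m - b| ≤ ε := by rwa [abs_sub_comm]
  calc |β / b| * |m - b| + |γ - β| ≤ R * ε + R * ε := by gcongr
    _ = _ := by ring

lemma good_cell {α β γ a b m ε X D R : ℝ} (hR : 0 ≤ R) (hma : a = m) (hm : 0 < m)
    (hε : 2 * ε ≤ m) (hε0 : 0 ≤ ε) (hbm : |b - m| ≤ ε) (hβ : |β| ≤ R * b)
    (hγ : |γ - β| ≤ R * ε) (hD : D = α / a - β / b) (hX : min a b / 4 * D ^ 2 ≤ X) :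
    m * (α / m - γ / m) ^ 2 ≤ 16 * X + 8 * R ^ 2 * ε := by
  obtain ⟨hb1, hb2⟩ := abs_le.1 hbm
  have hb : 0 < b := by linarith
  have hM : m / 2 ≤ min a b := le_min (by linarith) (by linarith)
  have he := change_density hR hb hm hbm hβ hγ
  have h1 : α / m - γ / m = D + (β / b - γ / m) := by rw [hD, hma]; ring
  have h2 : m * D ^ 2 ≤ 8 * X := by nlinarith [sq_nonneg D]
  have h3 : m * (β / b - γ / m) ^ 2 ≤ 4 * R ^ 2 * ε := by
    have h4 : (β / b - γ / m) ^ 2 ≤ (2 * R * ε / m) ^ 2 := by
      rw [← sq_abs]; exact pow_le_pow_left₀ (abs_nonneg _) he 2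
    calc m * (β / b - γ / m) ^ 2 ≤ m * (2 * R * ε / m) ^ 2 := by gcongr
      _ = 4 * R ^ 2 * ε * (ε / m) := by field_simp; ring
      _ ≤ 4 * R ^ 2 * ε * 1 := by
          gcongr
          rw [div_le_one hm]; linarith
      _ = _ := mul_one _
  rw [h1]
  nlinarith [sq_nonneg (D - (β / b - γ / m))]

lemma abs_setIntegral_mul_le {A : Set (Space d)} (hA : IsCompact A) {f g : Space d → ℝ} {R : ℝ}
    (hfg : IntegrableOn (fun x => f x * g x) A) (hg : IntegrableOn g A)
    (hb : ∀ x ∈ A, |f x| ≤ R) (hg0 : ∀ x, 0 ≤ g x) :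
    |∫ x in A, f x * g x| ≤ R * ∫ x in A, g x := by
  refine abs_integral_le_integral_abs.trans ?_
  rw [← integral_const_mul]
  refine setIntegral_mono_on hfg.abs (hg.const_mul _) hA.measurableSet fun x hx => ?_
  rw [abs_mul, abs_of_nonneg (hg0 x)]
  exact mul_le_mul_of_nonneg_right (hb x hx) (hg0 x)

/-- If the source changes by `ε` in mass, the centroids move by `O(√ε)` in `L²(μ)`. -/
theorem centroid_stability (hS : S.Nonempty) (hΦ : Continuous Φ) {Φ' : Space d → ℝ}
    (hΦ' : Continuous Φ') {K' : Set (Space d)} (hK : IsCompact K) (hK' : IsCompact K')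
    (hsub : K ⊆ K') (hconv : Convex ℝ K') {g : Space d → ℝ} (hg0 : ∀ x, 0 ≤ g x)
    (hgi : IntegrableOn g K') (i : Fin d) (hgxi : IntegrableOn (fun x => x i * g x) K')
    {R : ℝ} (hR : ∀ x ∈ K', ‖x‖ ≤ R)
    (hmass : ∀ z ∈ S, ∫ x in cell S Φ' K' z, g x = volume.real (cell S Φ K z)) :
    ∑ z ∈ S, volume.real (cell S Φ K z) *
        ((∫ x in cell S Φ K z, x i) / volume.real (cell S Φ K z) -
          (∫ x in cell S Φ' K' z, x i * g x) / volume.real (cell S Φ K z)) ^ 2 ≤
      64 * R ^ 2 * ((volume.real K' - volume.real K) + ∫ x in K', |g x - 1|) := by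
  classical
  rcases Set.eq_empty_or_nonempty K' with hemp | ⟨x₀, hx₀⟩
  · have : K = ∅ := Set.subset_empty_iff.1 (hemp ▸ hsub)
    simp [hemp, this, cell]
  have hR0 : 0 ≤ R := (norm_nonneg _).trans (hR x₀ hx₀)
  have hmid : Continuous fun y => (Φ y + Φ' y) / 2 := (hΦ.add hΦ').div_const _
  let A := fun z => cell S Φ K z
  let B := fun z => cell S Φ' K' z
  let C := fun z => cell S (fun y => (Φ y + Φ' y) / 2) K' z
  let ε := fun z => ∫ x in B z, |g x - 1|
  let X := fun z => ((∫ x in A z, x i ^ 2) + ∫ x in B z, x i ^ 2) / 2 - (∫ x in C z, x i ^ 2) +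
    R ^ 2 * (volume.real (C z) - max 0 (volume.real (A z) - ε z))
  have hAc : ∀ z, IsCompact (A z) := isCompact_cell hS hΦ hK
  have hBc : ∀ z, IsCompact (B z) := isCompact_cell hS hΦ' hK'
  have hCc : ∀ z, IsCompact (C z) := isCompact_cell hS hmid hK'
  have hBK : ∀ z, B z ⊆ K' := fun z x hx => hx.1
  have hcoord : ∀ x ∈ K', ∀ j, |x j| ≤ R := fun x hx j => abs_coord_le (hR x hx) j
  have hone : ∀ T : Set (Space d), IsCompact T → IntegrableOn (fun _ => (1:ℝ)) T :=
    fun T hT => integrableOn_const hT.measure_lt_top.ne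
  have hεi : IntegrableOn (fun x => |g x - 1|) K' := (hgi.sub (hone _ hK')).abs
  have hcx : Continuous fun x : Space d => x i := by fun_prop
  have hc2 : ∀ T : Set (Space d), IsCompact T → IntegrableOn (fun x : Space d => x i ^ 2) T :=
    fun T hT => (hcx.pow 2).continuousOn.integrableOn_compact hT
  have hstep : ∀ z ∈ S, volume.real (A z) *
      ((∫ x in A z, x i) / volume.real (A z) - (∫ x in B z, x i * g x) / volume.real (A z)) ^ 2 ≤
        16 * X z + 40 * R ^ 2 * ε z := by
    intro z hz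
    set m := volume.real (A z)
    set b := volume.real (B z)
    have hε0 : 0 ≤ ε z := setIntegral_nonneg (hBc z).measurableSet fun x _ => abs_nonneg _
    have hm0 : 0 ≤ m := measureReal_nonneg
    have hbm : |b - m| ≤ ε z := by
      have e1 : b - m = ∫ x in B z, -(g x - 1) := by
        simp only [neg_sub]
        rw [integral_sub (hone _ (hBc z)) (hgi.mono_set (hBK z)), setIntegral_const,
          hmass z hz]
        simp [m, b, A, B]
      rw [e1, integral_neg, abs_neg]
      exact abs_integral_le_integral_abs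
    have hC2 : ∫ x in C z, x i ^ 2 ≤ R ^ 2 * volume.real (C z) := by
      calc _ ≤ ∫ _x in C z, R ^ 2 :=
            setIntegral_mono_on (hc2 _ (hCc z))
              (integrableOn_const (hCc z).measure_lt_top.ne) (hCc z).measurableSet fun x hx => by
                rw [← sq_abs (x i)]; exact pow_le_pow_left₀ (abs_nonneg _) (hcoord x hx.1 i) 2
        _ = _ := by simp [mul_comm]
    have hA0 : 0 ≤ ∫ x in A z, x i ^ 2 :=
      setIntegral_nonneg (hAc z).measurableSet fun x _ => sq_nonneg _
    have hB0 : 0 ≤ ∫ x in B z, x i ^ 2 :=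
      setIntegral_nonneg (hBc z).measurableSet fun x _ => sq_nonneg _
    rcases le_or_gt m (2 * ε z) with hbad | hgood
    · have hXlow : -(2 * R ^ 2 * ε z) ≤ X z := by
        have : max 0 (m - ε z) ≤ 2 * ε z := max_le (by linarith) (by linarith)
        have := mul_le_mul_of_nonneg_left this (sq_nonneg R)
        simp only [X]
        linarith
      have hα : |(∫ x in A z, x i) / m| ≤ R := by
        refine ratio_bound hR0 hm0 ?_
        have := abs_setIntegral_mul_le (hAc z) (f := fun x => x i) (g := fun _ => 1)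
          (by simpa using hcx.continuousOn.integrableOn_compact (hAc z)) (hone _ (hAc z))
          (fun x hx => hcoord x (hsub hx.1) i) (fun _ => zero_le_one)
        simpa [m] using this
      have hγ : |(∫ x in B z, x i * g x) / m| ≤ R := by
        refine ratio_bound hR0 hm0 ?_
        rw [show m = ∫ x in B z, g x from (hmass z hz).symm]
        exact abs_setIntegral_mul_le (hBc z) (hgxi.mono_set (hBK z)) (hgi.mono_set (hBK z))
          (fun x hx => hcoord x hx.1 i) hg0
      obtain ⟨a1, a2⟩ := abs_le.1 hα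
      obtain ⟨c1, c2⟩ := abs_le.1 hγ
      have hsq : ((∫ x in A z, x i) / m - (∫ x in B z, x i * g x) / m) ^ 2 ≤ 4 * R ^ 2 := by
        nlinarith
      calc m * _ ≤ 2 * ε z * (4 * R ^ 2) :=
            mul_le_mul hbad hsq (sq_nonneg _) (by linarith)
        _ ≤ _ := by linarith
    · have hm : 0 < m := by linarith
      obtain ⟨hb1, hb2⟩ := abs_le.1 hbm
      have hbpos : 0 < b := by linarith
      have hcb := cell_bound (hAc z) (hBc z) (hCc z) (fun x hx => hcoord x (hsub hx.1))
        (fun x hx => hcoord x hx.1) (fun x hx => hcoord x hx.1)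
        (midSet_cell_subset hS hΦ hΦ' hsub hconv hz) hm hbpos i
      have hmin : max 0 (m - ε z) ≤ min m b :=
        max_le (le_min hm.le hbpos.le) (le_min (by linarith) (by linarith))
      have hX : min m b / 4 *
          ((∫ x in A z, x i) / m - (∫ x in B z, x i) / b) ^ 2 ≤ X z := by
        refine hcb.trans ?_
        have := mul_le_mul_of_nonneg_left hmin (sq_nonneg R)
        simp only [X]
        linarith
      have hβ : |∫ x in B z, x i| ≤ R * b := by
        have := abs_setIntegral_mul_le (hBc z) (f := fun x => x i) (g := fun _ => 1)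
          (by simpa using hcx.continuousOn.integrableOn_compact (hBc z)) (hone _ (hBc z))
          (fun x hx => hcoord x hx.1 i) (fun _ => zero_le_one)
        simpa [b] using this
      have hγ : |(∫ x in B z, x i * g x) - ∫ x in B z, x i| ≤ R * ε z := by
        rw [← integral_sub (hgxi.mono_set (hBK z)) (hcx.continuousOn.integrableOn_compact (hBc z))]
        refine abs_integral_le_integral_abs.trans ?_
        simp only [ε]
        rw [← integral_const_mul]
        refine setIntegral_mono_on ((hgxi.mono_set (hBK z)).sub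
          (hcx.continuousOn.integrableOn_compact (hBc z))).abs ((hεi.mono_set (hBK z)).const_mul R)
          (hBc z).measurableSet fun x hx => ?_
        rw [show x i * g x - x i = x i * (g x - 1) by ring, abs_mul]
        exact mul_le_mul_of_nonneg_right (hcoord x hx.1 i) (abs_nonneg _)
      have := good_cell hR0 rfl hm hgood.le hε0 hbm hβ hγ rfl hX
      linarith [mul_nonneg (sq_nonneg R) hε0]
  refine (Finset.sum_le_sum hstep).trans ?_
  rw [Finset.sum_add_distrib, ← Finset.mul_sum, ← Finset.mul_sum]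
  have sA : ∑ z ∈ S, ∫ x in A z, x i ^ 2 = ∫ x in K, x i ^ 2 :=
    (integral_cells hS hΦ hK (hc2 _ hK)).symm
  have sB : ∑ z ∈ S, ∫ x in B z, x i ^ 2 = ∫ x in K', x i ^ 2 :=
    (integral_cells hS hΦ' hK' (hc2 _ hK')).symm
  have sC : ∑ z ∈ S, ∫ x in C z, x i ^ 2 = ∫ x in K', x i ^ 2 :=
    (integral_cells hS hmid hK' (hc2 _ hK')).symm
  have sε : ∑ z ∈ S, ε z = ∫ x in K', |g x - 1| := (integral_cells hS hΦ' hK' hεi).symm
  have sV : ∑ z ∈ S, volume.real (C z) = volume.real K' := by
    simpa [C] using (integral_cells hS hmid hK' (hone _ hK')).symm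
  have sm : ∑ z ∈ S, volume.real (A z) = volume.real K := by
    simpa [A] using (integral_cells hS hΦ hK (hone _ hK)).symm
  have hmono : ∫ x in K, x i ^ 2 ≤ ∫ x in K', x i ^ 2 :=
    setIntegral_mono_set (hc2 _ hK') (Eventually.of_forall fun x => sq_nonneg _)
      (HasSubset.Subset.eventuallyLE hsub)
  have hX : ∑ z ∈ S, X z ≤ R ^ 2 * ((volume.real K' - volume.real K) + ∫ x in K', |g x - 1|) := by
    have hmax : volume.real K - ∫ x in K', |g x - 1| ≤
        ∑ z ∈ S, max 0 (volume.real (A z) - ε z) := by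
      rw [← sm, ← sε, ← Finset.sum_sub_distrib]
      exact Finset.sum_le_sum fun z _ => le_max_right _ _
    simp only [X]
    rw [Finset.sum_add_distrib, Finset.sum_sub_distrib, ← Finset.sum_div, Finset.sum_add_distrib,
      sA, sB, sC, ← Finset.mul_sum, Finset.sum_sub_distrib, sV]
    have := mul_le_mul_of_nonneg_left hmax (sq_nonneg R)
    linarith
  have hV : volume.real K ≤ volume.real K' := measureReal_mono hsub hK'.measure_lt_top.ne
  rw [sε]
  have hε0 : 0 ≤ ∫ x in K', |g x - 1| :=
    setIntegral_nonneg hK'.measurableSet fun x _ => abs_nonneg _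
  nlinarith [mul_nonneg (sq_nonneg R) (sub_nonneg.2 hV), mul_nonneg (sq_nonneg R) hε0]

end Vale.Agent.P074
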