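import Vale.Agent.P074.Defs

/-!
The multiplicative Brunn–Minkowski inequality for the midpoint set of two compact sets.
-/

open MeasureTheory Filter Topology
open scoped ENNReal NNReal Pointwise

namespace Vale.Agent.P074

/-- Midpoints of two sets. -/
def midSet {V : Type*} [AddCommGroup V] [Module ℝ V] (A B : Set V) : Set V :=
  (fun p : V × V => (2⁻¹ : ℝ) • (p.1 + p.2)) '' (A ×ˢ B)

lemma mem_midSet {V : Type*} [AddCommGroup V] [Module ℝ V] {A B : Set V} {x y : V}
    (hx : x ∈ A) (hy : y ∈ B) : (2⁻¹ : ℝ) • (x + y) ∈ midSet A B :=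
  ⟨(x, y), ⟨hx, hy⟩, rfl⟩

lemma isCompact_midSet {V : Type*} [AddCommGroup V] [Module ℝ V] [TopologicalSpace V]
    [ContinuousAdd V] [ContinuousConstSMul ℝ V] {A B : Set V} (hA : IsCompact A)
    (hB : IsCompact B) : IsCompact (midSet A B) :=
  (hA.prod hB).image ((continuous_fst.add continuous_snd).const_smul _)

/-- One dimension: the midpoint set has at least the average measure. -/
lemma volume_mid_real {A B C : Set ℝ} (hA : MeasurableSet A) (hB : MeasurableSet B)
    (hAne : A.Nonempty) (hBne : B.Nonempty)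
    (h : ∀ x ∈ A, ∀ y ∈ B, (x + y) / 2 ∈ C) :
    volume A + volume B ≤ 2 * volume C := by
  have key : ∀ K L : Set ℝ, IsCompact K → IsCompact L → K.Nonempty → L.Nonempty →
      K ⊆ A → L ⊆ B → volume K + volume L ≤ 2 * volume C := by
    intro K L hK hL hKne hLne hKA hLB
    obtain ⟨M, hM, hMmax⟩ := hK.exists_isMaxOn hKne continuousOn_id
    obtain ⟨m, hm, hmmin⟩ := hL.exists_isMinOn hLne continuousOn_id
    let f : ℝ → ℝ := fun x => 2 * x + -m
    let g : ℝ → ℝ := fun x => 2 * x + -M
    have hf : ∀ S : Set ℝ, ∀ c : ℝ, MeasurableSet S →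
        2 * volume ((fun x => 2 * x + c) ⁻¹' S) = volume S := by
      intro S c _
      have : (fun x : ℝ => 2 * x + c) ⁻¹' S = (fun x => (2:ℝ) * x) ⁻¹' ((fun x => x + c) ⁻¹' S) := rfl
      rw [this, Real.volume_preimage_mul_left two_ne_zero, measure_preimage_add_right, ← mul_assoc,
        ← ENNReal.ofReal_ofNat 2, ← ENNReal.ofReal_mul (by norm_num)]
      norm_num
    have hsub : f ⁻¹' K ∪ g ⁻¹' L ⊆ C := by
      rintro x (hx | hx)
      · have := h _ (hKA hx) _ (hLB hm)
        simpa [f] using this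
      · have := h _ (hKA hM) _ (hLB hx)
        simpa [g] using this
    have hdis : volume (f ⁻¹' K ∩ g ⁻¹' L) = 0 := by
      refine measure_mono_null (t := {(M + m) / 2}) ?_ (measure_singleton _)
      rintro x ⟨hx1, hx2⟩
      have h1 : f x ≤ M := hMmax hx1
      have h2 : m ≤ g x := hmmin hx2
      simp only [f, g, Set.mem_singleton_iff] at *
      linarith
    calc volume K + volume L = 2 * volume (f ⁻¹' K) + 2 * volume (g ⁻¹' L) := by
          rw [hf K (-m) hK.measurableSet, hf L (-M) hL.measurableSet]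
      _ = 2 * (volume (f ⁻¹' K ∪ g ⁻¹' L) + volume (f ⁻¹' K ∩ g ⁻¹' L)) := by
          rw [measure_union_add_inter (s := f ⁻¹' K) (hL.measurableSet.preimage (by fun_prop)),
            mul_add]
      _ ≤ 2 * volume C := by rw [hdis, add_zero]; gcongr
  obtain ⟨a, ha⟩ := hAne
  obtain ⟨b, hb⟩ := hBne
  rw [hA.measure_eq_iSup_isCompact (μ := volume), hB.measure_eq_iSup_isCompact (μ := volume)]
  refine ENNReal.iSup_add_iSup_le fun K L => ?_
  rcases em (K ⊆ A ∧ IsCompact K) with ⟨hKA, hK⟩ | hK'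
  swap
  · have h0 : (⨆ (_ : K ⊆ A), ⨆ (_ : IsCompact K), volume K) = 0 :=
      le_antisymm (iSup_le fun h1 => iSup_le fun h2 => absurd ⟨h1, h2⟩ hK') bot_le
    rw [h0, zero_add]
    refine iSup_le fun hLB => iSup_le fun hL => ?_
    calc volume L ≤ volume ({a} : Set ℝ) + volume (insert b L) :=
          le_add_left (measure_mono (Set.subset_insert _ _))
      _ ≤ _ := key _ _ isCompact_singleton (hL.insert b) ⟨a, rfl⟩ ⟨b, Set.mem_insert _ _⟩
          (Set.singleton_subset_iff.2 ha) (Set.insert_subset hb hLB)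
  rw [iSup_pos hKA, iSup_pos hK]
  rcases em (L ⊆ B ∧ IsCompact L) with ⟨hLB, hL⟩ | hL'
  swap
  · have h0 : (⨆ (_ : L ⊆ B), ⨆ (_ : IsCompact L), volume L) = 0 :=
      le_antisymm (iSup_le fun h1 => iSup_le fun h2 => absurd ⟨h1, h2⟩ hL') bot_le
    rw [h0, add_zero]
    calc volume K ≤ volume (insert a K) + volume ({b} : Set ℝ) :=
          le_add_right (measure_mono (Set.subset_insert _ _))
      _ ≤ _ := key _ _ (hK.insert a) isCompact_singleton ⟨a, Set.mem_insert _ _⟩ ⟨b, rfl⟩
          (Set.insert_subset ha hKA) (Set.singleton_subset_iff.2 hb)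
  rw [iSup_pos hLB, iSup_pos hL]
  calc volume K + volume L ≤ volume (insert a K) + volume (insert b L) :=
        add_le_add (measure_mono (Set.subset_insert _ _)) (measure_mono (Set.subset_insert _ _))
    _ ≤ _ := key _ _ (hK.insert a) (hL.insert b) ⟨a, Set.mem_insert _ _⟩ ⟨b, Set.mem_insert _ _⟩
        (Set.insert_subset ha hKA) (Set.insert_subset hb hLB)

/-- One dimension: the Prékopa–Leindler inequality at the midpoint. -/
lemma prekopa_real {a b c : ℝ → ℝ} (ha : Measurable a) (hb : Measurable b) (hc : Measurable c)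
    (ha0 : ∀ x, 0 ≤ a x) (hb0 : ∀ x, 0 ≤ b x) (hc0 : ∀ x, 0 ≤ c x)
    (haB : BddAbove (Set.range a)) (hbB : BddAbove (Set.range b))
    (h : ∀ x y, a x * b y ≤ c ((x + y) / 2) ^ 2) :
    (∫⁻ x, ENNReal.ofReal (a x)) * ∫⁻ x, ENNReal.ofReal (b x) ≤
      (∫⁻ x, ENNReal.ofReal (c x)) ^ 2 := by
  set α := ⨆ x, a x with hα
  set β := ⨆ x, b x with hβ
  have hα0 : 0 ≤ α := Real.iSup_nonneg ha0
  have hβ0 : 0 ≤ β := Real.iSup_nonneg hb0
  rcases eq_or_lt_of_le hα0 with hαz | hαp
  · have : ∀ x, a x = 0 := fun x => le_antisymm ((le_ciSup haB x).trans hαz.ge) (ha0 x)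
    simp [this]
  rcases eq_or_lt_of_le hβ0 with hβz | hβp
  · have : ∀ x, b x = 0 := fun x => le_antisymm ((le_ciSup hbB x).trans hβz.ge) (hb0 x)
    simp [this]
  set γ := Real.sqrt (α * β) with hγ
  have hγp : 0 < γ := Real.sqrt_pos.2 (mul_pos hαp hβp)
  have hγ2 : γ ^ 2 = α * β := Real.sq_sqrt (mul_pos hαp hβp).le
  have hkey : (∫⁻ x, ENNReal.ofReal (a x / α)) + ∫⁻ x, ENNReal.ofReal (b x / β) ≤
      2 * ∫⁻ x, ENNReal.ofReal (c x / γ) := by
    rw [lintegral_eq_lintegral_meas_lt volume (Eventually.of_forall fun x => div_nonneg (ha0 x) hα0)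
        (ha.div_const α).aemeasurable,
      lintegral_eq_lintegral_meas_lt volume (Eventually.of_forall fun x => div_nonneg (hb0 x) hβ0)
        (hb.div_const β).aemeasurable,
      lintegral_eq_lintegral_meas_lt volume (Eventually.of_forall fun x => div_nonneg (hc0 x) hγp.le)
        (hc.div_const γ).aemeasurable,
      ← lintegral_add_left (f := fun t => volume {x | t < a x / α}) (Antitone.measurable
        fun s t hst => measure_mono fun x (hx : t < _) => show s < _ from hst.trans_lt hx),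
      ← lintegral_const_mul' _ _ ENNReal.ofNat_ne_top]
    refine setLIntegral_mono' measurableSet_Ioi fun s (hs : 0 < s) => ?_
    rcases lt_or_ge s 1 with hs1 | hs1
    · refine volume_mid_real (measurableSet_lt measurable_const (ha.div_const α))
        (measurableSet_lt measurable_const (hb.div_const β)) ?_ ?_ fun x hx y hy => ?_
      · obtain ⟨x, hx⟩ := exists_lt_of_lt_ciSup (show s * α < ⨆ x, a x by rw [← hα]; nlinarith)
        exact ⟨x, show s < a x / α by rwa [lt_div_iff₀ hαp]⟩
      · obtain ⟨x, hx⟩ := exists_lt_of_lt_ciSup (show s * β < ⨆ x, b x by rw [← hβ]; nlinarith)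
        exact ⟨x, show s < b x / β by rwa [lt_div_iff₀ hβp]⟩
      · have hx' : s * α < a x := (lt_div_iff₀ hαp).1 hx
        have hy' : s * β < b y := (lt_div_iff₀ hβp).1 hy
        show s < c ((x + y) / 2) / γ
        rw [lt_div_iff₀ hγp]
        refine lt_of_pow_lt_pow_left₀ 2 (hc0 _) ?_
        calc (s * γ) ^ 2 = (s * α) * (s * β) := by rw [mul_pow, hγ2]; ring
          _ < a x * b y := mul_lt_mul'' hx' hy' (by positivity) (by positivity)
          _ ≤ _ := h x y
    · have h1 : {x | s < a x / α} = ∅ := Set.eq_empty_iff_forall_notMem.2 fun x hx => by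
        have : a x / α ≤ 1 := (div_le_one hαp).2 (le_ciSup haB x)
        simp only [Set.mem_ofPred_eq] at hx
        linarith
      have h2 : {x | s < b x / β} = ∅ := Set.eq_empty_iff_forall_notMem.2 fun x hx => by
        have : b x / β ≤ 1 := (div_le_one hβp).2 (le_ciSup hbB x)
        simp only [Set.mem_ofPred_eq] at hx
        linarith
      simp [h1, h2]
  have hscale : ∀ (f : ℝ → ℝ) (r : ℝ), 0 < r →
      ∫⁻ x, ENNReal.ofReal (f x) = ENNReal.ofReal r * ∫⁻ x, ENNReal.ofReal (f x / r) := by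
    intro f r hr
    rw [← lintegral_const_mul' _ _ ENNReal.ofReal_ne_top]
    refine lintegral_congr fun x => ?_
    rw [← ENNReal.ofReal_mul hr.le, mul_div_cancel₀ _ hr.ne']
  have hamgm : ∀ x y z : ℝ≥0∞, x + y ≤ 2 * z → x * y ≤ z ^ 2 := by
    intro x y z hxy
    rcases eq_or_ne z ∞ with rfl | hz
    · simp
    have hxt : x ≠ ∞ := ne_top_of_le_ne_top (ENNReal.mul_ne_top ENNReal.ofNat_ne_top hz)
      (le_self_add.trans hxy)
    have hyt : y ≠ ∞ := ne_top_of_le_ne_top (ENNReal.mul_ne_top ENNReal.ofNat_ne_top hz)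
      (le_add_self.trans hxy)
    have h' := ENNReal.toReal_mono (ENNReal.mul_ne_top ENNReal.ofNat_ne_top hz) hxy
    rw [ENNReal.toReal_add hxt hyt, ENNReal.toReal_mul] at h'
    rw [← ENNReal.toReal_le_toReal (ENNReal.mul_ne_top hxt hyt) (ENNReal.pow_ne_top hz),
      ENNReal.toReal_mul, ENNReal.toReal_pow]
    simp only [ENNReal.toReal_ofNat] at h'
    nlinarith [sq_nonneg (x.toReal - y.toReal), ENNReal.toReal_nonneg (a := x),
      ENNReal.toReal_nonneg (a := y)]
  calc (∫⁻ x, ENNReal.ofReal (a x)) * ∫⁻ x, ENNReal.ofReal (b x)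
      = ENNReal.ofReal (α * β) *
          ((∫⁻ x, ENNReal.ofReal (a x / α)) * ∫⁻ x, ENNReal.ofReal (b x / β)) := by
        rw [hscale a α hαp, hscale b β hβp, ENNReal.ofReal_mul hαp.le]; ring
    _ ≤ ENNReal.ofReal (α * β) * (∫⁻ x, ENNReal.ofReal (c x / γ)) ^ 2 := by
        gcongr; exact hamgm _ _ _ hkey
    _ = _ := by rw [hscale c γ hγp, mul_pow, ← ENNReal.ofReal_pow hγp.le, hγ2]

/-- The slice of a set at a value of the first coordinate. -/
def sliceSet {n : ℕ} (A : Set (Fin (n + 1) → ℝ)) (t : ℝ) : Set (Fin n → ℝ) :=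
  {y | Fin.cons t y ∈ A}

lemma brunn_minkowski_pi : ∀ {n : ℕ} (A B : Set (Fin n → ℝ)), IsCompact A → IsCompact B →
    volume A * volume B ≤ volume (midSet A B) ^ 2 := by
  intro n
  induction n with
  | zero =>
    intro A B _ _
    rcases A.eq_empty_or_nonempty with rfl | ⟨a, ha⟩
    · simp
    rcases B.eq_empty_or_nonempty with rfl | ⟨b, hb⟩
    · simp
    have huniv : ∀ S : Set (Fin 0 → ℝ), S.Nonempty → S = Set.univ := fun S hS => by
      obtain ⟨s, hs⟩ := hS
      exact Set.eq_univ_of_forall fun x => Subsingleton.elim s x ▸ hs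
    rw [huniv A ⟨a, ha⟩, huniv B ⟨b, hb⟩,
      huniv (midSet Set.univ Set.univ) ⟨_, mem_midSet (Set.mem_univ a) (Set.mem_univ b)⟩, sq]
  | succ n ih =>
    intro A B hA hB
    let e := MeasurableEquiv.piFinSuccAbove (fun _ : Fin (n + 1) => ℝ) 0
    have he : MeasurePreserving e volume (volume.prod volume) :=
      volume_preserving_piFinSuccAbove (fun _ : Fin (n + 1) => ℝ) 0
    have hesymm : ∀ t y, e.symm (t, y) = Fin.cons t y := fun t y => by
      simp [e, MeasurableEquiv.piFinSuccAbove, Fin.insertNthEquiv, Fin.insertNth_zero]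
    have hvol : ∀ S : Set (Fin (n + 1) → ℝ), MeasurableSet S →
        volume S = ∫⁻ t, volume (sliceSet S t) ∧ Measurable fun t => volume (sliceSet S t) := by
      intro S hS
      have hT : MeasurableSet (e.symm ⁻¹' S) := hS.preimage e.symm.measurable
      have hsl : ∀ t, Prod.mk t ⁻¹' (e.symm ⁻¹' S) = sliceSet S t := fun t => by
        ext y; simp [sliceSet, hesymm]
      constructor
      · rw [← (he.symm e).measure_preimage hS.nullMeasurableSet, Measure.prod_apply hT]
        exact lintegral_congr fun t => by rw [hsl]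
      · have := measurable_measure_prodMk_left (ν := (volume : Measure (Fin n → ℝ))) hT
        simpa only [hsl] using this
    have hcons : ∀ t, Continuous fun y : Fin n → ℝ => (Fin.cons t y : Fin (n + 1) → ℝ) := fun t =>
      continuous_const.finCons continuous_id
    have htail : Continuous fun z : Fin (n + 1) → ℝ => (fun i => z (Fin.succ i) : Fin n → ℝ) :=
      continuous_pi fun i => continuous_apply _
    have hsub : ∀ (S : Set (Fin (n + 1) → ℝ)) t,
        sliceSet S t ⊆ (fun z : Fin (n + 1) → ℝ => fun i => z (Fin.succ i)) '' S :=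
      fun S t y hy => ⟨_, hy, funext fun i => Fin.cons_succ _ _ _⟩
    have hcpt : ∀ S : Set (Fin (n + 1) → ℝ), IsCompact S → ∀ t, IsCompact (sliceSet S t) :=
      fun S hS t => (hS.image htail).of_isClosed_subset (hS.isClosed.preimage (hcons t)) (hsub S t)
    set C := midSet A B with hC
    have hCc : IsCompact C := isCompact_midSet hA hB
    let f : Set (Fin (n + 1) → ℝ) → ℝ → ℝ := fun S t => (volume (sliceSet S t)).toReal
    have hfm : ∀ S, IsCompact S → Measurable (f S) := fun S hS =>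
      (hvol S hS.measurableSet).2.ennreal_toReal
    have hfb : ∀ S, IsCompact S → BddAbove (Set.range (f S)) := fun S hS =>
      ⟨(volume ((fun z : Fin (n + 1) → ℝ => fun i => z (Fin.succ i)) '' S)).toReal,
        by rintro _ ⟨t, rfl⟩
           exact ENNReal.toReal_mono (hS.image htail).measure_lt_top.ne (measure_mono (hsub S t))⟩
    have hfeq : ∀ S, IsCompact S → ∫⁻ t, ENNReal.ofReal (f S t) = volume S := fun S hS => by
      rw [(hvol S hS.measurableSet).1]
      exact lintegral_congr fun t => ENNReal.ofReal_toReal (hcpt S hS t).measure_lt_top.ne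
    have h := prekopa_real (hfm A hA) (hfm B hB) (hfm C hCc) (fun _ => ENNReal.toReal_nonneg)
      (fun _ => ENNReal.toReal_nonneg) (fun _ => ENNReal.toReal_nonneg) (hfb A hA) (hfb B hB) ?_
    · rwa [hfeq A hA, hfeq B hB, hfeq C hCc] at h
    intro s t
    have h1 := ih (sliceSet A s) (sliceSet B t) (hcpt A hA s) (hcpt B hB t)
    have h2 : midSet (sliceSet A s) (sliceSet B t) ⊆ sliceSet C ((s + t) / 2) := by
      rintro _ ⟨⟨x, y⟩, ⟨hx, hy⟩, rfl⟩
      refine ⟨(Fin.cons s x, Fin.cons t y), ⟨hx, hy⟩, ?_⟩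
      funext i
      refine Fin.cases ?_ (fun j => ?_) i
      · simp; ring
      · simp; ring
    have h3 := ENNReal.toReal_mono (ENNReal.pow_ne_top (hcpt C hCc _).measure_lt_top.ne)
      (h1.trans (pow_le_pow_left' (measure_mono h2) 2))
    rwa [ENNReal.toReal_mul, ENNReal.toReal_pow] at h3

/-- The multiplicative Brunn–Minkowski inequality in Euclidean space. -/
theorem brunn_minkowski {d : ℕ} {A B : Set (Space d)} (hA : IsCompact A) (hB : IsCompact B) :
    volume.real A * volume.real B ≤ volume.real (midSet A B) ^ 2 := by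
  let q : (Fin d → ℝ) → Space d := WithLp.toLp 2
  have hmp : MeasurePreserving q volume volume := PiLp.volume_preserving_toLp _
  have hA' : IsCompact (WithLp.ofLp '' A : Set (Fin d → ℝ)) := hA.image (PiLp.continuous_ofLp 2 _)
  have hB' : IsCompact (WithLp.ofLp '' B : Set (Fin d → ℝ)) := hB.image (PiLp.continuous_ofLp 2 _)
  have hpre : ∀ S : Set (Space d), q ⁻¹' S = WithLp.ofLp '' S := fun S => by
    ext y
    constructor
    · exact fun h => ⟨q y, h, rfl⟩
    · rintro ⟨x, hx, rfl⟩; exact hx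
  have hmid : WithLp.ofLp '' midSet A B = midSet (WithLp.ofLp '' A) (WithLp.ofLp '' B) := by
    ext y
    constructor
    · rintro ⟨_, ⟨⟨u, v⟩, ⟨hu, hv⟩, rfl⟩, rfl⟩
      exact ⟨(u.ofLp, v.ofLp), ⟨⟨u, hu, rfl⟩, ⟨v, hv, rfl⟩⟩, rfl⟩
    · rintro ⟨⟨_, _⟩, ⟨⟨u, hu, rfl⟩, ⟨v, hv, rfl⟩⟩, rfl⟩
      exact ⟨_, mem_midSet hu hv, rfl⟩
  have hv : ∀ S : Set (Space d), IsCompact S → volume (WithLp.ofLp '' S) = volume S := fun S hS => by
    rw [← hpre, hmp.measure_preimage hS.measurableSet.nullMeasurableSet]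
  have h := brunn_minkowski_pi _ _ hA' hB'
  rw [← hmid, hv A hA, hv B hB, hv _ (isCompact_midSet hA hB)] at h
  have h' := ENNReal.toReal_mono (ENNReal.pow_ne_top (isCompact_midSet hA hB).measure_lt_top.ne) h
  rwa [ENNReal.toReal_mul, ENNReal.toReal_pow] at h'

end Vale.Agent.P074
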