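import Vale.Agent.P074.Maps

/-!
Three atoms, the middle one of mass `w` moved by `w`: no exponent above `1/3` is admissible.
-/

open MeasureTheory Filter Topology
open scoped ENNReal NNReal RealInnerProductSpace

namespace Vale.Agent.P074

variable {d : ℕ}

/-- A coordinate box. -/
def box (a b : Fin d → ℝ) : Set (Space d) := {x | ∀ i, x i ∈ Set.Icc (a i) (b i)}

lemma volume_box (a b : Fin d → ℝ) : volume (box a b) = ∏ i, ENNReal.ofReal (b i - a i) := by
  have h : box a b = WithLp.ofLp ⁻¹' (Set.Icc a b) := by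
    ext x; simp [box, Pi.le_def, forall_and]
  rw [h, (PiLp.volume_preserving_ofLp (Fin d)).measure_preimage
    measurableSet_Icc.nullMeasurableSet, Real.volume_Icc_pi]

lemma volume_level (f : Space d →L[ℝ] ℝ) (hf : f ≠ 0) (c : ℝ) :
    volume {x : Space d | f x = c} = 0 := by
  obtain ⟨z, hz⟩ : ∃ z, f z ≠ 0 := by
    by_contra h
    push Not at h
    exact hf (ContinuousLinearMap.ext h)
  have hker : LinearMap.ker (f : Space d →ₗ[ℝ] ℝ) ≠ ⊤ := by
    intro h
    have := LinearMap.ker_eq_top.1 h
    exact hz (by simpa using congrArg (fun g : Space d →ₗ[ℝ] ℝ => g z) this)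
  have h0 := Measure.addHaar_submodule (volume : Measure (Space d)) _ hker
  have h : {x : Space d | f x = c} = (fun x => x + -((c / f z) • z)) ⁻¹'
      (LinearMap.ker (f : Space d →ₗ[ℝ] ℝ) : Set (Space d)) := by
    ext x
    simp only [Set.mem_preimage, SetLike.mem_coe, LinearMap.mem_ker, ContinuousLinearMap.coe_coe,
      map_add, map_neg, map_smul, smul_eq_mul, div_mul_cancel₀ _ hz, Set.mem_ofPred_eq]
    constructor <;> intro h' <;> linarith
  rw [h, measure_preimage_add_right, h0]

lemma measurable_band {f g h : Space d → ℝ} (hf : Measurable f) (hg : Measurable g)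
    (hh : Measurable h) : MeasurableSet {x | f x < g x ∧ g x < h x} :=
  (measurableSet_lt hf hg).inter (measurableSet_lt hg hh)

section Construction

variable {i₀ i₁ : Fin d}

/-- The unit cube centred at the origin. -/
def cube (d : ℕ) : Set (Space d) := box (fun _ => -(1 / 2)) (fun _ => 1 / 2)

lemma volume_cube : volume (cube d) = 1 := by
  rw [cube, volume_box]
  norm_num

lemma isCompact_cube : IsCompact (cube d) := by
  have h : cube d = (WithLp.toLp 2) '' (Set.Icc (fun _ => -(1 / 2)) (fun _ => 1 / 2)) := by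
    ext x
    simp only [cube, box, Set.mem_image, Set.mem_Icc, Pi.le_def, Set.mem_ofPred_eq]
    constructor
    · exact fun h => ⟨x.ofLp, ⟨fun i => (h i).1, fun i => (h i).2⟩, rfl⟩
    · rintro ⟨y, ⟨h1, h2⟩, rfl⟩ i
      exact ⟨h1 i, h2 i⟩
  rw [h]
  exact isCompact_Icc.image (PiLp.continuous_toLp 2 _)

lemma convex_cube : Convex ℝ (cube d) := by
  intro x hx y hy a b ha hb hab i
  have h1 := hx i
  have h2 := hy i
  simp only [Set.mem_Icc, PiLp.add_apply, PiLp.smul_apply, smul_eq_mul] at *
  constructor <;> nlinarith [mul_le_mul_of_nonneg_left h1.1 ha, mul_le_mul_of_nonneg_left h2.1 hb,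
    mul_le_mul_of_nonneg_left h1.2 ha, mul_le_mul_of_nonneg_left h2.2 hb]

lemma interior_cube : (interior (cube d)).Nonempty := by
  refine ⟨0, interior_maximal (fun x hx i => ?_) Metric.isOpen_ball
    (Metric.mem_ball_self (by norm_num : (0:ℝ) < 1 / 2))⟩
  rw [Metric.mem_ball, dist_zero_right] at hx
  have := PiLp.norm_apply_le x i
  rw [Real.norm_eq_abs, abs_le] at this
  exact ⟨by linarith, by linarith⟩

lemma uniformOn_cube : uniformOn (cube d) = volume.restrict (cube d) := by
  simp [uniformOn, volume_cube]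

/-- The part of the cube right of the line `x₀ = w/2 + k x₁`. -/
def rightPart (i₀ i₁ : Fin d) (w k : ℝ) : Set (Space d) := {x | w / 2 + k * x i₁ < x i₀}

/-- The part of the cube left of the line `x₀ = -(w/2 + k x₁)`. -/
def leftPart (i₀ i₁ : Fin d) (w k : ℝ) : Set (Space d) := {x | x i₀ < -(w / 2 + k * x i₁)}

lemma measurable_rightPart (w k : ℝ) : MeasurableSet (rightPart i₀ i₁ w k) :=
  measurableSet_lt (by fun_prop) (by fun_prop)

lemma measurable_leftPart (w k : ℝ) : MeasurableSet (leftPart i₀ i₁ w k) :=
  measurableSet_lt (by fun_prop) (by fun_prop)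

lemma volume_slab (hne : i₀ ≠ i₁) {a b : ℝ} (ha : -(1 / 2) ≤ a) (hb : b ≤ 1 / 2) :
    volume (cube d ∩ {x | a < x i₀ ∧ x i₀ < b}) = ENNReal.ofReal (b - a) := by
  have hnull : ∀ c, volume {x : Space d | x i₀ = c} = 0 := fun c => by
    refine volume_level (EuclideanSpace.proj i₀) (fun h => ?_) c
    have := congrArg (fun g : Space d →L[ℝ] ℝ => g (EuclideanSpace.single i₀ 1)) h
    simp at this
  let A : Fin d → ℝ := Function.update (fun _ => -(1 / 2)) i₀ a
  let B : Fin d → ℝ := Function.update (fun _ => 1 / 2) i₀ b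
  have hset : box A B = cube d ∩ {x | a ≤ x i₀ ∧ x i₀ ≤ b} := by
    ext x
    simp only [box, cube, A, B, Set.mem_inter_iff, Set.mem_ofPred_eq, Set.mem_Icc]
    constructor
    · intro h
      have h0 := h i₀
      simp only [Function.update_self] at h0
      refine ⟨fun i => ?_, h0⟩
      rcases eq_or_ne i i₀ with rfl | hi
      · exact ⟨by linarith, by linarith⟩
      · simpa [Function.update_of_ne hi] using h i
    · intro h i
      rcases eq_or_ne i i₀ with rfl | hi
      · simpa using h.2
      · simpa [Function.update_of_ne hi] using h.1 i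
  have hae : (cube d ∩ {x | a < x i₀ ∧ x i₀ < b} : Set (Space d)) =ᵐ[volume] box A B := by
    rw [hset]
    filter_upwards [compl_mem_ae_iff.2 (hnull a), compl_mem_ae_iff.2 (hnull b)] with x hxa hxb
    refine propext ⟨fun h => ⟨h.1, h.2.1.le, h.2.2.le⟩, fun h => ⟨h.1, ?_, ?_⟩⟩
    · exact lt_of_le_of_ne h.2.1 (fun e => hxa e.symm)
    · exact lt_of_le_of_ne h.2.2 (fun e => hxb e)
  rw [measure_congr hae, volume_box, Finset.prod_eq_single i₀]
  · simp [A, B]
  · intro i _ hi
    simp [A, B, Function.update_of_ne hi]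
    norm_num
  · simp

lemma volume_rightPart (hne : i₀ ≠ i₁) {w k : ℝ} (hw : 0 ≤ w) (hw' : w ≤ 1 / 2)
    (hk : |k| ≤ w) : volume (cube d ∩ rightPart i₀ i₁ w k) = ENNReal.ofReal ((1 - w) / 2) := by
  obtain ⟨hk1, hk2⟩ := abs_le.1 hk
  have hθ : ∀ x ∈ cube d, 0 ≤ w / 2 + k * x i₁ ∧ w / 2 + k * x i₁ ≤ w := by
    intro x hx
    have h := hx i₁
    simp only [Set.mem_Icc] at h
    constructor <;> nlinarith
  have hnull : ∀ c, volume {x : Space d | x i₀ - k * x i₁ = c} = 0 := fun c => by
    refine volume_level (EuclideanSpace.proj i₀ - k • EuclideanSpace.proj i₁) (fun h => ?_) c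
    have := congrArg (fun g : Space d →L[ℝ] ℝ => g (EuclideanSpace.single i₀ 1)) h
    simp [hne.symm] at this
  have hhalf : ∀ c, volume {x : Space d | x i₀ = c} = 0 := fun c => by
    refine volume_level (EuclideanSpace.proj i₀) (fun h => ?_) c
    have := congrArg (fun g : Space d →L[ℝ] ℝ => g (EuclideanSpace.single i₀ 1)) h
    simp at this
  let P : Set (Space d) := cube d ∩ {x | 0 < x i₀ ∧ x i₀ < w / 2 + k * x i₁}
  let Q : Set (Space d) := cube d ∩ {x | w / 2 + k * x i₁ < x i₀ ∧ x i₀ < w}
  let c : Space d := EuclideanSpace.single i₀ w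
  let U : Set (Space d) := cube d ∩ {x | w < x i₀ ∧ x i₀ < 1 / 2}
  have hcm : MeasurableSet (cube d) := isCompact_cube.measurableSet
  have hPm : MeasurableSet P := hcm.inter (measurable_band (by fun_prop) (by fun_prop) (by fun_prop))
  have hQm : MeasurableSet Q := hcm.inter (measurable_band (by fun_prop) (by fun_prop) (by fun_prop))
  have hPQ : volume P = volume Q := by
    have h : P = (fun x : Space d => -x) ⁻¹' ((fun x => x + c) ⁻¹' Q) := by
      ext x
      simp only [P, Q, c, cube, box, Set.mem_preimage, Set.mem_inter_iff, Set.mem_ofPred_eq,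
        Set.mem_Icc, PiLp.add_apply, PiLp.neg_apply, PiLp.single_apply]
      constructor
      · rintro ⟨h1, h2, h3⟩
        obtain ⟨hb1, hb2⟩ := h1 i₁
        refine ⟨fun i => ?_, ?_, ?_⟩
        · rcases eq_or_ne i i₀ with rfl | hi
          · have hn : k * x i₁ ≤ w / 2 := by nlinarith
            rw [if_pos rfl]
            exact ⟨by linarith, by linarith⟩
          · rw [if_neg hi]
            exact ⟨by linarith [(h1 i).2], by linarith [(h1 i).1]⟩
        · simp only [if_true, hne.symm, if_false, add_zero]; linarith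
        · simp only [if_true]; linarith
      · rintro ⟨h1, h2, h3⟩
        simp only [if_true, hne.symm, if_false, add_zero] at h2 h3
        refine ⟨fun i => ?_, by linarith, by linarith⟩
        rcases eq_or_ne i i₀ with rfl | hi
        · have hb := h1 i₁
          rw [if_neg hne.symm] at hb
          obtain ⟨hb1, hb2⟩ := hb
          exact ⟨by linarith, by nlinarith⟩
        · have hb := h1 i
          rw [if_neg hi] at hb
          exact ⟨by linarith [hb.2], by linarith [hb.1]⟩
    rw [h, Measure.measure_preimage_neg, measure_preimage_add_right]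
  have hsum : volume P + volume Q = ENNReal.ofReal w := by
    have hslab := volume_slab (d := d) hne (a := 0) (b := w) (by norm_num) hw'
    rw [sub_zero] at hslab
    rw [← measure_union _ hQm, ← hslab]
    · apply measure_congr
      filter_upwards [compl_mem_ae_iff.2 (hnull (w / 2))] with x hx
      refine propext ⟨?_, ?_⟩
      · rintro (⟨h1, h2, h3⟩ | ⟨h1, h2, h3⟩)
        · exact ⟨h1, h2, by linarith [(hθ x h1).2]⟩
        · exact ⟨h1, by linarith [(hθ x h1).1], h3⟩
      · rintro ⟨h1, h2, h3⟩
        rcases lt_trichotomy (x i₀) (w / 2 + k * x i₁) with h | h | h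
        · exact Or.inl ⟨h1, h2, h⟩
        · exact absurd (show x i₀ - k * x i₁ = w / 2 by linarith) hx
        · exact Or.inr ⟨h1, h, h3⟩
    · exact Set.disjoint_left.2 fun x h1 h2 => by linarith [h1.2.2, h2.2.1]
  have hQ : volume Q = ENNReal.ofReal (w / 2) := by
    have hf : volume Q ≠ ∞ := (measure_lt_top_of_subset Set.inter_subset_left (by simp [volume_cube])).ne
    rw [hPQ] at hsum
    rw [← ENNReal.ofReal_toReal hf] at hsum ⊢
    rw [← ENNReal.ofReal_add ENNReal.toReal_nonneg ENNReal.toReal_nonneg,
      ENNReal.ofReal_eq_ofReal_iff (by positivity) hw] at hsum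
    congr 1
    linarith
  have hUm : MeasurableSet U := hcm.inter (measurable_band (by fun_prop) (by fun_prop) (by fun_prop))
  calc volume (cube d ∩ rightPart i₀ i₁ w k) = volume (Q ∪ U) := by
        apply measure_congr
        filter_upwards [compl_mem_ae_iff.2 (hhalf w), compl_mem_ae_iff.2 (hhalf (1 / 2))]
          with x hx hx'
        refine propext ⟨?_, ?_⟩
        · rintro ⟨h1, h2⟩
          rcases lt_trichotomy (x i₀) w with h | h | h
          · exact Or.inl ⟨h1, h2, h⟩
          · exact absurd h hx
          · exact Or.inr ⟨h1, h, lt_of_le_of_ne (h1 i₀).2 hx'⟩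
        · rintro (⟨h1, h2, -⟩ | ⟨h1, h2, -⟩)
          · exact ⟨h1, h2⟩
          · exact ⟨h1, show w / 2 + k * x i₁ < x i₀ by linarith [(hθ x h1).2]⟩
    _ = volume Q + volume U := by
        rw [measure_union _ hUm]
        exact Set.disjoint_left.2 fun x h1 h2 => by linarith [h1.2.2, h2.2.1]
    _ = ENNReal.ofReal (w / 2) + ENNReal.ofReal (1 / 2 - w) := by
        rw [hQ, volume_slab hne (by linarith) le_rfl]
    _ = _ := by
        rw [← ENNReal.ofReal_add (by linarith) (by linarith)]
        congr 1
        ring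

lemma volume_leftPart (hne : i₀ ≠ i₁) {w k : ℝ} (hw : 0 ≤ w) (hw' : w ≤ 1 / 2)
    (hk : |k| ≤ w) : volume (cube d ∩ leftPart i₀ i₁ w k) = ENNReal.ofReal ((1 - w) / 2) := by
  rw [← volume_rightPart hne hw hw' (k := -k) (by rwa [abs_neg]), ← Measure.measure_preimage_neg volume
    (cube d ∩ rightPart i₀ i₁ w (-k))]
  congr 1
  ext x
  simp only [cube, box, leftPart, rightPart, Set.mem_preimage, Set.mem_inter_iff, Set.mem_ofPred_eq,
    Set.mem_Icc, PiLp.neg_apply]
  constructor <;> rintro ⟨h1, h2⟩ <;>
    exact ⟨fun i => ⟨by linarith [(h1 i).2], by linarith [(h1 i).1]⟩, by linarith⟩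

/-- The two maps of the example: `c = 0` and `c = w`. -/
noncomputable def exMap (i₀ i₁ : Fin d) (w c : ℝ) (x : Space d) : Space d :=
  open Classical in
  if x ∈ rightPart i₀ i₁ w c then EuclideanSpace.single i₀ 1
  else if x ∈ leftPart i₀ i₁ w c then EuclideanSpace.single i₀ (-1)
  else EuclideanSpace.single i₁ c

lemma measurable_exMap (w c : ℝ) : Measurable (exMap i₀ i₁ w c) :=
  Measurable.ite (measurable_rightPart w c) measurable_const
    (Measurable.ite (measurable_leftPart w c) measurable_const measurable_const)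

lemma map_exMap (hne : i₀ ≠ i₁) {w c : ℝ} (hw : 0 ≤ w) (hw' : w ≤ 1 / 2) (hc : |c| ≤ w) :
    (uniformOn (cube d)).map (exMap i₀ i₁ w c) =
      ENNReal.ofReal ((1 - w) / 2) • Measure.dirac (EuclideanSpace.single i₀ (1:ℝ)) +
      ENNReal.ofReal ((1 - w) / 2) • Measure.dirac (EuclideanSpace.single i₀ (-1:ℝ)) +
      ENNReal.ofReal w • Measure.dirac (EuclideanSpace.single i₁ c) := by
  obtain ⟨hc1, hc2⟩ := abs_le.1 hc
  rw [uniformOn_cube]
  set A := cube d ∩ rightPart i₀ i₁ w c
  set B := cube d ∩ leftPart i₀ i₁ w c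
  set M := cube d \ (A ∪ B)
  have hcm : MeasurableSet (cube d) := isCompact_cube.measurableSet
  have hA : MeasurableSet A := hcm.inter (measurable_rightPart w c)
  have hB : MeasurableSet B := hcm.inter (measurable_leftPart w c)
  have hM : MeasurableSet M := hcm.diff (hA.union hB)
  have hdis : Disjoint A B := Set.disjoint_left.2 fun x h1 h2 => by
    have := h1.1 i₁
    have h3 : w / 2 + c * x i₁ < x i₀ := h1.2
    have h4 : x i₀ < -(w / 2 + c * x i₁) := h2.2
    nlinarith [this.1, this.2]
  have hvol : volume M = ENNReal.ofReal w := by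
    rw [measure_diff (Set.union_subset Set.inter_subset_left Set.inter_subset_left)
      (hA.union hB).nullMeasurableSet, measure_union hdis hB, volume_rightPart hne hw hw' hc,
      volume_leftPart hne hw hw' hc, volume_cube, ← ENNReal.ofReal_add (by linarith) (by linarith),
      ← ENNReal.ofReal_one, ← ENNReal.ofReal_sub _ (by linarith)]
    · congr 1; ring
    · exact (measure_lt_top_of_subset (Set.union_subset Set.inter_subset_left Set.inter_subset_left)
        (by simp [volume_cube])).ne
  have hsplit : volume.restrict (cube d) = volume.restrict A + volume.restrict B + volume.restrict M := by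
    rw [← Measure.restrict_union hdis hB, ← Measure.restrict_union Set.disjoint_sdiff_right hM,
      Set.union_sdiff_cancel (Set.union_subset Set.inter_subset_left Set.inter_subset_left)]
  have hm := measurable_exMap (i₀ := i₀) (i₁ := i₁) w c
  have hconst : ∀ (S : Set (Space d)), MeasurableSet S → ∀ v : Space d,
      (∀ x ∈ S, exMap i₀ i₁ w c x = v) →
      (volume.restrict S).map (exMap i₀ i₁ w c) = volume S • Measure.dirac v := by
    intro S hS v hv
    rw [Measure.map_congr (g := fun _ => v) ((ae_restrict_iff' hS).2 (Eventually.of_forall hv)),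
      Measure.map_const]
    simp
  rw [hsplit, Measure.map_add _ _ hm, Measure.map_add _ _ hm,
    hconst A hA (EuclideanSpace.single i₀ 1) fun x hx => if_pos hx.2,
    hconst B hB (EuclideanSpace.single i₀ (-1)) fun x hx => ?_,
    hconst M hM (EuclideanSpace.single i₁ c) fun x hx => ?_,
    volume_rightPart hne hw hw' hc, volume_leftPart hne hw hw' hc, hvol]
  · rw [exMap, if_neg fun h => hx.2 (Or.inl ⟨hx.1, h⟩), if_neg fun h => hx.2 (Or.inr ⟨hx.1, h⟩)]
  · rw [exMap, if_neg fun h => Set.disjoint_left.1 hdis ⟨hx.1, h⟩ hx, if_pos hx.2]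

lemma optimal_exMap (hne : i₀ ≠ i₁) {w c : ℝ} (hw : 0 ≤ w) (hw' : w ≤ 1 / 2) (hc : |c| ≤ w) :
    IsOTMap (uniformOn (cube d)) ((uniformOn (cube d)).map (exMap i₀ i₁ w c))
      (exMap i₀ i₁ w c) := by
  obtain ⟨hc1, hc2⟩ := abs_le.1 hc
  let e : Space d := EuclideanSpace.single i₀ 1
  let e' : Space d := EuclideanSpace.single i₀ (-1)
  let m : Space d := EuclideanSpace.single i₁ c
  let S : Set (Space d) := {e, e', m}
  have hS : IsCompact S := (Set.toFinite S).isCompact
  have hSne : S.Nonempty := ⟨e, by simp [S]⟩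
  obtain ⟨hprob, hρ, -⟩ := uniformOn_props (isCompact_cube (d := d)) interior_cube
  have hmem : ∀ x, exMap i₀ i₁ w c x ∈ S := fun x => by
    unfold exMap
    split_ifs <;> simp [S, e, e', m]
  have hnu : ((uniformOn (cube d)).map (exMap i₀ i₁ w c)) Sᶜ = 0 := by
    rw [Measure.map_apply (measurable_exMap w c) hS.measurableSet.compl]
    simp [Set.preimage, hmem]
  let Φ : Space d → ℝ := fun y => w / 2 * |y i₀|
  have hΦ : Continuous Φ := by fun_prop
  refine isOTMap_of_potential isCompact_cube hS hSne hρ hnu hΦ (measurable_exMap w c) rfl ?_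
  filter_upwards [ae_iff.2 hρ] with x hx
  obtain ⟨hb1, hb2⟩ := hx i₁
  have hve : ⟪x, e⟫ - Φ e = x i₀ - w / 2 := by
    rw [real_inner_comm]; simp [e, Φ, EuclideanSpace.inner_single_left]
  have hve' : ⟪x, e'⟫ - Φ e' = -x i₀ - w / 2 := by
    rw [real_inner_comm]; simp [e', Φ, EuclideanSpace.inner_single_left]
  have hvm : ⟪x, m⟫ - Φ m = c * x i₁ := by
    rw [real_inner_comm]; simp [m, Φ, EuclideanSpace.inner_single_left, hne.symm, hne]
  refine le_antisymm ?_ (le_conj hS hΦ.continuousOn x (hmem x))
  obtain ⟨y, hy, hxy⟩ := exists_max hS hSne hΦ.continuousOn x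
  rw [hxy]
  unfold exMap
  split_ifs with h1 h2
  · have h3 : w / 2 + c * x i₁ < x i₀ := h1
    change _ ≤ ⟪x, e⟫ - Φ e
    rcases hy with rfl | rfl | rfl <;> simp only [hve, hve', hvm] <;> nlinarith
  · have h3 : x i₀ < -(w / 2 + c * x i₁) := h2
    change _ ≤ ⟪x, e'⟫ - Φ e'
    rcases hy with rfl | rfl | rfl <;> simp only [hve, hve', hvm] <;> nlinarith
  · have h3 : x i₀ ≤ w / 2 + c * x i₁ := not_lt.1 h1
    have h4 : -(w / 2 + c * x i₁) ≤ x i₀ := not_lt.1 h2
    change _ ≤ ⟪x, m⟫ - Φ m
    rcases hy with rfl | rfl | rfl <;> simp only [hve, hve', hvm] <;> nlinarith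

/-- No exponent above `1/3` is admissible. -/
theorem admissible_le_third (hd : 2 ≤ d) {α : ℝ} (h : Admissible d α) : α ≤ 1 / 3 := by
  by_contra hα
  push Not at hα
  let i₀ : Fin d := ⟨0, by omega⟩
  let i₁ : Fin d := ⟨1, by omega⟩
  have hne : i₀ ≠ i₁ := by simp [i₀, i₁]
  obtain ⟨C, hC⟩ := h (cube d) isCompact_cube convex_cube interior_cube
    (Metric.closedBall 0 1) (isCompact_closedBall _ _) ⟨0, by simp⟩
  obtain ⟨hprob, hρ, -⟩ := uniformOn_props (isCompact_cube (d := d)) interior_cube
  have key : ∀ w : ℝ, 0 < w → w ≤ 1 / 2 → w / 32 ≤ (C:ℝ) ^ 2 * w ^ (3 * α) := by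
    intro w hw hw'
    have hw0 : |(0:ℝ)| ≤ w := by simpa using hw.le
    have hww : |w| ≤ w := (abs_of_pos hw).le
    set ρ := uniformOn (cube d)
    set T := exMap i₀ i₁ w 0
    set S := exMap i₀ i₁ w w
    have hY : ∀ c, |c| ≤ w → ∀ x, exMap i₀ i₁ w c x ∈ Metric.closedBall (0 : Space d) 1 := by
      intro c hc x
      unfold exMap
      split_ifs <;> simp
      linarith
    have hsupp : ∀ c, |c| ≤ w → (ρ.map (exMap i₀ i₁ w c)) (Metric.closedBall (0 : Space d) 1)ᶜ = 0 := by
      intro c hc
      rw [Measure.map_apply (measurable_exMap w c) measurableSet_closedBall.compl]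
      convert measure_empty (μ := ρ)
      ext x
      simpa using hY c hc x
    have hm := hC (ρ.map T) (ρ.map S)
      (Measure.isProbabilityMeasure_map (measurable_exMap w 0).aemeasurable)
      (Measure.isProbabilityMeasure_map (measurable_exMap w w).aemeasurable)
      (hsupp 0 hw0) (hsupp w hww) T S (optimal_exMap hne hw.le hw' hw0)
      (optimal_exMap hne hw.le hw' hww)
    -- a cheap coupling
    let g : Space d → Space d := fun y =>
      open Classical in if y = 0 then EuclideanSpace.single i₁ w else y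
    have hg : Measurable g :=
      Measurable.ite (measurableSet_singleton 0) measurable_const measurable_id
    have hge : g (EuclideanSpace.single i₀ (1:ℝ)) = EuclideanSpace.single i₀ (1:ℝ) := by
      simp [g]
    have hge' : g (EuclideanSpace.single i₀ (-1:ℝ)) = EuclideanSpace.single i₀ (-1:ℝ) := by
      simp [g]
    have hgm : g (EuclideanSpace.single i₁ (0:ℝ)) = EuclideanSpace.single i₁ w := by
      simp [g]
    have hπ2 : (ρ.map T).map g = ρ.map S := by
      simp only [ρ, T, S, map_exMap hne hw.le hw' hw0, map_exMap hne hw.le hw' hww]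
      rw [Measure.map_add _ _ hg, Measure.map_add _ _ hg, Measure.map_smul, Measure.map_smul,
        Measure.map_smul, Measure.map_dirac' hg, Measure.map_dirac' hg, Measure.map_dirac' hg,
        hge, hge', hgm]
    have hcost : W2 (ρ.map T) (ρ.map S) ≤ (ENNReal.ofReal (w ^ 3)) ^ (1 / 2 : ℝ) := by
      have hpair : Measurable fun y : Space d => (y, g y) := measurable_id.prodMk hg
      unfold W2
      gcongr
      refine iInf_le_of_le ((ρ.map T).map fun y => (y, g y)) <| iInf_le_of_le ?_ <| iInf_le_of_le ?_ ?_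
      · rw [Measure.map_map measurable_fst hpair]; exact Measure.map_id
      · rw [Measure.map_map measurable_snd hpair]; exact hπ2
      · rw [lintegral_map (by fun_prop) hpair]
        simp only [ρ, T, map_exMap hne hw.le hw' hw0, lintegral_add_measure, lintegral_smul_measure,
          lintegral_dirac, hge, hge', hgm, smul_eq_mul, sub_self, norm_zero]
        simp only [zero_pow two_ne_zero, ENNReal.ofReal_zero, mul_zero, zero_add]
        rw [← ENNReal.ofReal_mul hw.le]
        refine ENNReal.ofReal_le_ofReal ?_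
        rw [show (EuclideanSpace.single i₁ (0:ℝ) : Space d) = 0 by ext j; simp, zero_sub, norm_neg,
          EuclideanSpace.norm_single, Real.norm_eq_abs, abs_of_pos hw]
        exact le_of_eq (by ring)
    -- a lower bound for the distance of the maps
    have hlow : (ENNReal.ofReal (w / 32)) ^ (1 / 2 : ℝ) ≤ mapDist ρ T S := by
      let A : Fin d → ℝ := Function.update (Function.update (fun _ => -(1 / 2)) i₁ (1 / 4)) i₀ (5 * w / 8)
      let B : Fin d → ℝ := Function.update (fun _ => 1 / 2) i₀ (3 * w / 4)
      have hsub : box A B ⊆ cube d := fun x hx i => by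
        have := hx i
        simp only [Set.mem_Icc, A, B, Function.update_apply] at this ⊢
        split_ifs at this <;> constructor <;> linarith
      have hvol : volume (box A B) = ENNReal.ofReal (w / 32) := by
        rw [volume_box, ← Finset.prod_subset (Finset.subset_univ {i₀, i₁})]
        · rw [Finset.prod_pair hne]
          simp only [A, B, Function.update_self, Function.update_of_ne hne.symm]
          rw [← ENNReal.ofReal_mul (by linarith)]
          congr 1
          ring
        · intro i _ hi
          simp only [Finset.mem_insert, Finset.mem_singleton, not_or] at hi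
          simp [A, B, Function.update_of_ne hi.1, Function.update_of_ne hi.2]
          norm_num
      unfold mapDist
      gcongr
      have hbm : MeasurableSet (box A B) := by
        have : box A B = ⋂ i, {x : Space d | x i ∈ Set.Icc (A i) (B i)} := by ext; simp [box]
        rw [this]
        exact MeasurableSet.iInter fun i => measurableSet_Icc.preimage (by fun_prop)
      calc ENNReal.ofReal (w / 32) = ∫⁻ _x in box A B, 1 ∂ρ := by
            simp only [ρ, uniformOn_cube, lintegral_const, one_mul, Measure.restrict_apply_univ]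
            rw [Measure.restrict_apply hbm, Set.inter_eq_left.2 hsub, hvol]
        _ ≤ ∫⁻ x in box A B, ENNReal.ofReal (‖T x - S x‖ ^ 2) ∂ρ := by
            refine setLIntegral_mono' hbm fun x hx => ?_
            have h0 := hx i₀
            have h1 := hx i₁
            simp only [Set.mem_Icc, A, B, Function.update_self, Function.update_of_ne hne.symm] at h0 h1
            have hT : T x = EuclideanSpace.single i₀ 1 :=
              if_pos (show w / 2 + 0 * x i₁ < x i₀ by linarith)
            have hS : S x = EuclideanSpace.single i₁ w := by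
              simp only [S, exMap]
              rw [if_neg (show x ∉ rightPart i₀ i₁ w w from fun h => by simp only [rightPart, Set.mem_ofPred_eq] at h; nlinarith),
                if_neg (show x ∉ leftPart i₀ i₁ w w from fun h => by simp only [leftPart, Set.mem_ofPred_eq] at h; nlinarith)]
            rw [hT, hS, ENNReal.one_le_ofReal]
            have h := PiLp.norm_apply_le
              (EuclideanSpace.single i₀ (1:ℝ) - EuclideanSpace.single i₁ w) i₀
            simp [hne, hne.symm] at h
            nlinarith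
        _ ≤ _ := setLIntegral_le_lintegral _ _
    have hfin : (ENNReal.ofReal (w / 32)) ^ (1 / 2 : ℝ) ≤
        (C : ℝ≥0∞) * ((ENNReal.ofReal (w ^ 3)) ^ (1 / 2 : ℝ)) ^ α :=
      (hlow.trans hm).trans (by gcongr)
    rw [ENNReal.ofReal_rpow_of_nonneg (by positivity) (by norm_num),
      ENNReal.ofReal_rpow_of_nonneg (by positivity) (by norm_num),
      ENNReal.ofReal_rpow_of_nonneg (by positivity) (by linarith),
      ← ENNReal.ofReal_coe_nnreal, ← ENNReal.ofReal_mul NNReal.zero_le_coe,
      ENNReal.ofReal_le_ofReal_iff (by positivity)] at hfin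
    have h2 := pow_le_pow_left₀ (by positivity) hfin 2
    rw [mul_pow] at h2
    calc w / 32 = ((w / 32) ^ (1 / 2 : ℝ)) ^ 2 := by
          rw [← Real.rpow_natCast, ← Real.rpow_mul (by positivity)]; norm_num
      _ ≤ _ := h2
      _ = (C:ℝ) ^ 2 * w ^ (3 * α) := by
          congr 1
          rw [← Real.rpow_natCast w 3, ← Real.rpow_mul hw.le, ← Real.rpow_mul hw.le,
            ← Real.rpow_natCast, ← Real.rpow_mul hw.le]
          congr 1
          push_cast
          ring
  have hlim : Tendsto (fun n : ℕ => (C:ℝ) ^ 2 * (1 / ((n:ℝ) + 2)) ^ (3 * α - 1)) atTop (𝓝 0) := by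
    have h1 : Tendsto (fun n : ℕ => 1 / ((n:ℝ) + 2)) atTop (𝓝 0) :=
      tendsto_const_nhds.div_atTop (tendsto_natCast_atTop_atTop.atTop_add tendsto_const_nhds)
    have h2 := ((Real.continuousAt_rpow_const 0 (3 * α - 1) (Or.inr (by linarith))).tendsto.comp h1)
    rw [Real.zero_rpow (by linarith)] at h2
    simpa using h2.const_mul ((C:ℝ) ^ 2)
  obtain ⟨n, hn⟩ := (hlim.eventually (eventually_lt_nhds (by norm_num : (0:ℝ) < 1 / 32))).exists
  set w : ℝ := 1 / ((n:ℝ) + 2) with hwdef
  have hw : 0 < w := by positivity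
  have hw' : w ≤ 1 / 2 := by
    rw [hwdef]; gcongr; linarith [n.cast_nonneg (α := ℝ)]
  have hk := key w hw hw'
  rw [show w ^ (3 * α) = w * w ^ (3 * α - 1) by
    rw [← Real.rpow_one_add' hw.le (by linarith)]; ring_nf] at hk
  nlinarith

end Construction

end Vale.Agent.P074
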