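import Vale.Agent.P074.BrunnMinkowski
import Vale.Agent.P074.Example

/-!
If the midpoint set of two cells is not much larger than the cells, their centroids are close,
with a gain in the second moment.
-/

open MeasureTheory Filter Topology
open scoped ENNReal NNReal

namespace Vale.Agent.P074

variable {d : ℕ} {S : Set (Space d)} {i : Fin d}

/-- The part of `S` with `i`-th coordinate in `(a, b]`. -/
def slab (i : Fin d) (S : Set (Space d)) (a b : ℝ) : Set (Space d) := S ∩ {x | a < x i ∧ x i ≤ b}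

lemma measurable_slab (hS : MeasurableSet S) (a b : ℝ) : MeasurableSet (slab i S a b) :=
  hS.inter (show MeasurableSet ({x : Space d | a < x i} ∩ {x | x i ≤ b}) from
    (measurableSet_lt measurable_const (by fun_prop)).inter
      (measurableSet_le (by fun_prop) measurable_const))

lemma volume_coord_level (i : Fin d) (c : ℝ) : volume {x : Space d | x i = c} = 0 := by
  refine volume_level (EuclideanSpace.proj i) (fun h => ?_) c
  have := congrArg (fun g : Space d →L[ℝ] ℝ => g (EuclideanSpace.single i 1)) h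
  simp at this

lemma slab_ae_eq (i : Fin d) (S : Set (Space d)) (a b : ℝ) :
    (slab i S a b : Set (Space d)) =ᵐ[volume] (S ∩ {x | a ≤ x i ∧ x i ≤ b} : Set (Space d)) := by
  filter_upwards [compl_mem_ae_iff.2 (volume_coord_level i a)] with x hx
  refine propext ⟨fun h => ⟨h.1, h.2.1.le, h.2.2⟩, fun h => ⟨h.1, ?_, h.2.2⟩⟩
  exact lt_of_le_of_ne h.2.1 (fun e => hx e.symm)

/-- Slabs along a monotone list of levels cut a set into pieces. -/
lemma integral_slabs (hS : MeasurableSet S) {f : Space d → ℝ} (hf : IntegrableOn f S) {n : ℕ}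
    {t : ℕ → ℝ} (hmono : ∀ k < n, t k ≤ t (k + 1))
    (h0 : ∀ x ∈ S, t 0 ≤ x i) (hn : ∀ x ∈ S, x i ≤ t n) :
    ∫ x in S, f x = ∑ k ∈ Finset.range n, ∫ x in slab i S (t k) (t (k + 1)), f x := by
  let G : ℝ → ℝ := fun a => ∫ x in S ∩ {x | x i ≤ a}, f x
  have hstep : ∀ k < n, ∫ x in slab i S (t k) (t (k + 1)), f x = G (t (k + 1)) - G (t k) := by
    intro k hk
    have hu : S ∩ {x | x i ≤ t (k + 1)} =
        (S ∩ {x | x i ≤ t k}) ∪ slab i S (t k) (t (k + 1)) := by
      ext x
      simp only [slab, Set.mem_inter_iff, Set.mem_union, Set.mem_ofPred_eq]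
      constructor
      · intro h
        rcases le_or_gt (x i) (t k) with h' | h'
        · exact Or.inl ⟨h.1, h'⟩
        · exact Or.inr ⟨h.1, h', h.2⟩
      · rintro (h | h)
        · exact ⟨h.1, h.2.trans (hmono k hk)⟩
        · exact ⟨h.1, h.2.2⟩
    have hdis : Disjoint (S ∩ {x | x i ≤ t k}) (slab i S (t k) (t (k + 1))) :=
      Set.disjoint_left.2 fun x h1 h2 => absurd h1.2 (not_le.2 h2.2.1)
    simp only [G]
    rw [hu, setIntegral_union hdis (measurable_slab hS _ _) (hf.mono_set Set.inter_subset_left)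
      (hf.mono_set Set.inter_subset_left)]
    ring
  rw [Finset.sum_congr rfl fun k hk => hstep k (Finset.mem_range.1 hk),
    Finset.sum_range_sub fun k => G (t k)]
  have e1 : G (t n) = ∫ x in S, f x := by
    simp only [G]
    rw [Set.inter_eq_left.2 (show S ⊆ {x | x i ≤ t n} from fun x hx => hn x hx)]
  have e2 : G (t 0) = 0 := by
    refine setIntegral_measure_zero _ (measure_mono_null ?_ (volume_coord_level i (t 0)))
    exact fun x hx => le_antisymm hx.2 (h0 x hx.1)
  rw [e1, e2, sub_zero]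

/-- Quantiles: a compact set of positive volume is cut into `n` slabs of equal volume. -/
lemma exists_quantiles (hS : IsCompact S) (hpos : 0 < volume.real S) {R : ℝ}
    (hR : ∀ x ∈ S, ∀ j, |x j| ≤ R) (i : Fin d) {n : ℕ} (hn : 0 < n) :
    ∃ t : ℕ → ℝ, t 0 = -R ∧ t n = R ∧ (∀ k < n, t k ≤ t (k + 1)) ∧ (∀ k, |t k| ≤ R) ∧
      ∀ k < n, volume.real (slab i S (t k) (t (k + 1))) = volume.real S / n := by
  have hne : S.Nonempty := by
    by_contra h
    rw [Set.not_nonempty_iff_eq_empty] at h
    simp [h] at hpos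
  obtain ⟨x₀, hx₀⟩ := hne
  have hR0 : 0 ≤ R := (abs_nonneg _).trans (hR x₀ hx₀ i)
  let F : ℝ → ℝ := fun a => volume.real (S ∩ {x | x i ≤ a})
  have hfin : ∀ T : Set (Space d), T ⊆ S → volume T ≠ ∞ := fun T hT =>
    ne_top_of_le_ne_top hS.measure_lt_top.ne (measure_mono hT)
  have hdiff : ∀ a b, a ≤ b → F b - F a = volume.real (slab i S a b) := by
    intro a b hab
    have hu : S ∩ {x | x i ≤ b} = (S ∩ {x | x i ≤ a}) ∪ slab i S a b := by
      ext x
      simp only [slab, Set.mem_inter_iff, Set.mem_union, Set.mem_ofPred_eq]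
      constructor
      · intro h
        rcases le_or_gt (x i) a with h' | h'
        · exact Or.inl ⟨h.1, h'⟩
        · exact Or.inr ⟨h.1, h', h.2⟩
      · rintro (h | h)
        · exact ⟨h.1, h.2.trans hab⟩
        · exact ⟨h.1, h.2.2⟩
    have hdis : Disjoint (S ∩ {x | x i ≤ a}) (slab i S a b) :=
      Set.disjoint_left.2 fun x h1 h2 => absurd h1.2 (not_le.2 h2.2.1)
    simp only [F]
    rw [hu, measureReal_union hdis (measurable_slab hS.measurableSet _ _)
      (hfin _ Set.inter_subset_left) (hfin _ Set.inter_subset_left)]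
    ring
  have hFmono : Monotone F := fun a b hab => by
    linarith [hdiff a b hab, measureReal_nonneg (μ := volume) (s := slab i S a b)]
  let L : ℝ := (2 * R) ^ (d - 1)
  have hlip : ∀ a b, a ≤ b → F b - F a ≤ L * (b - a) := by
    intro a b hab
    rw [hdiff a b hab]
    let A : Fin d → ℝ := Function.update (fun _ => -R) i a
    let B : Fin d → ℝ := Function.update (fun _ => R) i b
    have hsub : slab i S a b ⊆ box A B := by
      rintro x ⟨hx, h1, h2⟩ j
      rcases eq_or_ne j i with rfl | hj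
      · simp [A, B, h1.le, h2]
      · simp only [A, B, Function.update_of_ne hj, Set.mem_Icc]
        exact abs_le.1 (hR x hx j)
    have hvol : volume (box A B) = ENNReal.ofReal (L * (b - a)) := by
      rw [volume_box, ← Finset.mul_prod_erase Finset.univ _ (Finset.mem_univ i)]
      simp only [A, B, Function.update_self]
      rw [Finset.prod_congr rfl (g := fun _ => ENNReal.ofReal (2 * R)) fun j hj => by
        rw [Function.update_of_ne (Finset.ne_of_mem_erase hj),
          Function.update_of_ne (Finset.ne_of_mem_erase hj)]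
        ring_nf]
      rw [Finset.prod_const, Finset.card_erase_of_mem (Finset.mem_univ i), Finset.card_univ,
        Fintype.card_fin, ← ENNReal.ofReal_pow (by linarith), ← ENNReal.ofReal_mul (by linarith),
        mul_comm]
    refine ENNReal.toReal_le_of_le_ofReal (mul_nonneg (by positivity) (by linarith)) ?_
    exact (measure_mono hsub).trans hvol.le
  have hcont : Continuous F := by
    refine (LipschitzWith.of_le_add_mul L.toNNReal fun a b => ?_).continuous
    rw [Real.coe_toNNReal _ (by positivity), Real.dist_eq]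
    rcases le_total a b with h | h
    · linarith [hFmono h, mul_nonneg (show (0:ℝ) ≤ L by positivity) (abs_nonneg (a - b))]
    · rw [abs_of_nonneg (by linarith)]
      linarith [hlip b a h]
  have hF0 : F (-R) = 0 := by
    refine (measureReal_eq_zero_iff (hfin _ Set.inter_subset_left)).2
      (measure_mono_null ?_ (volume_coord_level i (-R)))
    exact fun x hx => le_antisymm hx.2 (abs_le.1 (hR x hx.1 i)).1
  have hFR : F R = volume.real S := by
    simp only [F]
    rw [Set.inter_eq_left.2 (show S ⊆ {x | x i ≤ R} from fun x hx => (abs_le.1 (hR x hx i)).2)]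
  have hex : ∀ k : ℕ, ∃ t, |t| ≤ R ∧ (k = 0 → t = -R) ∧ (k = n → t = R) ∧
      (k ≤ n → F t = (k:ℝ) / n * volume.real S) := by
    intro k
    rcases eq_or_ne k 0 with rfl | hk0
    · refine ⟨-R, by simp [abs_of_nonneg hR0], fun _ => rfl, fun h => absurd h.symm hn.ne',
        fun _ => by simp [hF0]⟩
    rcases eq_or_ne k n with rfl | hkn
    · refine ⟨R, by simp [abs_of_nonneg hR0], fun h => absurd h hk0, fun _ => rfl, fun _ => ?_⟩
      rw [hFR, div_self (Nat.cast_ne_zero.2 hk0), one_mul]
    by_cases hle : k ≤ n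
    · have hmem : (k:ℝ) / n * volume.real S ∈ Set.Icc (F (-R)) (F R) := by
        rw [hF0, hFR]
        refine ⟨by positivity, mul_le_of_le_one_left hpos.le ?_⟩
        rw [div_le_one (by positivity)]
        exact_mod_cast hle
      obtain ⟨t, ht, htF⟩ := intermediate_value_Icc (by linarith) hcont.continuousOn hmem
      exact ⟨t, abs_le.2 ht, fun h => absurd h hk0, fun h => absurd h hkn, fun _ => htF⟩
    · exact ⟨0, by simpa using hR0, fun h => absurd h hk0, fun h => absurd h hkn,
        fun h => absurd h hle⟩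
  choose t ht h0 hN hF using hex
  have hmono : ∀ k < n, t k ≤ t (k + 1) := by
    intro k hk
    by_contra h
    have h1 := hFmono (not_le.1 h).le
    rw [hF k hk.le, hF (k + 1) hk] at h1
    push_cast at h1
    have : 0 < (1:ℝ) / n * volume.real S := by positivity
    ring_nf at h1 this
    linarith
  refine ⟨t, h0 0 rfl, hN n rfl, hmono, ht, fun k hk => ?_⟩
  rw [← hdiff _ _ (hmono k hk), hF (k + 1) hk, hF k hk.le]
  push_cast
  ring

lemma sq_le_left_add {a b τ R : ℝ} (ha : |a| ≤ R) (hb : |b| ≤ R) (h1 : a ≤ τ) (h2 : τ ≤ b) :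
    τ ^ 2 ≤ a ^ 2 + 2 * R * (b - a) ∧ a ^ 2 - 2 * R * (b - a) ≤ τ ^ 2 := by
  obtain ⟨ha1, ha2⟩ := abs_le.1 ha
  obtain ⟨hb1, hb2⟩ := abs_le.1 hb
  constructor <;>
    nlinarith [mul_nonneg (by linarith : (0:ℝ) ≤ τ - a) (by linarith : (0:ℝ) ≤ 2 * R - (τ + a)),
      mul_nonneg (by linarith : (0:ℝ) ≤ τ - a) (by linarith : (0:ℝ) ≤ 2 * R + (τ + a)),
      mul_nonneg (by linarith : (0:ℝ) ≤ R) (by linarith : (0:ℝ) ≤ b - τ)]

/-- Lower and upper bounds for moments from equal slabs. -/
lemma quantile_moments (hS : IsCompact S) {R : ℝ} (hR : ∀ x ∈ S, ∀ j, |x j| ≤ R) {n : ℕ}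
    (hn : 0 < n) {t : ℕ → ℝ} (h0 : t 0 = -R) (hN : t n = R) (hmono : ∀ k < n, t k ≤ t (k + 1))
    (hb : ∀ k, |t k| ≤ R)
    (hvol : ∀ k < n, volume.real (slab i S (t k) (t (k + 1))) = volume.real S / n) :
    volume.real S / n * (∑ k ∈ Finset.range n, t k ^ 2 - 4 * R ^ 2) ≤ ∫ x in S, x i ^ 2 ∧
    |(∫ x in S, x i) - volume.real S / n * ∑ k ∈ Finset.range n, t k| ≤
      2 * R * (volume.real S / n) := by
  have hc2 : Continuous fun x : Space d => x i ^ 2 := by fun_prop
  have hc1 : Continuous fun x : Space d => x i := by fun_prop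
  have hfin : ∀ k, volume (slab i S (t k) (t (k + 1))) ≠ ∞ := fun k =>
    ne_top_of_le_ne_top hS.measure_lt_top.ne (measure_mono Set.inter_subset_left)
  have htel : ∑ k ∈ Finset.range n, (t (k + 1) - t k) = 2 * R := by
    rw [Finset.sum_range_sub, h0, hN]; ring
  have hlo : ∀ x ∈ S, t 0 ≤ x i := fun x hx => h0 ▸ (abs_le.1 (hR x hx i)).1
  have hhi : ∀ x ∈ S, x i ≤ t n := fun x hx => hN ▸ (abs_le.1 (hR x hx i)).2
  constructor
  · rw [integral_slabs hS.measurableSet (hc2.continuousOn.integrableOn_compact hS) hmono hlo hhi]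
    calc volume.real S / n * (∑ k ∈ Finset.range n, t k ^ 2 - 4 * R ^ 2)
        = ∑ k ∈ Finset.range n, volume.real S / n * (t k ^ 2 - 2 * R * (t (k + 1) - t k)) := by
          rw [← Finset.mul_sum, Finset.sum_sub_distrib, ← Finset.mul_sum, htel]
          ring
      _ ≤ _ := Finset.sum_le_sum fun k hk => by
          rw [Finset.mem_range] at hk
          calc _ = ∫ _x in slab i S (t k) (t (k + 1)), (t k ^ 2 - 2 * R * (t (k + 1) - t k)) := by
                rw [setIntegral_const, hvol k hk, smul_eq_mul]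
            _ ≤ _ := setIntegral_mono_on (integrableOn_const (hfin k))
                ((hc2.continuousOn.integrableOn_compact hS).mono_set Set.inter_subset_left)
                (measurable_slab hS.measurableSet _ _)
                fun x hx => (sq_le_left_add (hb k) (hb (k + 1)) hx.2.1.le hx.2.2).2
  · rw [integral_slabs hS.measurableSet (hc1.continuousOn.integrableOn_compact hS) hmono hlo hhi,
      Finset.mul_sum, ← Finset.sum_sub_distrib]
    refine (Finset.abs_sum_le_sum_abs _ _).trans ?_
    calc ∑ k ∈ Finset.range n, |(∫ x in slab i S (t k) (t (k + 1)), x i) - volume.real S / n * t k|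
        ≤ ∑ k ∈ Finset.range n, volume.real S / n * (t (k + 1) - t k) := by
          refine Finset.sum_le_sum fun k hk => ?_
          rw [Finset.mem_range] at hk
          have h1 : volume.real S / n * t k ≤ ∫ x in slab i S (t k) (t (k + 1)), x i := by
            calc _ = ∫ _x in slab i S (t k) (t (k + 1)), t k := by
                  rw [setIntegral_const, hvol k hk, smul_eq_mul]
              _ ≤ _ := setIntegral_mono_on (integrableOn_const (hfin k))
                  ((hc1.continuousOn.integrableOn_compact hS).mono_set Set.inter_subset_left)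
                  (measurable_slab hS.measurableSet _ _) fun x hx => hx.2.1.le
          have h2 : ∫ x in slab i S (t k) (t (k + 1)), x i ≤ volume.real S / n * t (k + 1) := by
            calc _ ≤ ∫ _x in slab i S (t k) (t (k + 1)), t (k + 1) :=
                  setIntegral_mono_on
                    ((hc1.continuousOn.integrableOn_compact hS).mono_set Set.inter_subset_left)
                    (integrableOn_const (hfin k))
                    (measurable_slab hS.measurableSet _ _) fun x hx => hx.2.2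
              _ = _ := by rw [setIntegral_const, hvol k hk, smul_eq_mul]
          rw [abs_of_nonneg (by linarith)]
          linarith
      _ = _ := by rw [← Finset.mul_sum, htel]; ring

/-- Upper bound for the second moment of the midpoint set, cut at the averaged levels. -/
lemma mid_moment {A B C : Set (Space d)} (hA : IsCompact A) (hB : IsCompact B) (hC : IsCompact C)
    {R : ℝ} (hRC : ∀ x ∈ C, ∀ j, |x j| ≤ R) (hAB : midSet A B ⊆ C) {M : ℝ} (hM : 0 < M)
    (hMA : M ≤ volume.real A) (hMB : M ≤ volume.real B) {n : ℕ} (hn : 0 < n)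
    {t s u : ℕ → ℝ} (hu : ∀ k, u k = (t k + s k) / 2)
    (ht0 : t 0 = -R) (htN : t n = R) (hs0 : s 0 = -R) (hsN : s n = R)
    (htm : ∀ k < n, t k ≤ t (k + 1)) (hsm : ∀ k < n, s k ≤ s (k + 1))
    (htb : ∀ k, |t k| ≤ R) (hsb : ∀ k, |s k| ≤ R)
    (htv : ∀ k < n, volume.real (slab i A (t k) (t (k + 1))) = volume.real A / n)
    (hsv : ∀ k < n, volume.real (slab i B (s k) (s (k + 1))) = volume.real B / n) :
    ∫ x in C, x i ^ 2 ≤ M / n * (∑ k ∈ Finset.range n, u k ^ 2 + 4 * R ^ 2) +
      R ^ 2 * (volume.real C - M) := by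
  have hn' : (0:ℝ) < n := Nat.cast_pos.2 hn
  have hub : ∀ k, |u k| ≤ R := fun k => by
    have h1 := abs_le.1 (htb k)
    have h2 := abs_le.1 (hsb k)
    rw [hu k, abs_le]
    constructor <;> linarith
  have hum : ∀ k < n, u k ≤ u (k + 1) := fun k hk => by
    rw [hu, hu]; linarith [htm k hk, hsm k hk]
  have hu0 : u 0 = -R := by rw [hu, ht0, hs0]; ring
  have huN : u n = R := by rw [hu, htN, hsN]; ring
  have hlo : ∀ x ∈ C, u 0 ≤ x i := fun x hx => hu0 ▸ (abs_le.1 (hRC x hx i)).1
  have hhi : ∀ x ∈ C, x i ≤ u n := fun x hx => huN ▸ (abs_le.1 (hRC x hx i)).2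
  have hfin : ∀ k, volume (slab i C (u k) (u (k + 1))) ≠ ∞ := fun k =>
    ne_top_of_le_ne_top hC.measure_lt_top.ne (measure_mono Set.inter_subset_left)
  have hclosed : ∀ p q : ℝ, IsClosed ({x : Space d | p ≤ x i} ∩ {x | x i ≤ q}) := fun p q =>
    (isClosed_le continuous_const (by fun_prop)).inter (isClosed_le (by fun_prop) continuous_const)
  have hck : ∀ k < n, M / n ≤ volume.real (slab i C (u k) (u (k + 1))) := by
    intro k hk
    have hAk : IsCompact (A ∩ {x | t k ≤ x i ∧ x i ≤ t (k + 1)}) := hA.inter_right (hclosed _ _)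
    have hBk : IsCompact (B ∩ {x | s k ≤ x i ∧ x i ≤ s (k + 1)}) := hB.inter_right (hclosed _ _)
    have h1 := brunn_minkowski hAk hBk
    rw [← measureReal_congr (slab_ae_eq i A _ _), ← measureReal_congr (slab_ae_eq i B _ _),
      htv k hk, hsv k hk] at h1
    have h2 : volume.real (midSet (A ∩ {x | t k ≤ x i ∧ x i ≤ t (k + 1)})
        (B ∩ {x | s k ≤ x i ∧ x i ≤ s (k + 1)})) ≤
        volume.real (slab i C (u k) (u (k + 1))) := by
      rw [measureReal_congr (slab_ae_eq i C (u k) (u (k + 1)))]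
      refine measureReal_mono ?_
        (ne_top_of_le_ne_top hC.measure_lt_top.ne (measure_mono Set.inter_subset_left))
      rintro _ ⟨⟨x, y⟩, ⟨⟨hx, hx1, hx2⟩, ⟨hy, hy1, hy2⟩⟩, rfl⟩
      refine ⟨hAB (mem_midSet hx hy), ?_, ?_⟩ <;>
        simp only [hu, PiLp.smul_apply, PiLp.add_apply, smul_eq_mul] <;> linarith
    refine le_trans ?_ h2
    refine (pow_le_pow_iff_left₀ (by positivity) measureReal_nonneg two_ne_zero).1 (le_trans ?_ h1)
    rw [sq]
    gcongr
  have hc2 : Continuous fun x : Space d => x i ^ 2 := by fun_prop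
  have hvC : volume.real C = ∑ k ∈ Finset.range n, volume.real (slab i C (u k) (u (k + 1))) := by
    have := integral_slabs (f := fun _ => (1:ℝ)) hC.measurableSet
      (integrableOn_const hC.measure_lt_top.ne) hum hlo hhi
    simpa using this
  rw [integral_slabs hC.measurableSet (hc2.continuousOn.integrableOn_compact hC) hum hlo hhi]
  have hstep : ∀ k ∈ Finset.range n, ∫ x in slab i C (u k) (u (k + 1)), x i ^ 2 ≤
      M / n * (u k ^ 2 + 2 * R * (u (k + 1) - u k)) +
        R ^ 2 * (volume.real (slab i C (u k) (u (k + 1))) - M / n) := by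
    intro k hk
    rw [Finset.mem_range] at hk
    set c := volume.real (slab i C (u k) (u (k + 1)))
    have e : ∀ q : ℝ, (∀ x ∈ slab i C (u k) (u (k + 1)), x i ^ 2 ≤ q) →
        ∫ x in slab i C (u k) (u (k + 1)), x i ^ 2 ≤ c * q := fun q hq => by
      calc _ ≤ ∫ _x in slab i C (u k) (u (k + 1)), q :=
            setIntegral_mono_on
              ((hc2.continuousOn.integrableOn_compact hC).mono_set Set.inter_subset_left)
              (integrableOn_const (hfin k)) (measurable_slab hC.measurableSet _ _) hq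
        _ = _ := by rw [setIntegral_const, smul_eq_mul]
    set W := u k ^ 2 + 2 * R * (u (k + 1) - u k)
    rcases le_total W (R ^ 2) with hW | hW
    · refine (e W fun x hx => (sq_le_left_add (hub k) (hub (k + 1)) hx.2.1.le hx.2.2).1).trans ?_
      nlinarith [hck k hk]
    · refine (e (R ^ 2) fun x hx => ?_).trans ?_
      · rw [← sq_abs (x i)]
        exact pow_le_pow_left₀ (abs_nonneg _) (hRC x hx.1 i) 2
      · nlinarith [mul_nonneg (div_nonneg hM.le hn'.le) (by linarith : 0 ≤ W - R ^ 2)]
  refine (Finset.sum_le_sum hstep).trans (le_of_eq ?_)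
  rw [Finset.sum_add_distrib, ← Finset.mul_sum, ← Finset.mul_sum, Finset.sum_add_distrib,
    ← Finset.mul_sum, Finset.sum_range_sub, hu0, huN, Finset.sum_sub_distrib, ← hvC,
    Finset.sum_const, Finset.card_range, nsmul_eq_mul, mul_div_cancel₀ _ hn'.ne']
  ring

lemma mean_sq_le {n : ℕ} (hn : 0 < n) (t s : ℕ → ℝ) :
    ((∑ k ∈ Finset.range n, t k - ∑ k ∈ Finset.range n, s k) / n) ^ 2 / 4 * n ≤
      ((∑ k ∈ Finset.range n, t k ^ 2) + ∑ k ∈ Finset.range n, s k ^ 2) / 2 -
        ∑ k ∈ Finset.range n, ((t k + s k) / 2) ^ 2 := by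
  have hn' : (0:ℝ) < n := Nat.cast_pos.2 hn
  rw [← Finset.sum_add_distrib, Finset.sum_div _ _ (2:ℝ), ← Finset.sum_sub_distrib,
    ← Finset.sum_sub_distrib]
  have h := sq_sum_le_card_mul_sum_sq (s := Finset.range n) (f := fun k => (t k - s k) / 2)
  rw [Finset.card_range, ← Finset.sum_div _ _ (2:ℝ)] at h
  calc ((∑ k ∈ Finset.range n, (t k - s k)) / n) ^ 2 / 4 * n
      = ((∑ k ∈ Finset.range n, (t k - s k)) / 2) ^ 2 / n := by field_simp; ring
    _ ≤ ∑ k ∈ Finset.range n, ((t k - s k) / 2) ^ 2 := by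
        rw [div_le_iff₀ hn', mul_comm]; exact h
    _ = _ := Finset.sum_congr rfl fun k _ => by ring

lemma approx_sq {D E R δ : ℝ} (hE : |E| ≤ 2 * R) (hδ : δ ≤ 4 * R) (h : |D - E| ≤ δ) :
    D ^ 2 ≤ E ^ 2 + 8 * R * δ := by
  obtain ⟨e1, e2⟩ := abs_le.1 h
  obtain ⟨e3, e4⟩ := abs_le.1 hE
  nlinarith

lemma scaled_moment {m a n I q : ℝ} (hma : m ≤ a) (hm : 0 ≤ m) (hn : 0 < n) (hI : 0 ≤ I)
    (h : a / n * q ≤ I) : m / n * q ≤ I := by
  rcases le_total 0 q with hq | hq
  · exact le_trans (by gcongr) h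
  · exact (mul_nonpos_of_nonneg_of_nonpos (by positivity) hq).trans hI

lemma centroid_error {I q σ R n : ℝ} (hq : 0 < q) (hn : 0 < n)
    (h : |I - q / n * σ| ≤ 2 * R * (q / n)) : |I / q - σ / n| ≤ 2 * R / n := by
  rw [show I / q - σ / n = (I - q / n * σ) / q by field_simp, abs_div, abs_of_pos hq,
    div_le_iff₀ hq]
  exact h.trans_eq (by ring)

/-- The key inequality for one pair of cells. -/
theorem cell_bound {A B C : Set (Space d)} (hA : IsCompact A) (hB : IsCompact B)
    (hC : IsCompact C) {R : ℝ} (hRA : ∀ x ∈ A, ∀ j, |x j| ≤ R) (hRB : ∀ x ∈ B, ∀ j, |x j| ≤ R)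
    (hRC : ∀ x ∈ C, ∀ j, |x j| ≤ R) (hAB : midSet A B ⊆ C)
    (hpA : 0 < volume.real A) (hpB : 0 < volume.real B) (i : Fin d) :
    min (volume.real A) (volume.real B) / 4 *
        ((∫ x in A, x i) / volume.real A - (∫ x in B, x i) / volume.real B) ^ 2 ≤
      ((∫ x in A, x i ^ 2) + ∫ x in B, x i ^ 2) / 2 - (∫ x in C, x i ^ 2) +
        R ^ 2 * (volume.real C - min (volume.real A) (volume.real B)) := by
  obtain ⟨x₀, hx₀⟩ : A.Nonempty := by
    by_contra h
    rw [Set.not_nonempty_iff_eq_empty] at h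
    simp [h] at hpA
  have hR0 : 0 ≤ R := (abs_nonneg _).trans (hRA x₀ hx₀ i)
  set M := min (volume.real A) (volume.real B)
  have hM : 0 < M := lt_min hpA hpB
  set D := (∫ x in A, x i) / volume.real A - (∫ x in B, x i) / volume.real B
  set X := ((∫ x in A, x i ^ 2) + ∫ x in B, x i ^ 2) / 2 - (∫ x in C, x i ^ 2) +
        R ^ 2 * (volume.real C - M) with hX
  have key : ∀ n : ℕ, 0 < n → M / 4 * D ^ 2 ≤ X + 16 * M * R ^ 2 / n := by
    intro n hn
    have hn' : (0:ℝ) < n := Nat.cast_pos.2 hn
    obtain ⟨t, ht0, htN, htm, htb, htv⟩ := exists_quantiles hA hpA hRA i hn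
    obtain ⟨s, hs0, hsN, hsm, hsb, hsv⟩ := exists_quantiles hB hpB hRB i hn
    obtain ⟨hA2, hA1⟩ := quantile_moments hA hRA hn ht0 htN htm htb htv
    obtain ⟨hB2, hB1⟩ := quantile_moments hB hRB hn hs0 hsN hsm hsb hsv
    have hC2 := mid_moment hA hB hC hRC hAB hM (min_le_left _ _) (min_le_right _ _) hn
      (u := fun k => (t k + s k) / 2) (fun k => rfl) ht0 htN hs0 hsN htm hsm htb hsb htv hsv
    have hA2' := scaled_moment (min_le_left _ _) hM.le hn'
      (setIntegral_nonneg hA.measurableSet fun x _ => sq_nonneg (x i)) hA2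
    have hB2' := scaled_moment (min_le_right (volume.real A) _) hM.le hn'
      (setIntegral_nonneg hB.measurableSet fun x _ => sq_nonneg (x i)) hB2
    set St := ∑ k ∈ Finset.range n, t k
    set Ss := ∑ k ∈ Finset.range n, s k
    set E := (St - Ss) / n
    have hDn : |D - E| ≤ 4 * R / n := by
      have h1 := centroid_error hpA hn' hA1
      have h2 := centroid_error hpB hn' hB1
      calc |D - E| = |((∫ x in A, x i) / volume.real A - St / n) -
            ((∫ x in B, x i) / volume.real B - Ss / n)| := by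
            simp only [D, E]; ring_nf
        _ ≤ _ := (abs_sub _ _).trans
            ((add_le_add h1 h2).trans_eq (by ring))
    have hE : |E| ≤ 2 * R := by
      have hb : ∀ f : ℕ → ℝ, (∀ k, |f k| ≤ R) → |∑ k ∈ Finset.range n, f k| ≤ n * R := fun f hf =>
        (Finset.abs_sum_le_sum_abs _ _).trans
          ((Finset.sum_le_sum fun k _ => hf k).trans (by simp))
      rw [abs_div, abs_of_pos hn', div_le_iff₀ hn']
      calc |St - Ss| ≤ |St| + |Ss| := abs_sub _ _
        _ ≤ n * R + n * R := add_le_add (hb t htb) (hb s hsb)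
        _ = _ := by ring
    have hsq := approx_sq hE (div_le_self (by linarith) (Nat.one_le_cast.2 hn)) hDn
    have hjen : M / 4 * E ^ 2 ≤ M / n * (((∑ k ∈ Finset.range n, t k ^ 2) +
        ∑ k ∈ Finset.range n, s k ^ 2) / 2 - ∑ k ∈ Finset.range n, ((t k + s k) / 2) ^ 2) := by
      calc M / 4 * E ^ 2 = M / n * (E ^ 2 / 4 * n) := by field_simp
        _ ≤ _ := mul_le_mul_of_nonneg_left (mean_sq_le hn t s) (by positivity)
    calc M / 4 * D ^ 2 ≤ M / 4 * (E ^ 2 + 8 * R * (4 * R / n)) := by gcongr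
      _ = M / 4 * E ^ 2 + 8 * M * R ^ 2 / n := by ring
      _ ≤ (X + 8 * M * R ^ 2 / n) + 8 * M * R ^ 2 / n := by
          gcongr
          refine hjen.trans ?_
          simp only [hX]
          ring_nf at hA2' hB2' hC2 ⊢
          linarith
      _ = X + 16 * M * R ^ 2 / n := by ring
  refine ge_of_tendsto (x := atTop) (f := fun n : ℕ => X + 16 * M * R ^ 2 / n) ?_ ?_
  · simpa using (tendsto_const_div_atTop_nhds_zero_nat (16 * M * R ^ 2)).const_add X
  · filter_upwards [eventually_gt_atTop 0] with n hn using key n hn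

end Vale.Agent.P074
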