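import Mathlib

/-!
P074: the objects in the statement.
-/

open MeasureTheory
open scoped ENNReal NNReal

namespace Vale.Agent.P074

/-- Euclidean space of dimension `d`. -/
abbrev Space (d : ℕ) := EuclideanSpace ℝ (Fin d)

/-- The uniform probability measure on `K`. -/
noncomputable def uniformOn {d : ℕ} (K : Set (Space d)) : Measure (Space d) :=
  (volume K)⁻¹ • volume.restrict K

/-- `T` is a quadratic optimal transport map from `ρ` to `μ`. -/
def IsOTMap {d : ℕ} (ρ μ : Measure (Space d)) (T : Space d → Space d) : Prop :=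
  Measurable T ∧ ρ.map T = μ ∧
    ∀ U : Space d → Space d, Measurable U → ρ.map U = μ →
      ∫⁻ x, ENNReal.ofReal (‖x - T x‖ ^ 2) ∂ρ ≤ ∫⁻ x, ENNReal.ofReal (‖x - U x‖ ^ 2) ∂ρ

/-- The quadratic Wasserstein distance: infimum over all couplings. -/
noncomputable def W2 {d : ℕ} (μ ν : Measure (Space d)) : ℝ≥0∞ :=
  (⨅ (π : Measure (Space d × Space d)) (_ : π.map Prod.fst = μ) (_ : π.map Prod.snd = ν),
    ∫⁻ p, ENNReal.ofReal (‖p.1 - p.2‖ ^ 2) ∂π) ^ (1 / 2 : ℝ)

/-- The distance of two maps in `L²(ρ)`. -/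
noncomputable def mapDist {d : ℕ} (ρ : Measure (Space d)) (T S : Space d → Space d) : ℝ≥0∞ :=
  (∫⁻ x, ENNReal.ofReal (‖T x - S x‖ ^ 2) ∂ρ) ^ (1 / 2 : ℝ)

/-- `α` is an admissible stability exponent in dimension `d`. -/
def Admissible (d : ℕ) (α : ℝ) : Prop :=
  ∀ K : Set (Space d), IsCompact K → Convex ℝ K → (interior K).Nonempty →
    ∀ Y : Set (Space d), IsCompact Y → Y.Nonempty →
      ∃ C : ℝ≥0, ∀ μ ν : Measure (Space d), IsProbabilityMeasure μ → IsProbabilityMeasure ν →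
        μ Yᶜ = 0 → ν Yᶜ = 0 →
          ∀ T S : Space d → Space d, IsOTMap (uniformOn K) μ T → IsOTMap (uniformOn K) ν S →
            mapDist (uniformOn K) T S ≤ (C : ℝ≥0∞) * W2 μ ν ^ α

/-- The supremum of the admissible exponents in `(0, 1]`. -/
noncomputable def alphaStar (d : ℕ) : ℝ :=
  sSup {α : ℝ | α ∈ Set.Ioc (0 : ℝ) 1 ∧ Admissible d α}

end Vale.Agent.P074
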