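import Vale.Agent.P074.Defs

/-!
Kantorovich potentials for quadratic transport from a bounded, absolutely continuous source.
-/

open MeasureTheory Filter Topology
open scoped ENNReal NNReal RealInnerProductSpace Classical

namespace Vale.Agent.P074

variable {d : ℕ}

/-- Conjugate over the compact set `Y`. -/
noncomputable def conj (Y : Set (Space d)) (Φ : Space d → ℝ) (x : Space d) : ℝ :=
  sSup ((fun y => ⟪x, y⟫ - Φ y) '' Y)

variable {Y : Set (Space d)} {Φ : Space d → ℝ}

lemma exists_max (hY : IsCompact Y) (hne : Y.Nonempty) (hΦ : ContinuousOn Φ Y) (x : Space d) :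
    ∃ y ∈ Y, conj Y Φ x = ⟪x, y⟫ - Φ y := by
  have hc : ContinuousOn (fun y => ⟪x, y⟫ - Φ y) Y :=
    ((continuous_const.inner continuous_id).continuousOn).sub hΦ
  obtain ⟨y, hy, hmax⟩ := hY.exists_sSup_image_eq hne hc
  exact ⟨y, hy, hmax⟩

lemma le_conj (hY : IsCompact Y) (hΦ : ContinuousOn Φ Y) (x : Space d) {y : Space d}
    (hy : y ∈ Y) : ⟪x, y⟫ - Φ y ≤ conj Y Φ x := by
  have hc : ContinuousOn (fun y => ⟪x, y⟫ - Φ y) Y :=
    ((continuous_const.inner continuous_id).continuousOn).sub hΦ
  exact le_csSup (hY.image_of_continuousOn hc).bddAbove ⟨y, hy, rfl⟩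

lemma lipschitz_conj (hY : IsCompact Y) (hne : Y.Nonempty) (hΦ : ContinuousOn Φ Y) {R : ℝ≥0}
    (hR : ∀ y ∈ Y, ‖y‖ ≤ R) : LipschitzWith R (conj Y Φ) := by
  refine LipschitzWith.of_le_add_mul R fun x z => ?_
  obtain ⟨y, hy, hxy⟩ := exists_max hY hne hΦ x
  have h1 := le_conj hY hΦ z hy
  have h2 : ⟪x - z, y⟫ ≤ R * dist x z := by
    calc ⟪x - z, y⟫ ≤ ‖x - z‖ * ‖y‖ := real_inner_le_norm _ _
      _ ≤ ‖x - z‖ * R := by gcongr; exact hR y hy
      _ = R * dist x z := by rw [dist_eq_norm]; ring
  rw [inner_sub_left] at h2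
  linarith

lemma bound_on_compact (hY : IsCompact Y) : ∃ R : ℝ≥0, ∀ y ∈ Y, ‖y‖ ≤ R := by
  obtain ⟨R, hR⟩ := hY.isBounded.exists_norm_le
  exact ⟨R.toNNReal, fun y hy => (hR y hy).trans (Real.le_coe_toNNReal R)⟩

lemma continuous_conj (hY : IsCompact Y) (hne : Y.Nonempty) (hΦ : ContinuousOn Φ Y) :
    Continuous (conj Y Φ) := by
  obtain ⟨R, hR⟩ := bound_on_compact hY
  exact (lipschitz_conj hY hne hΦ hR).continuous

lemma conj_le_conj_add (hY : IsCompact Y) (hne : Y.Nonempty) {Φ Ψ : Space d → ℝ}
    (hΦ : ContinuousOn Φ Y) (hΨ : ContinuousOn Ψ Y) {c : ℝ} (h : ∀ y ∈ Y, Ψ y - Φ y ≤ c)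
    (x : Space d) : conj Y Φ x ≤ conj Y Ψ x + c := by
  obtain ⟨y, hy, hxy⟩ := exists_max hY hne hΦ x
  have h1 := le_conj hY hΨ x hy
  linarith [h y hy]

/-- At a point of differentiability the maximizer is the gradient. -/
lemma max_eq_gradient (hY : IsCompact Y) (hΦ : ContinuousOn Φ Y)
    {x y : Space d} (hd : DifferentiableAt ℝ (conj Y Φ) x) (hy : y ∈ Y)
    (hxy : conj Y Φ x = ⟪x, y⟫ - Φ y) : gradient (conj Y Φ) x = y := by
  set g : Space d → ℝ := fun z => conj Y Φ z - innerSL ℝ y z with hg
  have hmin : IsLocalMin g x := Filter.Eventually.of_forall fun z => by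
    have h1 := le_conj hY hΦ z hy
    simp only [hg, innerSL_apply_apply, real_inner_comm y] at *
    linarith
  have hderiv : HasFDerivAt g (fderiv ℝ (conj Y Φ) x - innerSL ℝ y) x :=
    hd.hasFDerivAt.sub (innerSL ℝ y).hasFDerivAt
  have h0 := hmin.hasFDerivAt_eq_zero hderiv
  rw [sub_eq_zero] at h0
  rw [gradient, h0]
  apply (InnerProductSpace.toDual ℝ (Space d)).injective
  rw [LinearIsometryEquiv.apply_symm_apply]
  ext z
  simp

lemma measurable_gradient (f : Space d → ℝ) : Measurable (gradient f) :=
  (InnerProductSpace.toDual ℝ (Space d)).symm.continuous.measurable.comp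
    (measurable_fderiv ℝ f)

/-- The dual functional. -/
noncomputable def dual (Y : Set (Space d)) (ρ ν : Measure (Space d)) (Φ : Space d → ℝ) : ℝ :=
  (∫ x, conj Y Φ x ∂ρ) + ∫ y, Φ y ∂ν

lemma integrable_of_continuous {K : Set (Space d)} (hK : IsCompact K) {ρ : Measure (Space d)}
    [IsFiniteMeasure ρ] (hρ : ρ Kᶜ = 0) {f : Space d → ℝ} (hf : Continuous f) :
    Integrable f ρ := by
  have h : IntegrableOn f K ρ := hf.continuousOn.integrableOn_compact hK
  have hr : ρ.restrict K = ρ := Measure.restrict_eq_self_of_ae_mem (ae_iff.2 hρ)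
  rwa [IntegrableOn, hr] at h

variable (Y) in
/-- The part of a function that is seen on `Y`, made Lipschitz by a double conjugation. -/
noncomputable def biconj (K : Set (Space d)) (Φ : Space d → ℝ) : Space d → ℝ :=
  conj K (conj Y Φ)

section Minimizer

variable {K : Set (Space d)} {ρ ν : Measure (Space d)}

lemma biconj_le (hK : IsCompact K) (hKne : K.Nonempty) (hY : IsCompact Y)
    (hne : Y.Nonempty) (hΦ : ContinuousOn Φ Y) {y : Space d} (hy : y ∈ Y) :
    biconj Y K Φ y ≤ Φ y := by
  obtain ⟨x, _, hxy⟩ := exists_max hK hKne (continuous_conj hY hne hΦ).continuousOn y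
  have h1 := le_conj hY hΦ x hy
  rw [biconj, hxy, real_inner_comm]
  linarith

lemma conj_biconj_le (hK : IsCompact K) (hKne : K.Nonempty) (hY : IsCompact Y)
    (hne : Y.Nonempty) (hΦ : ContinuousOn Φ Y) {x : Space d} (hx : x ∈ K) :
    conj Y (biconj Y K Φ) x ≤ conj Y Φ x := by
  have hφ := (continuous_conj hY hne hΦ).continuousOn (s := K)
  obtain ⟨y, hy, hxy⟩ := exists_max hY hne
    (continuous_conj hK hKne hφ).continuousOn x (Φ := biconj Y K Φ)
  have h1 := le_conj hK hφ y hx
  rw [hxy, biconj, real_inner_comm]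
  linarith

lemma conj_sub_const (hY : IsCompact Y) (hne : Y.Nonempty) (hΦ : ContinuousOn Φ Y) (c : ℝ)
    (x : Space d) : conj Y (fun y => Φ y - c) x = conj Y Φ x + c := by
  have hΨ : ContinuousOn (fun y => Φ y - c) Y := hΦ.sub continuousOn_const
  refine le_antisymm (conj_le_conj_add hY hne hΨ hΦ (fun y _ => by simp) x) ?_
  have := conj_le_conj_add hY hne hΦ hΨ (c := -c) (fun y _ => by simp) x
  linarith

lemma dual_sub_const (hK : IsCompact K) (hY : IsCompact Y) (hne : Y.Nonempty)
    [IsProbabilityMeasure ρ] [IsProbabilityMeasure ν] (hρ : ρ Kᶜ = 0) (hν : ν Yᶜ = 0)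
    (hΦ : Continuous Φ) (c : ℝ) :
    dual Y ρ ν (fun y => Φ y - c) = dual Y ρ ν Φ := by
  have h1 : (fun x => conj Y (fun y => Φ y - c) x) = fun x => conj Y Φ x + c :=
    funext fun x => conj_sub_const hY hne hΦ.continuousOn c x
  rw [dual, dual, h1,
    integral_add (integrable_of_continuous hK hρ (continuous_conj hY hne hΦ.continuousOn))
      (integrable_const c),
    integral_sub (integrable_of_continuous hY hν hΦ) (integrable_const c)]
  simp

/-- The dual functional has a minimizer which is Lipschitz. -/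
lemma exists_minimizer (hK : IsCompact K) (hKne : K.Nonempty) (hY : IsCompact Y)
    (hne : Y.Nonempty) [IsProbabilityMeasure ρ] [IsProbabilityMeasure ν]
    (hρ : ρ Kᶜ = 0) (hν : ν Yᶜ = 0) {L : ℝ≥0} (hL : ∀ x ∈ K, ‖x‖ ≤ L) :
    ∃ Φ : Space d → ℝ, LipschitzWith L Φ ∧
      ∀ g : Space d → ℝ, Continuous g → dual Y ρ ν Φ ≤ dual Y ρ ν g := by
  haveI : CompactSpace Y := isCompact_iff_compactSpace.1 hY
  obtain ⟨y₀, hy₀⟩ := hne
  have hne : Y.Nonempty := ⟨y₀, hy₀⟩
  obtain ⟨M, hM⟩ : ∃ M : ℝ, ∀ y ∈ Y, dist y y₀ ≤ M :=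
    (hY.image (continuous_id.dist continuous_const)).bddAbove.imp fun M hM y hy => hM ⟨y, hy, rfl⟩
  let A : Set (BoundedContinuousFunction Y ℝ) :=
    {f | (∀ a b : Y, |f a - f b| ≤ L * dist a b) ∧ f ⟨y₀, hy₀⟩ = 0}
  have hAcl : IsClosed A := by
    refine IsClosed.inter ?_ ?_
    · have : {f : BoundedContinuousFunction Y ℝ | ∀ a b : Y, |f a - f b| ≤ L * dist a b} =
          ⋂ a : Y, ⋂ b : Y, {f | |f a - f b| ≤ L * dist a b} := by ext f; simp
      change IsClosed {f : BoundedContinuousFunction Y ℝ | ∀ a b : Y, |f a - f b| ≤ L * dist a b}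
      rw [this]
      exact isClosed_iInter fun a => isClosed_iInter fun b => isClosed_le
        (((continuous_eval_const a).sub (continuous_eval_const b)).abs) continuous_const
    · exact isClosed_eq (continuous_eval_const _) continuous_const
  have hAcpt : IsCompact A := by
    refine BoundedContinuousFunction.arzela_ascoli₂ (Metric.closedBall (0:ℝ) (L * M))
      (isCompact_closedBall _ _) A hAcl ?_ ?_
    · intro f x hf
      rw [Metric.mem_closedBall, dist_zero_right, Real.norm_eq_abs]
      calc |f x| = |f x - f ⟨y₀, hy₀⟩| := by rw [hf.2, sub_zero]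
        _ ≤ L * dist x ⟨y₀, hy₀⟩ := hf.1 _ _
        _ ≤ L * M := by gcongr; exact hM x x.2
    · refine Metric.equicontinuous_of_continuity_modulus (fun t => L * t) ?_ _ ?_
      · simpa using (continuous_const.mul continuous_id).tendsto (0:ℝ) (f := fun t : ℝ => (L:ℝ) * t)
      · intro a b f
        rw [Real.dist_eq]
        exact f.2.1 a b
  let νY : Measure Y := ν.comap Subtype.val
  have hνY : νY.map Subtype.val = ν := by
    rw [map_comap_subtype_coe hY.measurableSet,
      Measure.restrict_eq_self_of_ae_mem (ae_iff.2 hν)]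
  haveI : IsProbabilityMeasure νY := by
    constructor
    have h := Measure.map_apply measurable_subtype_coe MeasurableSet.univ (μ := νY)
    rw [hνY, measure_univ, Set.preimage_univ] at h
    exact h.symm
  let J : BoundedContinuousFunction Y ℝ → ℝ := fun f =>
    (∫ x, conj Y (fun y => if h : y ∈ Y then f ⟨y, h⟩ else 0) x ∂ρ) + ∫ a, f a ∂νY
  have hcon : ∀ f : BoundedContinuousFunction Y ℝ,
      ContinuousOn (fun y => if h : y ∈ Y then f ⟨y, h⟩ else 0) Y := by
    intro f
    rw [continuousOn_iff_continuous_domRestrict]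
    convert f.continuous using 1
    funext a
    simp [Set.domRestrict, a.2]
  have hJcont : Continuous J := by
    refine (LipschitzWith.of_le_add_mul 2 fun f g => ?_).continuous
    have hb : ∀ a, |f a - g a| ≤ dist f g := fun a => by
      rw [← Real.dist_eq]; exact f.dist_coe_le_dist a
    have h1 : ∫ x, conj Y (fun y => if h : y ∈ Y then f ⟨y, h⟩ else 0) x ∂ρ ≤
        (∫ x, conj Y (fun y => if h : y ∈ Y then g ⟨y, h⟩ else 0) x ∂ρ) + dist f g := by
      calc _ ≤ ∫ x, (conj Y (fun y => if h : y ∈ Y then g ⟨y, h⟩ else 0) x + dist f g) ∂ρ := by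
            refine integral_mono (integrable_of_continuous hK hρ (continuous_conj hY hne (hcon f)))
              ((integrable_of_continuous hK hρ (continuous_conj hY hne (hcon g))).add
                (integrable_const _)) fun x => ?_
            refine conj_le_conj_add hY hne (hcon f) (hcon g) (fun y hy => ?_) x
            simp only [hy, dite_true]
            linarith [abs_le.1 (hb ⟨y, hy⟩)]
        _ = _ := by
            rw [integral_add (integrable_of_continuous hK hρ (continuous_conj hY hne (hcon g)))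
              (integrable_const _)]
            simp
    have h2 : ∫ a, f a ∂νY ≤ (∫ a, g a ∂νY) + dist f g := by
      calc _ ≤ ∫ a, (g a + dist f g) ∂νY :=
            integral_mono (f.integrable _) ((g.integrable _).add (integrable_const _))
              fun a => by linarith [abs_le.1 (hb a)]
        _ = _ := by rw [integral_add (g.integrable _) (integrable_const _)]; simp
    simp only [J]
    push_cast
    linarith
  obtain ⟨f₀, hf₀, hmin⟩ := hAcpt.exists_isMinOn
    ⟨0, fun a b => by simp; positivity, by simp⟩ hJcont.continuousOn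
  let F : Space d → ℝ := fun y => if h : y ∈ Y then f₀ ⟨y, h⟩ else 0
  have hF : LipschitzOnWith L F Y := by
    refine LipschitzOnWith.of_dist_le_mul fun a ha b hb => ?_
    simp only [F, ha, hb, dite_true, Real.dist_eq]
    exact hf₀.1 ⟨a, ha⟩ ⟨b, hb⟩
  obtain ⟨Φ, hΦL, hΦF⟩ := hF.extend_real
  have key : ∀ (h : Space d → ℝ) (f : BoundedContinuousFunction Y ℝ),
      Continuous h → (∀ a : Y, f a = h a) → dual Y ρ ν h = J f := by
    intro h f hh hfh
    have h1 : conj Y (fun y => if hy : y ∈ Y then f ⟨y, hy⟩ else 0) = conj Y h := by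
      funext x
      unfold conj
      congr 1
      exact Set.image_congr fun y hy => by simp [hy, hfh ⟨y, hy⟩]
    have h2 : ∫ y, h y ∂ν = ∫ a, f a ∂νY := by
      conv_lhs => rw [← hνY]
      rw [integral_map measurable_subtype_coe.aemeasurable hh.aestronglyMeasurable]
      exact integral_congr_ae (Eventually.of_forall fun a => (hfh a).symm)
    simp only [dual, J, h1, h2]
  refine ⟨Φ, hΦL, fun g hg => ?_⟩
  have hg' : Continuous (biconj Y K g) :=
    continuous_conj hK hKne (continuous_conj hY hne hg.continuousOn).continuousOn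
  have hgL : LipschitzWith L (biconj Y K g) :=
    lipschitz_conj hK hKne (continuous_conj hY hne hg.continuousOn).continuousOn hL
  set c := biconj Y K g y₀ with hc
  let f₁ : BoundedContinuousFunction Y ℝ :=
    BoundedContinuousFunction.mkOfCompact
      ⟨fun a => biconj Y K g a - c, (hg'.comp continuous_subtype_val).sub continuous_const⟩
  have hf₁ : f₁ ∈ A := by
    constructor
    · intro a b
      simp only [f₁, BoundedContinuousFunction.mkOfCompact_apply, ContinuousMap.coe_mk]
      rw [sub_sub_sub_cancel_right, ← Real.dist_eq]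
      exact hgL.dist_le_mul _ _
    · simp [f₁, c]
  calc dual Y ρ ν Φ = J f₀ :=
        key Φ f₀ hΦL.continuous fun a => by simpa [F, a.2] using hΦF a.2
    _ ≤ J f₁ := hmin hf₁
    _ = dual Y ρ ν (fun y => biconj Y K g y - c) :=
        (key _ f₁ (hg'.sub continuous_const) fun a => rfl).symm
    _ = dual Y ρ ν (biconj Y K g) := dual_sub_const hK hY hne hρ hν hg' c
    _ ≤ dual Y ρ ν g := by
        refine add_le_add ?_ ?_
        · refine integral_mono_ae (integrable_of_continuous hK hρ
            (continuous_conj hY hne hg'.continuousOn))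
            (integrable_of_continuous hK hρ (continuous_conj hY hne hg.continuousOn)) ?_
          filter_upwards [ae_iff.2 hρ] with x hx
          exact conj_biconj_le hK hKne hY hne hg.continuousOn hx
        · refine integral_mono_ae (integrable_of_continuous hY hν hg')
            (integrable_of_continuous hY hν hg) ?_
          filter_upwards [ae_iff.2 hν] with y hy
          exact biconj_le hK hKne hY hne hg.continuousOn hy

end Minimizer

/-- Brenier: an optimal map exists, and comes with a potential. -/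
theorem brenier {K : Set (Space d)} {ρ ν : Measure (Space d)} (hK : IsCompact K)
    (hY : IsCompact Y) (hKne : K.Nonempty) (hne : Y.Nonempty) [IsProbabilityMeasure ρ]
    [IsProbabilityMeasure ν] (hρ : ρ Kᶜ = 0) (hν : ν Yᶜ = 0) (hac : ρ ≪ volume)
    {L : ℝ≥0} (hL : ∀ x ∈ K, ‖x‖ ≤ L) :
    ∃ (Φ : Space d → ℝ) (G : Space d → Space d), LipschitzWith L Φ ∧ Measurable G ∧
      ρ.map G = ν ∧
      ∀ᵐ x ∂ρ, G x ∈ Y ∧ conj Y Φ x = ⟪x, G x⟫ - Φ (G x) ∧
        ∀ y ∈ Y, conj Y Φ x = ⟪x, y⟫ - Φ y → y = G x := by
  obtain ⟨Φ, hΦL, hmin⟩ := exists_minimizer hK hKne hY hne hρ hν hL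
  obtain ⟨R, hR⟩ := bound_on_compact hY
  have hΦc := hΦL.continuous
  have hφL := lipschitz_conj hY hne hΦc.continuousOn hR
  set G := gradient (conj Y Φ) with hG
  have hdiff : ∀ᵐ x ∂ρ, G x ∈ Y ∧ conj Y Φ x = ⟪x, G x⟫ - Φ (G x) ∧
      ∀ y ∈ Y, conj Y Φ x = ⟪x, y⟫ - Φ y → y = G x := by
    filter_upwards [hac.ae_le hφL.ae_differentiableAt] with x hx
    obtain ⟨y, hy, hxy⟩ := exists_max hY hne hΦc.continuousOn x
    have hyG : G x = y := max_eq_gradient hY hΦc.continuousOn hx hy hxy
    refine ⟨hyG ▸ hy, hyG ▸ hxy, fun z hz hxz => ?_⟩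
    exact (max_eq_gradient hY hΦc.continuousOn hx hz hxz).symm
  have hGm : Measurable G := measurable_gradient _
  refine ⟨Φ, G, hΦL, hGm, ?_, hdiff⟩
  haveI : IsProbabilityMeasure (ρ.map G) := Measure.isProbabilityMeasure_map hGm.aemeasurable
  refine ext_of_forall_integral_eq_of_IsFiniteMeasure fun g => ?_
  have hge : ∀ g : BoundedContinuousFunction (Space d) ℝ,
      ∫ x, g x ∂(ρ.map G) ≤ ∫ y, g y ∂ν := by
    intro g
    rw [integral_map hGm.aemeasurable g.continuous.aestronglyMeasurable]
    let t : ℕ → ℝ := fun n => 1 / ((n:ℝ) + 1)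
    have ht : ∀ n, 0 < t n := fun n => by positivity
    have ht0 : Tendsto t atTop (𝓝 0) := tendsto_one_div_add_atTop_nhds_zero_nat
    let D : ℕ → Space d → ℝ := fun n x =>
      (conj Y (fun y => Φ y + t n * g y) x - conj Y Φ x) / t n
    have hcn : ∀ n, Continuous (fun y => Φ y + t n * g y) := fun n =>
      hΦc.add (continuous_const.mul g.continuous)
    have hlim : Tendsto (fun n => ∫ x, D n x ∂ρ) atTop (𝓝 (∫ x, -g (G x) ∂ρ)) := by
      refine tendsto_integral_of_dominated_convergence (fun _ => ‖g‖) (fun n => ?_)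
        (integrable_const _) (fun n => Eventually.of_forall fun x => ?_) ?_
      · exact (((continuous_conj hY hne (hcn n).continuousOn).sub
          (continuous_conj hY hne hΦc.continuousOn)).div_const _).aestronglyMeasurable
      · have hgb : ∀ y, |g y| ≤ ‖g‖ := fun y => g.norm_coe_le_norm y
        have h1 := conj_le_conj_add hY hne (hcn n).continuousOn hΦc.continuousOn
          (c := t n * ‖g‖) (fun y _ => by
            have := mul_le_mul_of_nonneg_left (neg_le.1 (abs_le.1 (hgb y)).1) (ht n).le
            linarith) x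
        have h2 := conj_le_conj_add hY hne hΦc.continuousOn (hcn n).continuousOn
          (c := t n * ‖g‖) (fun y _ => by
            have := mul_le_mul_of_nonneg_left (abs_le.1 (hgb y)).2 (ht n).le
            linarith) x
        simp only [D, Real.norm_eq_abs]
        rw [abs_div, abs_of_pos (ht n), div_le_iff₀ (ht n), abs_le]
        constructor <;> linarith
      · filter_upwards [hdiff] with x hx
        obtain ⟨hGY, hGmax, huniq⟩ := hx
        choose z hzY hz using fun n => exists_max hY hne (hcn n).continuousOn x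
        have hz' : Tendsto z atTop (𝓝 (G x)) := by
          refine tendsto_of_subseq_tendsto fun ns hns => ?_
          obtain ⟨a, haY, φ, hφ, hφa⟩ := hY.tendsto_subseq fun k => hzY (ns k)
          refine ⟨φ, ?_⟩
          have : a = G x := by
            refine huniq a haY (le_antisymm ?_ (le_conj hY hΦc.continuousOn x haY))
            have hl : Tendsto (fun k => ⟪x, z (ns (φ k))⟫ - Φ (z (ns (φ k)))
                + 2 * (t (ns (φ k)) * ‖g‖)) atTop (𝓝 (⟪x, a⟫ - Φ a + 2 * (0 * ‖g‖))) := by
              refine Tendsto.add ?_ ((((ht0.comp (hns.comp hφ.tendsto_atTop))).mul_const _).const_mul _)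
              exact (((continuous_const.inner continuous_id).sub hΦc).tendsto a).comp hφa
            refine (ge_of_tendsto hl (Eventually.of_forall fun k => ?_)).trans (by simp)
            set n := ns (φ k)
            have h3 := le_conj hY (hcn n).continuousOn x hGY
            rw [hz n] at h3
            have h4 := abs_le.1 (g.norm_coe_le_norm (z n))
            have h5 := abs_le.1 (g.norm_coe_le_norm (G x))
            have h6 := mul_le_mul_of_nonneg_left h4.1 (ht n).le
            have h7 := mul_le_mul_of_nonneg_left h5.2 (ht n).le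
            linarith
          exact this ▸ hφa
        refine tendsto_of_tendsto_of_tendsto_of_le_of_le
          (tendsto_const_nhds : Tendsto (fun _ : ℕ => -g (G x)) atTop (𝓝 (-g (G x))))
          ((g.continuous.neg.tendsto _).comp hz') (fun n => ?_) (fun n => ?_)
        · have h3 := le_conj hY (hcn n).continuousOn x hGY
          simp only [D, le_div_iff₀ (ht n)]
          linarith
        · have h3 := le_conj hY hΦc.continuousOn x (hzY n)
          simp only [D, Function.comp_apply, Pi.neg_apply, div_le_iff₀ (ht n), hz n]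
          linarith
    have hpos : ∀ n, 0 ≤ (∫ x, D n x ∂ρ) + ∫ y, g y ∂ν := by
      intro n
      have h := hmin _ (hcn n)
      simp only [dual] at h
      rw [integral_add (integrable_of_continuous hY hν hΦc)
        ((g.integrable ν).const_mul _), integral_const_mul] at h
      have h1 : ∫ x, D n x ∂ρ = ((∫ x, conj Y (fun y => Φ y + t n * g y) x ∂ρ) -
          ∫ x, conj Y Φ x ∂ρ) / t n := by
        simp only [D]
        rw [integral_div, integral_sub
          (integrable_of_continuous hK hρ (continuous_conj hY hne (hcn n).continuousOn))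
          (integrable_of_continuous hK hρ (continuous_conj hY hne hΦc.continuousOn))]
      rw [h1, div_add' _ _ _ (ht n).ne']
      exact div_nonneg (by linarith) (ht n).le
    have := le_of_tendsto_of_tendsto tendsto_const_nhds (hlim.add_const (∫ y, g y ∂ν))
      (Eventually.of_forall hpos)
    rw [integral_neg] at this
    linarith
  refine le_antisymm (hge g) ?_
  have := hge (-g)
  simp only [BoundedContinuousFunction.coe_neg, Pi.neg_apply, integral_neg] at this
  linarith

end Vale.Agent.P074
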