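import Vale.Agent.P074.Shift

/-!
The estimate `‖T - S‖² ≤ C (W² / h² + h)` for finitely many atoms.
-/

open MeasureTheory Filter Topology
open scoped ENNReal NNReal RealInnerProductSpace

namespace Vale.Agent.P074

variable {d : ℕ} {ι : Type} [Fintype ι] [Nonempty ι]

lemma density_one {K : Set (Space d)} (hK : IsCompact K) : Density K fun _ => (1:ℝ) :=
  ⟨hK, measurable_const, fun _ => zero_le_one, fun _ => one_le_two⟩

lemma integrableOn_of_bdd {K : Set (Space d)} (hK : IsCompact K) {f : Space d → ℝ}
    (hf : Measurable f) {M : ℝ} (hM : ∀ x ∈ K, |f x| ≤ M) : IntegrableOn f K := by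
  haveI : IsFiniteMeasure (volume.restrict K) := isFiniteMeasure_restrict.2 hK.measure_lt_top.ne
  refine Integrable.of_bound hf.aestronglyMeasurable M ?_
  filter_upwards [ae_restrict_mem hK.measurableSet] with x hx using hM x hx

/-- Data at one endpoint: an optimal map for finitely many weighted atoms. -/
structure EndMap (K : Set (Space d)) (π : ι → ℝ) (p : ι → Space d) (R : ℝ)
    (T : Space d → Space d) (Φ : Space d → ℝ) : Prop where
  meas : Measurable T
  bdd : ∀ x, ‖T x‖ ≤ R
  cont : Continuous Φ
  pot : ∀ᵐ x ∂volume.restrict K,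
    T x ∈ sites p ∧ conj (sites p : Set (Space d)) Φ x = ⟪x, T x⟫ - Φ (T x)
  law : ∀ F : Space d → ℝ, Continuous F → ∫ x in K, F (T x) = ∑ j, π j * F (p j)

variable {K : Set (Space d)} {π : ι → ℝ} {p q : ι → Space d} {R : ℝ}
  {T S : Space d → Space d} {Φ Ψ : Space d → ℝ}

lemma EndMap.integrable_comp (hT : EndMap K π p R T Φ) (hK : IsCompact K) {F : Space d × Space d → ℝ}
    (hF : Continuous F) : IntegrableOn (fun x => F (x, T x)) K := by
  obtain ⟨M, hM⟩ := ((hK.prod (isCompact_closedBall (0 : Space d) R)).image hF).isBounded.exists_norm_le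
  refine integrableOn_of_bdd hK (hF.measurable.comp (measurable_id.prodMk hT.meas)) (M := M)
    fun x hx => ?_
  exact hM _ ⟨(x, T x), ⟨hx, by simpa using hT.bdd x⟩, rfl⟩

lemma EndMap.inner_le_dual (hT : EndMap K π p R T Φ) (hK : IsCompact K) {Φ' : Space d → ℝ}
    (hΦ' : Continuous Φ') : ∫ x in K, ⟪x, T x⟫ ≤ dualVal K (fun _ => 1) π p Φ' := by
  have hc := continuous_conj (isCompact_sites p) (by simpa using sites_nonempty p) hΦ'.continuousOn
  simp only [dualVal, mul_one]
  have iT : IntegrableOn (fun x => Φ' (T x)) K := hT.integrable_comp hK (hΦ'.comp continuous_snd)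
  rw [← hT.law Φ' hΦ', ← integral_add (hc.continuousOn.integrableOn_compact hK) iT]
  refine integral_mono_ae (hT.integrable_comp hK (continuous_fst.inner continuous_snd))
    ((hc.continuousOn.integrableOn_compact hK).add iT) ?_
  filter_upwards [hT.pot] with x hx
  have := le_conj (isCompact_sites p) hΦ'.continuousOn x (Finset.mem_coe.2 hx.1)
  linarith

lemma EndMap.dual_eq (hT : EndMap K π p R T Φ) (hK : IsCompact K) :
    dualVal K (fun _ => 1) π p Φ = ∫ x in K, ⟪x, T x⟫ := by
  have hc := continuous_conj (isCompact_sites p) (by simpa using sites_nonempty p) hT.cont.continuousOn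
  simp only [dualVal, mul_one]
  have iT : IntegrableOn (fun x => Φ (T x)) K := hT.integrable_comp hK (hT.cont.comp continuous_snd)
  rw [← hT.law Φ hT.cont, ← integral_add (hc.continuousOn.integrableOn_compact hK) iT]
  refine integral_congr_ae ?_
  filter_upwards [hT.pot] with x hx
  simp only [hx.2]
  ring

/-- Raising one endpoint: lower bound after the shift. -/
lemma shifted_lower (hK : IsCompact K) (hR : 0 < R) (hT : EndMap K π p R T Φ)
    (hS : EndMap K π q R S Ψ) {K' : Set (Space d)} (hK' : IsCompact K') (hsub : K ⊆ K') {h : ℝ}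
    (hmem : ∀ x ∈ K, ∀ v : Space d, ‖v‖ ≤ |h| → x + v ∈ K') (i : Fin d) {Ψ' : Space d → ℝ}
    (hΨ' : Continuous Ψ') :
    (∫ x in K, ⟪x, S x⟫) +
        h * ∫ x in K, (shiftProb K T S R i 1 x - shiftProb K T S R i (-1) x) * S x i ≤
      dualVal K' (shiftDensity K T S R i h) π q Ψ' := by
  set ψ := conj (sites q : Set (Space d)) Ψ'
  have hc : Continuous ψ :=
    continuous_conj (isCompact_sites q) (by simpa using sites_nonempty q) hΨ'.continuousOn
  set v : Space d := EuclideanSpace.single i h
  set P := shiftProb K T S R i 1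
  set Q := shiftProb K T S R i (-1)
  have hP : ∀ f : Space d → ℝ, Continuous f → IntegrableOn (fun x => P x * f x) K := fun f hf =>
    (prob_integrable hK hR hT.meas hS.meas hT.bdd hS.bdd (by simp) hf).integrableOn
  have hQ : ∀ f : Space d → ℝ, Continuous f → IntegrableOn (fun x => Q x * f x) K := fun f hf =>
    (prob_integrable hK hR hT.meas hS.meas hT.bdd hS.bdd (by simp) hf).integrableOn
  have iS : IntegrableOn (fun x => ⟪x, S x⟫) K := hS.integrable_comp hK (continuous_fst.inner continuous_snd)
  have iPS : IntegrableOn (fun x => (P x - Q x) * S x i) K := by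
    refine integrableOn_of_bdd hK (((measurable_shiftProb hK hT.meas hS.meas 1).sub
      (measurable_shiftProb hK hT.meas hS.meas (-1))).mul
      ((measurable_pi_apply i).comp ((PiLp.continuous_ofLp 2 _).measurable.comp hS.meas))) (M := R)
      fun x _ => ?_
    have a1 := shiftProb_nonneg (K := K) (T := T) (S := S) (i := i) hR 1 x
    have a2 := shiftProb_nonneg (K := K) (T := T) (S := S) (i := i) hR (-1) x
    have a3 := shiftProb_le (K := K) (i := i) hR hT.bdd hS.bdd (σ := 1) (by simp) x
    have a4 := shiftProb_le (K := K) (i := i) hR hT.bdd hS.bdd (σ := -1) (by simp) x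
    rw [abs_mul]
    calc |P x - Q x| * |S x i| ≤ 1 * R :=
          mul_le_mul (abs_le.2 ⟨by linarith, by linarith⟩) (abs_coord_le (hS.bdd x) i) (abs_nonneg _)
            zero_le_one
      _ = R := one_mul R
  have iΨ : IntegrableOn (fun x => Ψ' (S x)) K := hS.integrable_comp hK (hΨ'.comp continuous_snd)
  have c1 : Continuous fun x => ψ (x + v) - ψ x := (hc.comp (continuous_id.add continuous_const)).sub hc
  have c2 : Continuous fun x => ψ (x - v) - ψ x := (hc.comp (continuous_id.sub continuous_const)).sub hc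
  have iF : IntegrableOn (fun x => ψ x + P x * (ψ (x + v) - ψ x) + Q x * (ψ (x - v) - ψ x)) K :=
    ((hc.continuousOn.integrableOn_compact hK).add (hP _ c1)).add (hQ _ c2)
  rw [dualVal, integral_shift hK' hK hR hT.meas hS.meas hT.bdd hS.bdd hsub hmem hc, ← hS.law Ψ' hΨ',
    ← integral_add iF iΨ, ← integral_const_mul, ← integral_add iS (iPS.const_mul h)]
  refine integral_mono_ae (iS.add (iPS.const_mul h)) (iF.add iΨ) ?_
  filter_upwards [hS.pot, ae_restrict_mem hK.measurableSet] with x hx hxK
  have hmemS := Finset.mem_coe.2 hx.1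
  have e0 := le_conj (isCompact_sites q) hΨ'.continuousOn x hmemS
  have e1 := le_conj (isCompact_sites q) hΨ'.continuousOn (x + v) hmemS
  have e2 := le_conj (isCompact_sites q) hΨ'.continuousOn (x - v) hmemS
  have hv : ⟪v, S x⟫ = h * S x i := by
    rw [EuclideanSpace.inner_single_left]; simp
  rw [inner_add_left, hv] at e1
  rw [inner_sub_left, hv] at e2
  have a1 := shiftProb_nonneg (K := K) (T := T) (S := S) (i := i) hR 1 x
  have a2 := shiftProb_nonneg (K := K) (T := T) (S := S) (i := i) hR (-1) x
  have a3 : 0 ≤ 1 - P x - Q x := by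
    have := shiftProb_le (K := K) (i := i) hR hT.bdd hS.bdd (σ := 1) (by simp) x
    have := shiftProb_le (K := K) (i := i) hR hT.bdd hS.bdd (σ := -1) (by simp) x
    linarith
  have := mul_le_mul_of_nonneg_left e1 a1
  have := mul_le_mul_of_nonneg_left e2 a2
  have := mul_le_mul_of_nonneg_left e0 a3
  simp only [P, Q, ψ, v] at *
  linarith

/-- Upper bound for the other endpoint after the shift. -/
lemma shifted_upper (hK : IsCompact K) (hR : 0 < R) (hT : EndMap K π p R T Φ)
    (hS : EndMap K π q R S Ψ) {K' : Set (Space d)} (hK' : IsCompact K') (hsub : K ⊆ K') {h : ℝ}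
    (hmem : ∀ x ∈ K, ∀ v : Space d, ‖v‖ ≤ |h| → x + v ∈ K') (i : Fin d) :
    dualVal K' (shiftDensity K T S R i h) π p Φ ≤ (∫ x in K, ⟪x, T x⟫) +
      h * (∫ x in K, (shiftProb K T S R i 1 x - shiftProb K T S R i (-1) x) * T x i) +
      ∫ x in K, secondDiff (conj (sites p : Set (Space d)) Φ) (EuclideanSpace.single i h) x := by
  set φ := conj (sites p : Set (Space d)) Φ
  have hne : (sites p : Set (Space d)).Nonempty := by simpa using sites_nonempty p
  have hc : Continuous φ := continuous_conj (isCompact_sites p) hne hT.cont.continuousOn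
  set v : Space d := EuclideanSpace.single i h
  set P := shiftProb K T S R i 1
  set Q := shiftProb K T S R i (-1)
  have hP : ∀ f : Space d → ℝ, Continuous f → IntegrableOn (fun x => P x * f x) K := fun f hf =>
    (prob_integrable hK hR hT.meas hS.meas hT.bdd hS.bdd (by simp) hf).integrableOn
  have hQ : ∀ f : Space d → ℝ, Continuous f → IntegrableOn (fun x => Q x * f x) K := fun f hf =>
    (prob_integrable hK hR hT.meas hS.meas hT.bdd hS.bdd (by simp) hf).integrableOn
  have iT : IntegrableOn (fun x => ⟪x, T x⟫) K := hT.integrable_comp hK (continuous_fst.inner continuous_snd)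
  have iPT : IntegrableOn (fun x => (P x - Q x) * T x i) K := by
    refine integrableOn_of_bdd hK (((measurable_shiftProb hK hT.meas hS.meas 1).sub
      (measurable_shiftProb hK hT.meas hS.meas (-1))).mul
      ((measurable_pi_apply i).comp ((PiLp.continuous_ofLp 2 _).measurable.comp hT.meas))) (M := R)
      fun x _ => ?_
    have a1 := shiftProb_nonneg (K := K) (T := T) (S := S) (i := i) hR 1 x
    have a2 := shiftProb_nonneg (K := K) (T := T) (S := S) (i := i) hR (-1) x
    have a3 := shiftProb_le (K := K) (i := i) hR hT.bdd hS.bdd (σ := 1) (by simp) x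
    have a4 := shiftProb_le (K := K) (i := i) hR hT.bdd hS.bdd (σ := -1) (by simp) x
    rw [abs_mul]
    calc |P x - Q x| * |T x i| ≤ 1 * R :=
          mul_le_mul (abs_le.2 ⟨by linarith, by linarith⟩) (abs_coord_le (hT.bdd x) i) (abs_nonneg _)
            zero_le_one
      _ = R := one_mul R
  have iΦ : IntegrableOn (fun x => Φ (T x)) K := hT.integrable_comp hK (hT.cont.comp continuous_snd)
  have cp : Continuous fun x => φ (x + v) := hc.comp (continuous_id.add continuous_const)
  have cm : Continuous fun x => φ (x - v) := hc.comp (continuous_id.sub continuous_const)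
  have isd : IntegrableOn (secondDiff φ v) K :=
    ((cp.add cm).sub (continuous_const.mul hc)).continuousOn.integrableOn_compact hK
  have iF : IntegrableOn (fun x => φ x + P x * (φ (x + v) - φ x) + Q x * (φ (x - v) - φ x)) K :=
    ((hc.continuousOn.integrableOn_compact hK).add (hP _ (cp.sub hc))).add (hQ _ (cm.sub hc))
  have iR : IntegrableOn (fun x => ⟪x, T x⟫ + h * ((P x - Q x) * T x i)) K := iT.add (iPT.const_mul h)
  rw [dualVal, integral_shift hK' hK hR hT.meas hS.meas hT.bdd hS.bdd hsub hmem hc, ← hT.law Φ hT.cont,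
    ← integral_add iF iΦ, ← integral_const_mul, ← integral_add iT (iPT.const_mul h),
    ← integral_add iR isd]
  refine integral_mono_ae (iF.add iΦ) (iR.add isd) ?_
  filter_upwards [hT.pot] with x hx
  have hmemT := Finset.mem_coe.2 hx.1
  have e1 := le_conj (isCompact_sites p) hT.cont.continuousOn (x + v) hmemT
  have e2 := le_conj (isCompact_sites p) hT.cont.continuousOn (x - v) hmemT
  have hv : ⟪v, T x⟫ = h * T x i := by
    rw [EuclideanSpace.inner_single_left]; simp
  rw [inner_add_left, hv] at e1
  rw [inner_sub_left, hv] at e2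
  have hsd := secondDiff_nonneg (isCompact_sites p) hne hT.cont.continuousOn v x
  have a1 := shiftProb_nonneg (K := K) (T := T) (S := S) (i := i) hR 1 x
  have a2 := shiftProb_nonneg (K := K) (T := T) (S := S) (i := i) hR (-1) x
  have a3 := shiftProb_le (K := K) (i := i) hR hT.bdd hS.bdd (σ := 1) (by simp) x
  have a4 := shiftProb_le (K := K) (i := i) hR hT.bdd hS.bdd (σ := -1) (by simp) x
  have he := hx.2
  have b1 : φ (x + v) - φ x ≤ h * T x i + secondDiff φ v x := by
    simp only [secondDiff, φ] at *
    linarith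
  have b2 : φ (x - v) - φ x ≤ -(h * T x i) + secondDiff φ v x := by
    simp only [secondDiff, φ] at *
    linarith
  have := mul_le_mul_of_nonneg_left b1 a1
  have := mul_le_mul_of_nonneg_left b2 a2
  have := mul_le_mul_of_nonneg_right (add_le_add a3 a4) hsd
  simp only [P, Q, φ, v] at *
  linarith

/-- Increments of the value difference along a straight segment of families. -/
lemma telescope {K' : Set (Space d)} {g g' : Space d → ℝ} (hg : Density K g) (hg' : Density K' g')
    (hπ : ∀ j, 0 < π j) (Φs Φs' : (ι → Space d) → Space d → ℝ)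
    (h1 : ∀ p, IsPot K g π p (Φs p)) (h2 : ∀ p, IsPot K' g' π p (Φs' p)) {L : ℝ}
    (hL : ∀ x ∈ K', ‖x‖ ≤ L) {lam M : ℝ} (hlam : 0 < lam)
    (hstab : ∀ (p : ι → Space d) (i : Fin d), ∑ j, π j *
      (centroid K' g' π p (Φs' p) j i - centroid K g π p (Φs p) j i) ^ 2 ≤ M)
    (p q : ι → Space d) :
    (dualVal K' g' π q (Φs' q) - dualVal K g π q (Φs q)) -
        (dualVal K' g' π p (Φs' p) - dualVal K g π p (Φs p)) ≤
      (∑ j, π j * ‖q j - p j‖ ^ 2) / (2 * lam) + lam * (d * M) / 2 := by
  let G : (ι → Space d) → ℝ := fun r => dualVal K' g' π r (Φs' r) - dualVal K g π r (Φs r)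
  have key : ∀ n : ℕ, 0 < n → G q - G p ≤ (∑ j, π j * ‖q j - p j‖ ^ 2) / (2 * lam) +
      lam * (d * M) / 2 + (∑ j, π j * ∑ i, |q j i - p j i| * (2 * L)) / n := by
    intro n hn
    have hn' : (0:ℝ) < n := Nat.cast_pos.2 hn
    let r : ℕ → ι → Space d := fun k j => p j + ((k:ℝ) / n) • (q j - p j)
    have hr0 : r 0 = p := by funext j; simp [r]
    have hrn : r n = q := by funext j; simp [r, div_self hn'.ne']
    let b := fun k j i => centroid K g π (r k) (Φs (r k)) j i
    let b' := fun k j i => centroid K' g' π (r k) (Φs' (r k)) j i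
    have hdiff : ∀ k j i, r (k + 1) j i - r k j i = (q j i - p j i) / n := fun k j i => by
      simp [r]; ring
    have hstep : ∀ k ∈ Finset.range n, G (r (k + 1)) - G (r k) ≤
        ∑ j, π j * ∑ i, (q j i - p j i) / n * (b' (k + 1) j i - b k j i) := fun k _ => by
      refine (value_step hg hg' hπ (h1 (r k)) (h1 (r (k + 1))) (h2 (r k)) (h2 (r (k + 1)))).trans
        (le_of_eq ?_)
      simp only [hdiff, b, b']
    have htel : G q - G p = ∑ k ∈ Finset.range n, (G (r (k + 1)) - G (r k)) := by
      rw [Finset.sum_range_sub fun k => G (r k), hr0, hrn]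
    have hper : ∀ j i, ∑ k ∈ Finset.range n, (q j i - p j i) / n * (b' (k + 1) j i - b k j i) ≤
        (q j i - p j i) ^ 2 / (2 * lam) +
          lam / (2 * n) * (∑ k ∈ Finset.range n, (b' k j i - b k j i) ^ 2) +
          |q j i - p j i| * (2 * L) / n := by
      intro j i
      set a := q j i - p j i
      have e : ∑ k ∈ Finset.range n, a / n * (b' (k + 1) j i - b k j i) =
          (∑ k ∈ Finset.range n, a / n * (b' k j i - b k j i)) + a / n * (b' n j i - b' 0 j i) := by
        rw [← Finset.sum_range_sub (fun k => b' k j i), Finset.mul_sum, ← Finset.sum_add_distrib]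
        exact Finset.sum_congr rfl fun k _ => by ring
      rw [e]
      refine add_le_add ?_ ?_
      · calc ∑ k ∈ Finset.range n, a / n * (b' k j i - b k j i)
            ≤ ∑ k ∈ Finset.range n, (a ^ 2 / (2 * lam) / n + lam / (2 * n) * (b' k j i - b k j i) ^ 2) := by
              refine Finset.sum_le_sum fun k _ => ?_
              set D := b' k j i - b k j i
              have h0 : 0 ≤ (a - lam * D) ^ 2 / (2 * lam * n) := by positivity
              have : a ^ 2 / (2 * lam) / n + lam / (2 * n) * D ^ 2 - a / n * D =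
                  (a - lam * D) ^ 2 / (2 * lam * n) := by field_simp; ring
              linarith
          _ = _ := by
              rw [Finset.sum_add_distrib, Finset.sum_const, Finset.card_range, nsmul_eq_mul,
                ← Finset.mul_sum, mul_div_cancel₀ _ hn'.ne']
      · have hb : |b' n j i - b' 0 j i| ≤ 2 * L :=
          have e1 : |b' n j i| ≤ L := abs_centroid_le hg' hπ (h2 (r n)) hL j i
          have e2 : |b' 0 j i| ≤ L := abs_centroid_le hg' hπ (h2 (r 0)) hL j i
          (abs_sub _ _).trans (by linarith)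
        calc a / n * (b' n j i - b' 0 j i) ≤ |a| / n * |b' n j i - b' 0 j i| := by
              refine (le_abs_self _).trans (le_of_eq ?_)
              rw [abs_mul, abs_div, Nat.abs_cast]
          _ ≤ |a| / n * (2 * L) := by gcongr
          _ = _ := by ring
    rw [htel]
    refine (Finset.sum_le_sum hstep).trans ?_
    rw [Finset.sum_comm]
    simp only [← Finset.mul_sum]
    calc ∑ j, π j * ∑ k ∈ Finset.range n, ∑ i, (q j i - p j i) / n * (b' (k + 1) j i - b k j i)
        ≤ ∑ j, π j * ∑ i, ((q j i - p j i) ^ 2 / (2 * lam) +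
            lam / (2 * n) * (∑ k ∈ Finset.range n, (b' k j i - b k j i) ^ 2) +
            |q j i - p j i| * (2 * L) / n) := by
          refine Finset.sum_le_sum fun j _ => mul_le_mul_of_nonneg_left ?_ (hπ j).le
          rw [Finset.sum_comm]
          exact Finset.sum_le_sum fun i _ => hper j i
      _ = (∑ j, π j * ‖q j - p j‖ ^ 2) / (2 * lam) + lam / (2 * n) *
            (∑ i, ∑ k ∈ Finset.range n, ∑ j, π j * (b' k j i - b k j i) ^ 2) +
            (∑ j, π j * ∑ i, |q j i - p j i| * (2 * L)) / n := by
          simp only [Finset.sum_add_distrib, mul_add, EuclideanSpace.norm_sq_eq, Real.norm_eq_abs,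
            sq_abs, PiLp.sub_apply, Finset.mul_sum, Finset.sum_div]
          congr 1
          · congr 1
            · exact Finset.sum_congr rfl fun j _ => Finset.sum_congr rfl fun i _ => by ring
            · rw [Finset.sum_comm]
              refine Finset.sum_congr rfl fun i _ => ?_
              rw [Finset.sum_comm]
              exact Finset.sum_congr rfl fun j _ => Finset.sum_congr rfl fun k _ => by ring
          · exact Finset.sum_congr rfl fun j _ => Finset.sum_congr rfl fun i _ => by ring
      _ ≤ _ := by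
          gcongr
          calc lam / (2 * n) * (∑ i, ∑ k ∈ Finset.range n, ∑ j, π j * (b' k j i - b k j i) ^ 2)
              ≤ lam / (2 * n) * ∑ _i : Fin d, ∑ _k ∈ Finset.range n, M := by
                gcongr with i _ k
                exact hstab _ i
            _ = _ := by simp; field_simp
  refine ge_of_tendsto (x := atTop) (f := fun n : ℕ => (∑ j, π j * ‖q j - p j‖ ^ 2) / (2 * lam) +
      lam * (d * M) / 2 + (∑ j, π j * ∑ i, |q j i - p j i| * (2 * L)) / n) ?_ ?_
  · simpa using (tendsto_const_div_atTop_nhds_zero_nat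
      (∑ j, π j * ∑ i, |q j i - p j i| * (2 * L))).const_add
        ((∑ j, π j * ‖q j - p j‖ ^ 2) / (2 * lam) + lam * (d * M) / 2)
  · filter_upwards [eventually_gt_atTop 0] with n hn using key n hn

/-- The estimate for finitely many atoms. -/
theorem atomic_estimate {K : Set (Space d)} (hK : IsCompact K) (hc : Convex ℝ K)
    (hint : (interior K).Nonempty) {R : ℝ} (hR : 0 < R) :
    ∃ C : ℝ, 0 ≤ C ∧ ∀ (ι : Type) [Fintype ι] [Nonempty ι] (π : ι → ℝ) (p q : ι → Space d)
      (T S : Space d → Space d) (Φ Ψ : Space d → ℝ), (∀ j, 0 < π j) →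
      ∑ j, π j = volume.real K → (∀ j, ‖p j‖ ≤ R) → (∀ j, ‖q j‖ ≤ R) →
      EndMap K π p R T Φ → EndMap K π q R S Ψ → ∀ h : ℝ, 0 < h → h ≤ 1 → ∀ i : Fin d,
        ∫ x in K, (S x i - T x i) ^ 2 ≤ C * ((∑ j, π j * ‖q j - p j‖ ^ 2) / h ^ 2 + h) := by
  obtain ⟨CE, L, hCE, hL0, hen⟩ := enlarge hK hc hint
  obtain ⟨CS, hCS, hsd⟩ := secondDiff_bound hK (R := R.toNNReal)
  refine ⟨4 * R * (1 / 2 + 192 * d * L ^ 2 * CE + CS), by positivity, ?_⟩
  intro ι _ _ π p q T S Φ Ψ hπ hsum hp hq hT hS h hh hh1 i
  obtain ⟨K', hK', hc', hsub, hmem, hvol, hL⟩ := hen h hh hh1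
  have hmem' : ∀ x ∈ K, ∀ v : Space d, ‖v‖ ≤ |h| → x + v ∈ K' := by rwa [abs_of_pos hh]
  set g := shiftDensity K T S R i h with hgdef
  have hg : Density K' g := density_shift hK' hK hR hT.meas hS.meas hT.bdd hS.bdd h
  have hg1 := density_one hK
  have hm : ∫ x in K', g x = ∑ j, π j := by
    have := integral_shift (i := i) hK' hK hR hT.meas hS.meas hT.bdd hS.bdd hsub hmem'
      (f := fun _ => (1:ℝ)) continuous_const
    simpa [hsum] using this
  have hm1 : ∫ _x in K, (1:ℝ) = ∑ j, π j := by simp [hsum]
  choose Φs hΦs using fun r : ι → Space d => exists_pot hg1 hπ hm1 r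
  choose Φs' hΦs' using fun r : ι → Space d => exists_pot hg hπ hm r
  have hε := shift_L1 (K' := K') (i := i) hK' hK (isCompact_sites p) hR hT.meas hS.meas hT.bdd hS.bdd
    hT.cont hS.cont (isCompact_sites q) hT.pot hS.pot hh hsub hmem
  have hstab : ∀ (r : ι → Space d) (k : Fin d), ∑ j, π j *
      (centroid K' g π r (Φs' r) j k - centroid K (fun _ => 1) π r (Φs r) j k) ^ 2 ≤
        384 * L ^ 2 * CE * h := by
    intro r k
    have hmass : ∀ z ∈ sites r, massAt π r z = volume.real (cell (sites r) (Φs r) K z) := fun z hz => by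
      rw [← (hΦs r).2 z hz]; simp
    have e : ∑ j, π j * (centroid K' g π r (Φs' r) j k - centroid K (fun _ => 1) π r (Φs r) j k) ^ 2 =
        ∑ z ∈ sites r, massAt π r z *
          ((∫ x in cell (sites r) (Φs' r) K' z, x k * g x) / massAt π r z -
            (∫ x in cell (sites r) (Φs r) K z, x k * (1:ℝ)) / massAt π r z) ^ 2 :=
      sum_mass (π := π) (p := r) fun z =>
        ((∫ x in cell (sites r) (Φs' r) K' z, x k * g x) / massAt π r z -
          (∫ x in cell (sites r) (Φs r) K z, x k * (1:ℝ)) / massAt π r z) ^ 2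
    have hcs := centroid_stability (sites_nonempty r) (hΦs r).1 (hΦs' r).1 hK hK' hsub hc'
      hg.nonneg hg.integrableOn k (hg.integrable (by fun_prop)) hL
      (fun z hz => by rw [(hΦs' r).2 z hz, hmass z hz])
    rw [e]
    calc _ ≤ 64 * L ^ 2 * ((volume.real K' - volume.real K) + ∫ x in K', |g x - 1|) := by
          refine le_trans (le_of_eq (Finset.sum_congr rfl fun z hz => ?_)) hcs
          simp only [mul_one, hmass z hz]
          ring
      _ ≤ 64 * L ^ 2 * (CE * h + 5 * (CE * h)) := by
          gcongr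
          exact hε.trans (by linarith)
      _ = _ := by ring
  have htel := telescope hg1 hg hπ Φs Φs' hΦs hΦs' hL hh hstab p q
  have hlow := shifted_lower hK hR hT hS hK' hsub hmem' i (hΦs' q).1
  have hqle : dualVal K (fun _ => 1) π q (Φs q) ≤ ∫ x in K, ⟪x, S x⟫ :=
    (dualVal_le hg1 (hΦs q) hS.cont).trans_eq (hS.dual_eq hK)
  have hup := (dualVal_le hg (hΦs' p) hT.cont).trans (shifted_upper hK hR hT hS hK' hsub hmem' i)
  have hple := hT.inner_le_dual hK (hΦs p).1
  have hsdb : ∫ x in K, secondDiff (conj (sites p : Set (Space d)) Φ) (EuclideanSpace.single i h) x ≤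
      CS * h ^ 2 := by
    have hne : (sites p : Set (Space d)).Nonempty := by simpa using sites_nonempty p
    have hlip : LipschitzWith R.toNNReal (conj (sites p : Set (Space d)) Φ) :=
      lipschitz_conj (isCompact_sites p) hne hT.cont.continuousOn fun y hy => by
        rw [Real.coe_toNNReal _ hR.le]
        classical
        obtain ⟨j, -, rfl⟩ := Finset.mem_image.1 (Finset.mem_coe.1 hy)
        exact hp j
    have := hsd _ hlip (EuclideanSpace.single i h) (by simpa [abs_of_pos hh] using hh1)
      fun x => secondDiff_nonneg (isCompact_sites p) hne hT.cont.continuousOn _ x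
    simpa [abs_of_pos hh] using this
  have hsq : (∫ x in K, (shiftProb K T S R i 1 x - shiftProb K T S R i (-1) x) * S x i) -
      (∫ x in K, (shiftProb K T S R i 1 x - shiftProb K T S R i (-1) x) * T x i) =
      (∫ x in K, (S x i - T x i) ^ 2) / (4 * R) := by
    have hi : ∀ U : Space d → Space d, Measurable U → (∀ x, ‖U x‖ ≤ R) →
        IntegrableOn (fun x => (shiftProb K T S R i 1 x - shiftProb K T S R i (-1) x) * U x i) K := by
      intro U hU hUR
      refine integrableOn_of_bdd hK (((measurable_shiftProb hK hT.meas hS.meas 1).sub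
        (measurable_shiftProb hK hT.meas hS.meas (-1))).mul
        ((measurable_pi_apply i).comp ((PiLp.continuous_ofLp 2 _).measurable.comp hU))) (M := R)
        fun x _ => ?_
      rw [abs_mul]
      calc _ ≤ 1 * R := mul_le_mul (abs_le.2
            ⟨by linarith [shiftProb_nonneg (K := K) (T := T) (S := S) (i := i) hR 1 x,
                shiftProb_le (K := K) (i := i) hR hT.bdd hS.bdd (σ := -1) (by simp) x],
              by linarith [shiftProb_nonneg (K := K) (T := T) (S := S) (i := i) hR (-1) x,
                shiftProb_le (K := K) (i := i) hR hT.bdd hS.bdd (σ := 1) (by simp) x]⟩)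
              (abs_coord_le (hUR x) i) (abs_nonneg _) zero_le_one
        _ = R := one_mul R
    rw [← integral_sub (hi S hS.meas hS.bdd) (hi T hT.meas hT.bdd), ← integral_div]
    refine setIntegral_congr_fun hK.measurableSet fun x hx => ?_
    simp only
    rw [← mul_sub, (shiftProb_add hR x hx).2]
    ring
  set c := ∑ j, π j * ‖q j - p j‖ ^ 2
  set N := ∫ x in K, (S x i - T x i) ^ 2
  have hc0 : 0 ≤ c := Finset.sum_nonneg fun j _ => mul_nonneg (hπ j).le (sq_nonneg _)
  have hmain : h * (N / (4 * R)) ≤ c / (2 * h) + h * (d * (384 * L ^ 2 * CE * h)) / 2 + CS * h ^ 2 := by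
    rw [← hsq]
    simp only [← hgdef] at hlow hup
    linarith
  set A := 192 * (d:ℝ) * L ^ 2 * CE + CS
  have hA : 0 ≤ A := by positivity
  have hm2 : N / (4 * R) ≤ c / h ^ 2 / 2 + A * h := by
    have h2 : h * (N / (4 * R)) ≤ h * (c / h ^ 2 / 2 + A * h) := by
      refine hmain.trans (le_of_eq ?_)
      simp only [A]
      field_simp
      ring
    exact le_of_mul_le_mul_left h2 hh
  rw [div_le_iff₀ (by positivity)] at hm2
  have hq0 : 0 ≤ c / h ^ 2 := by positivity
  refine hm2.trans ?_
  rw [show 4 * R * (1 / 2 + 192 * (d:ℝ) * L ^ 2 * CE + CS) * (c / h ^ 2 + h) =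
    (1 / 2 + A) * (c / h ^ 2 + h) * (4 * R) by simp only [A]; ring]
  gcongr
  nlinarith

end Vale.Agent.P074
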