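import Vale.Agent.P074.Gain

/-!
The exponent `1/3` is admissible.
-/

open MeasureTheory Filter Topology
open scoped ENNReal NNReal RealInnerProductSpace

namespace Vale.Agent.P074

variable {d : ℕ}

/-- Rounding to a finite set, measurably. -/
lemma exists_rounding {s : Finset (Space d)} (hs : s.Nonempty) (δ : ℝ) :
    ∃ r : Space d → Space d, Measurable r ∧ (∀ y, r y ∈ s) ∧
      ∀ y, (∃ c ∈ s, dist y c < δ) → dist y (r y) < δ := by
  classical
  induction hs using Finset.Nonempty.cons_induction with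
  | singleton a =>
    refine ⟨fun _ => a, measurable_const, fun y => Finset.mem_singleton_self a, fun y hy => ?_⟩
    obtain ⟨c, hc, hd⟩ := hy
    rwa [Finset.mem_singleton.1 hc] at hd
  | cons a t hat ht ih =>
    obtain ⟨r, hr, hrs, hrd⟩ := ih
    refine ⟨fun y => if y ∈ Metric.ball a δ then a else r y,
      Measurable.ite Metric.isOpen_ball.measurableSet measurable_const hr, fun y => ?_, fun y hy => ?_⟩
    · dsimp only
      split_ifs
      · exact Finset.mem_cons_self a t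
      · exact Finset.mem_cons.2 (Or.inr (hrs y))
    · obtain ⟨c, hc, hd⟩ := hy
      by_cases h : y ∈ Metric.ball a δ
      · simp only [h, if_true]
        exact h
      · simp only [h, if_false]
        rcases Finset.mem_cons.1 hc with rfl | hc'
        · exact absurd hd h
        · exact hrd y ⟨c, hc', hd⟩

/-- A compact set has finite measurable roundings. -/
lemma exists_net {Y : Set (Space d)} (hY : IsCompact Y) (hne : Y.Nonempty) {δ : ℝ} (hδ : 0 < δ) :
    ∃ (s : Finset (Space d)) (r : Space d → Space d), (s : Set (Space d)) ⊆ Y ∧ Measurable r ∧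
      (∀ y, r y ∈ s) ∧ ∀ y ∈ Y, ‖y - r y‖ ≤ δ := by
  obtain ⟨t, hts, htf, hcov⟩ := Metric.finite_approx_of_totallyBounded hY.totallyBounded δ hδ
  have hne' : htf.toFinset.Nonempty := by
    obtain ⟨y, hy⟩ := hne
    have hmem := hcov hy
    simp only [Set.mem_iUnion] at hmem
    obtain ⟨c, hc, -⟩ := hmem
    exact ⟨c, by simpa using hc⟩
  obtain ⟨r, hr, hrs, hrd⟩ := exists_rounding hne' δ
  refine ⟨htf.toFinset, r, by simpa using hts, hr, hrs, fun y hy => ?_⟩
  have hmem := hcov hy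
  simp only [Set.mem_iUnion, Metric.mem_ball] at hmem
  obtain ⟨c, hc, hd⟩ := hmem
  rw [← dist_eq_norm]
  exact (hrd y ⟨c, by simpa using hc, hd⟩).le

lemma integral_finite_support {Ω : Type} [MeasurableSpace Ω] [MeasurableSingletonClass Ω]
    (μ : Measure Ω) [IsFiniteMeasure μ] (s : Finset Ω) (h : μ (s : Set Ω)ᶜ = 0) (f : Ω → ℝ) :
    ∫ x, f x ∂μ = ∑ x ∈ s, μ.real {x} * f x := by
  have hi : IntegrableOn f (s : Set Ω) μ := by
    rw [← Set.biUnion_of_singleton (s : Set Ω)]
    exact (integrableOn_finite_biUnion s.finite_toSet).2 fun i _ =>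
      integrableOn_singleton (hx := measure_lt_top _ _)
  rw [← Measure.restrict_eq_self_of_ae_mem (ae_iff.2 h), integral_finset s hi]
  rw [Measure.restrict_eq_self_of_ae_mem (ae_iff.2 h)]
  simp

/-- An optimal map to a finitely supported measure gives endpoint data. -/
lemma endMap_of_optimal {K : Set (Space d)} (hK : IsCompact K) (hint : (interior K).Nonempty)
    {ι : Type} [Fintype ι] [Nonempty ι] {π : ι → ℝ} {p : ι → Space d} {μ : Measure (Space d)}
    [IsProbabilityMeasure μ] (hμ : μ (sites p : Set (Space d))ᶜ = 0)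
    (hlaw : ∀ F : Space d → ℝ, volume.real K * ∫ y, F y ∂μ = ∑ j, π j * F (p j))
    {R : ℝ} (hR : 0 < R) (hp : ∀ j, ‖p j‖ ≤ R) {T : Space d → Space d}
    (hT : IsOTMap (uniformOn K) μ T) :
    ∃ T' Φ, T' =ᵐ[uniformOn K] T ∧ EndMap K π p R T' Φ := by
  classical
  obtain ⟨hprob, hρ, hac⟩ := uniformOn_props hK hint
  obtain ⟨L, hL⟩ := bound_on_compact hK
  have hne : (sites p : Set (Space d)).Nonempty := by simpa using sites_nonempty p
  obtain ⟨Φ, G, hΦ, -, hu⟩ := optimal_maps hK (hint.mono interior_subset) (isCompact_sites p) hne hρ hμ hac hL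
  have hpot := (hu T hT).2
  let T' : Space d → Space d := fun x => if T x ∈ Metric.closedBall 0 R then T x else 0
  have hT'm : Measurable T' :=
    Measurable.ite (hT.1 measurableSet_closedBall) hT.1 measurable_const
  have hbdd : ∀ x, ‖T' x‖ ≤ R := fun x => by
    simp only [T']
    split_ifs with h
    · simpa using h
    · simpa using hR.le
  have hsite : ∀ y ∈ sites p, ‖y‖ ≤ R := fun y hy => by
    obtain ⟨j, -, rfl⟩ := Finset.mem_image.1 hy
    exact hp j
  have hae : T' =ᵐ[uniformOn K] T := by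
    filter_upwards [hpot] with x hx
    exact if_pos (by simpa using hsite _ (Finset.mem_coe.1 hx.1))
  have hac' : volume.restrict K ≪ uniformOn K := by
    refine Measure.absolutelyContinuous_smul ?_
    simp [hK.measure_lt_top.ne]
  refine ⟨T', Φ, hae, ⟨hT'm, hbdd, hΦ.continuous, ?_, fun F hF => ?_⟩⟩
  · refine hac'.ae_le ?_
    filter_upwards [hpot, hae] with x hx he
    rw [he]
    exact ⟨Finset.mem_coe.1 hx.1, hx.2⟩
  · rw [← hlaw F]
    have h1 : ∫ y, F y ∂μ = ∫ x, F (T' x) ∂(uniformOn K) := by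
      rw [← hT.2.1, integral_map hT.1.aemeasurable hF.aestronglyMeasurable]
      exact integral_congr_ae (hae.mono fun x hx => (congrArg F hx).symm)
    rw [h1, integral_uniformOn, ← mul_assoc, mul_inv_cancel₀ ?_, one_mul]
    exact (ENNReal.toReal_pos (((isOpen_interior.measure_pos volume hint).trans_le
      (measure_mono interior_subset)).ne') hK.measure_lt_top.ne).ne'

/-- Squared distance as a real integral. -/
lemma lintegral_dist_eq {Y : Set (Space d)} (hY : IsCompact Y) {Ω : Type} [MeasurableSpace Ω]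
    {ρ : Measure Ω} [IsFiniteMeasure ρ] {T S : Ω → Space d} (hT : Measurable T) (hS : Measurable S)
    (hTY : ∀ᵐ x ∂ρ, T x ∈ Y) (hSY : ∀ᵐ x ∂ρ, S x ∈ Y) :
    Integrable (fun x => ‖T x - S x‖ ^ 2) ρ ∧
      ∫⁻ x, ENNReal.ofReal (‖T x - S x‖ ^ 2) ∂ρ = ENNReal.ofReal (∫ x, ‖T x - S x‖ ^ 2 ∂ρ) := by
  obtain ⟨R, hR⟩ := bound_on_compact hY
  have hi : Integrable (fun x => ‖T x - S x‖ ^ 2) ρ := by
    refine Integrable.of_bound ((hT.sub hS).norm.pow_const 2).aestronglyMeasurable ((2 * (R:ℝ)) ^ 2) ?_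
    filter_upwards [hTY, hSY] with x hx hy
    rw [Real.norm_eq_abs, abs_of_nonneg (sq_nonneg _)]
    gcongr
    linarith [norm_sub_le (T x) (S x), hR _ hx, hR _ hy]
  exact ⟨hi, (ofReal_integral_eq_lintegral_ofReal hi (Eventually.of_forall fun x => sq_nonneg _)).symm⟩

lemma norm_sq_triangle (a b c e : Space d) :
    ‖a - e‖ ^ 2 ≤ 3 * (‖a - b‖ ^ 2 + ‖b - c‖ ^ 2 + ‖c - e‖ ^ 2) := by
  have h : ‖a - e‖ ≤ ‖a - b‖ + ‖b - c‖ + ‖c - e‖ :=
    (norm_sub_le_norm_sub_add_norm_sub a b e).trans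
      (by linarith [norm_sub_le_norm_sub_add_norm_sub b c e])
  have h2 := pow_le_pow_left₀ (norm_nonneg _) h 2
  nlinarith [sq_nonneg (‖a - b‖ - ‖b - c‖), sq_nonneg (‖b - c‖ - ‖c - e‖), sq_nonneg (‖a - b‖ - ‖c - e‖)]

/-- The estimate for rounded targets. -/
lemma rounded_estimate {K : Set (Space d)} (hK : IsCompact K) (hint : (interior K).Nonempty)
    {R : ℝ} (hR : 0 < R) {C : ℝ} (hC : 0 ≤ C)
    (hest : ∀ (ι : Type) [Fintype ι] [Nonempty ι] (π : ι → ℝ) (p q : ι → Space d)
      (T S : Space d → Space d) (Φ Ψ : Space d → ℝ), (∀ j, 0 < π j) →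
      ∑ j, π j = volume.real K → (∀ j, ‖p j‖ ≤ R) → (∀ j, ‖q j‖ ≤ R) →
      EndMap K π p R T Φ → EndMap K π q R S Ψ → ∀ h : ℝ, 0 < h → h ≤ 1 → ∀ i : Fin d,
        ∫ x in K, (S x i - T x i) ^ 2 ≤ C * ((∑ j, π j * ‖q j - p j‖ ^ 2) / h ^ 2 + h))
    (s : Finset (Space d)) (hs : ∀ z ∈ s, ‖z‖ ≤ R) {π₀ : Measure (Space d × Space d)}
    [IsProbabilityMeasure π₀] (hsupp : π₀ ((↑(s ×ˢ s) : Set (Space d × Space d)))ᶜ = 0)
    {μ ν : Measure (Space d)} (hμ : π₀.map Prod.fst = μ) (hν : π₀.map Prod.snd = ν)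
    {T S : Space d → Space d} (hT : IsOTMap (uniformOn K) μ T) (hS : IsOTMap (uniformOn K) ν S)
    {h : ℝ} (hh : 0 < h) (hh1 : h ≤ 1) :
    ∫ x, ‖T x - S x‖ ^ 2 ∂(uniformOn K) ≤
      (d:ℝ) * C * ((∫ z, ‖z.2 - z.1‖ ^ 2 ∂π₀) / h ^ 2 + h / volume.real K) := by
  classical
  obtain ⟨hprob, hρ, hac⟩ := uniformOn_props hK hint
  set V := volume.real K with hVdef
  have hV : 0 < V := ENNReal.toReal_pos (((isOpen_interior.measure_pos volume hint).trans_le
    (measure_mono interior_subset)).ne') hK.measure_lt_top.ne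
  let P := (s ×ˢ s).filter fun z => 0 < π₀.real {z}
  have hP : π₀ (P : Set (Space d × Space d))ᶜ = 0 := by
    have hsub : (P : Set (Space d × Space d))ᶜ ⊆
        ((↑(s ×ˢ s) : Set (Space d × Space d)))ᶜ ∪
          ⋃ z ∈ (s ×ˢ s).filter (fun z => ¬ 0 < π₀.real {z}), {z} := by
      intro z hz
      by_cases h : z ∈ s ×ˢ s
      · refine Or.inr (Set.mem_biUnion (x := z) ?_ rfl)
        exact Finset.mem_filter.2 ⟨h, fun h' => hz (Finset.mem_coe.2 (Finset.mem_filter.2 ⟨h, h'⟩))⟩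
      · exact Or.inl (by simpa using h)
    refine measure_mono_null hsub (measure_union_null hsupp ?_)
    refine (measure_biUnion_null_iff (Finset.countable_toSet _)).2 fun z hz => ?_
    have h0 := (Finset.mem_filter.1 hz).2
    rw [not_lt] at h0
    exact (measureReal_eq_zero_iff (measure_ne_top _ _)).1 (le_antisymm h0 measureReal_nonneg)
  have hPne : P.Nonempty := by
    rw [Finset.nonempty_iff_ne_empty]
    intro h
    simp [h] at hP
  haveI : Nonempty P := hPne.to_subtype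
  let π : P → ℝ := fun j => V * π₀.real {(j : Space d × Space d)}
  have hπ : ∀ j, 0 < π j := fun j => mul_pos hV (Finset.mem_filter.1 j.2).2
  have hint' : ∀ F : Space d × Space d → ℝ, V * ∫ z, F z ∂π₀ = ∑ j : P, π j * F j := by
    intro F
    rw [integral_finite_support π₀ P hP, Finset.mul_sum, ← Finset.sum_coe_sort P]
    exact Finset.sum_congr rfl fun j _ => by simp only [π]; ring
  have hsum : ∑ j, π j = V := by simpa using (hint' fun _ => 1).symm
  have hmem : ∀ j : P, j.1.1 ∈ s ∧ j.1.2 ∈ s := fun j =>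
    Finset.mem_product.1 (Finset.mem_filter.1 j.2).1
  haveI : IsProbabilityMeasure μ := hμ ▸ Measure.isProbabilityMeasure_map measurable_fst.aemeasurable
  haveI : IsProbabilityMeasure ν := hν ▸ Measure.isProbabilityMeasure_map measurable_snd.aemeasurable
  have hsite : ∀ f : Space d × Space d → Space d, Measurable f →
      (π₀.map f) (sites (fun j : P => f j) : Set (Space d))ᶜ = 0 := by
    intro f hf
    rw [Measure.map_apply hf (Finset.measurableSet _).compl]
    refine measure_mono_null (fun z hz => ?_) hP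
    intro hzP
    exact hz (Finset.mem_coe.2 (mem_sites (fun j : P => f j) ⟨z, hzP⟩))
  have hlaw : ∀ f : Space d × Space d → Space d, Measurable f → ∀ F : Space d → ℝ,
      V * ∫ y, F y ∂(π₀.map f) = ∑ j : P, π j * F (f j) := by
    intro f hf F
    rw [← hint' fun z => F (f z)]
    congr 1
    let img := P.image f
    have h1 : (π₀.map f) (img : Set (Space d))ᶜ = 0 := by
      rw [Measure.map_apply hf img.measurableSet.compl]
      refine measure_mono_null (t := (P : Set (Space d × Space d))ᶜ) (fun z hz hzP => hz ?_) hP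
      exact Finset.mem_coe.2 (Finset.mem_image_of_mem f hzP)
    have haesm : AEStronglyMeasurable F (π₀.map f) :=
      ⟨(img : Set (Space d)).indicator F, (Measurable.stronglyMeasurable (by
          refine measurable_of_measurable_on_compl_countable (img : Set (Space d)) img.countable_toSet ?_
          rw [show ((img : Set (Space d))ᶜ).domRestrict ((img : Set (Space d)).indicator F) = fun _ => 0
            from funext fun x => Set.indicator_of_notMem x.2 F]
          exact measurable_const)),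
        (ae_iff.2 h1).mono fun y hy => (Set.indicator_of_mem hy F).symm⟩
    exact integral_map hf.aemeasurable haesm
  obtain ⟨T', Φ, hT', hTe⟩ := endMap_of_optimal hK hint
    (hμ ▸ hsite Prod.fst measurable_fst) (fun F => hμ ▸ hlaw Prod.fst measurable_fst F) hR
    (fun j => hs _ (hmem j).1) hT
  obtain ⟨S', Ψ, hS', hSe⟩ := endMap_of_optimal hK hint
    (hν ▸ hsite Prod.snd measurable_snd) (fun F => hν ▸ hlaw Prod.snd measurable_snd F) hR
    (fun j => hs _ (hmem j).2) hS
  have hest' := hest P π (fun j => j.1.1) (fun j => j.1.2) T' S' Φ Ψ hπ hsum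
    (fun j => hs _ (hmem j).1) (fun j => hs _ (hmem j).2) hTe hSe h hh hh1
  rw [← hint' fun z => ‖z.2 - z.1‖ ^ 2] at hest'
  set c := ∫ z, ‖z.2 - z.1‖ ^ 2 ∂π₀
  have he : ∫ x, ‖T x - S x‖ ^ 2 ∂(uniformOn K) = V⁻¹ * ∫ x in K, ∑ i, (S' x i - T' x i) ^ 2 := by
    rw [← integral_uniformOn]
    refine integral_congr_ae ?_
    filter_upwards [hT', hS'] with x h1 h2
    rw [h1, h2, EuclideanSpace.norm_sq_eq]
    refine Finset.sum_congr rfl fun i _ => ?_
    rw [Real.norm_eq_abs, sq_abs, PiLp.sub_apply]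
    ring
  have hsi : ∀ i, IntegrableOn (fun x => (S' x i - T' x i) ^ 2) K := fun i => by
    refine integrableOn_of_bdd hK ?_ (M := (2 * R) ^ 2) fun x _ => ?_
    · exact (((measurable_pi_apply i).comp ((PiLp.continuous_ofLp 2 _).measurable.comp hSe.meas)).sub
        ((measurable_pi_apply i).comp ((PiLp.continuous_ofLp 2 _).measurable.comp hTe.meas))).pow_const 2
    · rw [abs_of_nonneg (sq_nonneg _), ← sq_abs]
      gcongr
      linarith [abs_sub (S' x i) (T' x i), abs_coord_le (hSe.bdd x) i, abs_coord_le (hTe.bdd x) i]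
  rw [he, integral_finsetSum _ fun i _ => hsi i]
  calc V⁻¹ * ∑ i, ∫ x in K, (S' x i - T' x i) ^ 2 ≤ V⁻¹ * ∑ _i : Fin d, C * (V * c / h ^ 2 + h) := by
        gcongr with i
        exact hest' i
    _ = _ := by simp; field_simp

lemma limit_step {N a : ℝ} {e₁ e₂ : ℕ → ℝ} {B C : ℝ}
    (h : ∀ n : ℕ, N ≤ a + B / ((n:ℝ) + 1) + 3 * (e₁ n + e₂ n))
    (h1 : ∀ n : ℕ, e₁ n ^ 4 ≤ C / ((n:ℝ) + 1)) (h2 : ∀ n : ℕ, e₂ n ^ 4 ≤ C / ((n:ℝ) + 1)) :
    N ≤ a := by
  by_contra hN
  push Not at hN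
  set ε := (N - a) / 9 with hε
  have hεpos : 0 < ε := by rw [hε]; linarith
  have hB : ∀ D : ℝ, Tendsto (fun n : ℕ => D / ((n:ℝ) + 1)) atTop (𝓝 0) := fun D => by
    simpa [div_eq_mul_inv] using (tendsto_one_div_add_atTop_nhds_zero_nat.const_mul D)
  obtain ⟨n, hn1, hn2⟩ := (((hB B).eventually (eventually_lt_nhds hεpos)).and
    ((hB C).eventually (eventually_lt_nhds (pow_pos hεpos 4)))).exists
  have f : ∀ x : ℝ, x ^ 4 ≤ C / ((n:ℝ) + 1) → x < ε := fun x hx => by
    by_contra hx'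
    push Not at hx'
    linarith [pow_le_pow_left₀ hεpos.le hx' 4]
  linarith [h n, f _ (h1 n), f _ (h2 n)]

/-- The estimate for arbitrary targets: `‖T - S‖² ≤ C (c / h² + h)`. -/
theorem general_estimate {K Y : Set (Space d)} (hK : IsCompact K) (hc : Convex ℝ K)
    (hint : (interior K).Nonempty) (hY : IsCompact Y) (hne : Y.Nonempty) :
    ∃ C : ℝ, 0 ≤ C ∧ ∀ (μ ν : Measure (Space d)), IsProbabilityMeasure μ → IsProbabilityMeasure ν →
      μ Yᶜ = 0 → ν Yᶜ = 0 → ∀ T S : Space d → Space d,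
        IsOTMap (uniformOn K) μ T → IsOTMap (uniformOn K) ν S →
          ∀ π : Measure (Space d × Space d), π.map Prod.fst = μ → π.map Prod.snd = ν →
            ∀ h : ℝ, 0 < h → h ≤ 1 →
              ∫ x, ‖T x - S x‖ ^ 2 ∂(uniformOn K) ≤
                C * ((∫ z, ‖z.1 - z.2‖ ^ 2 ∂π) / h ^ 2 + h) := by
  obtain ⟨hprob, hρ, hac⟩ := uniformOn_props hK hint
  obtain ⟨R₀, hR₀⟩ := bound_on_compact hY
  set R : ℝ := (R₀:ℝ) + 1 with hRdef
  have hR : 0 < R := by positivity
  obtain ⟨C₁, hC₁, hest⟩ := atomic_estimate hK hc hint hR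
  obtain ⟨C₄, hC₄⟩ := key_estimate hK hint hY hne
  set V := volume.real K
  have hV : 0 ≤ V := measureReal_nonneg
  set D := 3 * ((d:ℝ) * C₁ * (2 + V⁻¹)) with hD
  refine ⟨D, by positivity, ?_⟩
  intro μ ν hμp hνp hμ hν T S hT hS π hπ1 hπ2 h hh hh1
  haveI : IsProbabilityMeasure π := by
    constructor
    have h := congrArg (fun m => m Set.univ) hπ1
    simpa [Measure.map_apply measurable_fst MeasurableSet.univ] using h
  have hπY : ∀ᵐ p ∂π, p.1 ∈ Y ∧ p.2 ∈ Y :=
    (ae_mem_map hY hμ measurable_fst hπ1).and (ae_mem_map hY hν measurable_snd hπ2)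
  set c := ∫ z, ‖z.1 - z.2‖ ^ 2 ∂π
  choose s r hsY hr hrs hrd using fun n : ℕ =>
    exists_net hY hne (δ := 1 / ((n:ℝ) + 1)) (by positivity)
  have hmapY : ∀ (n : ℕ) (m : Measure (Space d)), (m.map (r n)) Yᶜ = 0 := fun n m => by
    rw [Measure.map_apply (hr n) hY.measurableSet.compl]
    convert measure_empty (μ := m)
    ext y
    simpa using hsY n (hrs n y)
  have hopt : ∀ (n : ℕ) (m : Measure (Space d)), IsProbabilityMeasure m →
      ∃ U, IsOTMap (uniformOn K) (m.map (r n)) U := by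
    intro n m hm
    obtain ⟨L, hL⟩ := bound_on_compact hK
    haveI := hm
    haveI := Measure.isProbabilityMeasure_map (μ := m) (hr n).aemeasurable
    obtain ⟨_, G, -, hG, -⟩ := optimal_maps hK (hint.mono interior_subset) hY hne hρ (hmapY n m) hac hL
    exact ⟨G, hG⟩
  choose Tn hTn using fun n => hopt n μ hμp
  choose Sn hSn using fun n => hopt n ν hνp
  have hsq : ∀ n : ℕ, (1 / ((n:ℝ) + 1)) ^ 2 ≤ 1 / ((n:ℝ) + 1) := fun n => by
    refine pow_le_of_le_one (by positivity) ?_ two_ne_zero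
    rw [div_le_one (by positivity)]
    linarith [n.cast_nonneg (α := ℝ)]
  have hclose : ∀ (m : Measure (Space d)), IsProbabilityMeasure m → m Yᶜ = 0 →
      ∀ U : Space d → Space d, IsOTMap (uniformOn K) m U → ∀ (n : ℕ) (Un : Space d → Space d),
        IsOTMap (uniformOn K) (m.map (r n)) Un →
          (∫ x, ‖U x - Un x‖ ^ 2 ∂(uniformOn K)) ^ 4 ≤ (C₄:ℝ) / ((n:ℝ) + 1) := by
    intro m hm hmY U hU n Un hUn
    haveI := hm
    haveI := Measure.isProbabilityMeasure_map (μ := m) (hr n).aemeasurable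
    have hpair : Measurable fun y : Space d => (y, r n y) := measurable_id.prodMk (hr n)
    have h4 := hC₄ m (m.map (r n)) inferInstance inferInstance hmY (hmapY n m) U Un hU hUn
      (m.map fun y => (y, r n y))
      (by rw [Measure.map_map measurable_fst hpair]; exact Measure.map_id)
      (by rw [Measure.map_map measurable_snd hpair]; rfl)
    obtain ⟨hi, he⟩ := lintegral_dist_eq hY hU.1 hUn.1 (ae_mem_of_map hY hmY hU.1 hU.2.1)
      (ae_mem_of_map hY (hmapY n m) hUn.1 hUn.2.1)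
    rw [he, lintegral_map (by fun_prop) hpair] at h4
    have hb : ∫⁻ y, ENNReal.ofReal (‖(y, r n y).1 - (y, r n y).2‖ ^ 2) ∂m ≤
        ENNReal.ofReal (1 / ((n:ℝ) + 1)) := by
      calc _ ≤ ∫⁻ _y, ENNReal.ofReal (1 / ((n:ℝ) + 1)) ∂m := by
            refine lintegral_mono_ae ((ae_iff.2 hmY).mono fun y hy => ENNReal.ofReal_le_ofReal ?_)
            exact (pow_le_pow_left₀ (norm_nonneg _) (hrd n y hy) 2).trans (hsq n)
        _ = _ := by simp
    have h5 := h4.trans (mul_le_mul_of_nonneg_left hb zero_le')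
    rw [← ENNReal.ofReal_pow (integral_nonneg fun x => sq_nonneg _), ← ENNReal.ofReal_coe_nnreal,
      ← ENNReal.ofReal_mul NNReal.zero_le_coe, ENNReal.ofReal_le_ofReal_iff (by positivity)] at h5
    exact h5.trans_eq (mul_one_div _ _)
  have hbound : ∀ n : ℕ, ∫ x, ‖T x - S x‖ ^ 2 ∂(uniformOn K) ≤ D * (c / h ^ 2 + h) +
      (3 * ((d:ℝ) * C₁ * (8 / h ^ 2))) / ((n:ℝ) + 1) +
      3 * ((∫ x, ‖T x - Tn n x‖ ^ 2 ∂(uniformOn K)) + ∫ x, ‖S x - Sn n x‖ ^ 2 ∂(uniformOn K)) := by
    intro n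
    set δ := 1 / ((n:ℝ) + 1) with hδ
    let rr : Space d × Space d → Space d × Space d := fun z => (r n z.1, r n z.2)
    have hrr : Measurable rr := ((hr n).comp measurable_fst).prodMk ((hr n).comp measurable_snd)
    haveI := Measure.isProbabilityMeasure_map (μ := π) hrr.aemeasurable
    haveI := Measure.isProbabilityMeasure_map (μ := μ) (hr n).aemeasurable
    haveI := Measure.isProbabilityMeasure_map (μ := ν) (hr n).aemeasurable
    have hsupp : (π.map rr) ((↑(s n ×ˢ s n) : Set (Space d × Space d)))ᶜ = 0 := by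
      rw [Measure.map_apply hrr (Finset.measurableSet _).compl]
      convert measure_empty (μ := π)
      ext z
      simp [rr, hrs n]
    have hm := rounded_estimate hK hint hR hC₁ hest (s n)
      (fun z hz => (hR₀ z (hsY n hz)).trans (by linarith)) hsupp
      (μ := μ.map (r n)) (ν := ν.map (r n))
      (by rw [Measure.map_map measurable_fst hrr, ← hπ1, Measure.map_map (hr n) measurable_fst]; rfl)
      (by rw [Measure.map_map measurable_snd hrr, ← hπ2, Measure.map_map (hr n) measurable_snd]; rfl)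
      (hTn n) (hSn n) hh hh1
    obtain ⟨hci, -⟩ := lintegral_dist_eq hY (T := fun z : Space d × Space d => z.1)
      (S := fun z => z.2) measurable_fst measurable_snd (hπY.mono fun z hz => hz.1)
      (hπY.mono fun z hz => hz.2)
    have hcost : ∫ z, ‖z.2 - z.1‖ ^ 2 ∂(π.map rr) ≤ 2 * c + 8 * δ := by
      rw [integral_map hrr.aemeasurable (by fun_prop)]
      calc ∫ z, ‖(rr z).2 - (rr z).1‖ ^ 2 ∂π ≤ ∫ z, (2 * ‖z.1 - z.2‖ ^ 2 + 8 * δ) ∂π := by
            refine integral_mono_ae ?_ ((hci.const_mul 2).add (integrable_const _)) ?_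
            · exact (lintegral_dist_eq hY (T := fun z => (rr z).2) (S := fun z => (rr z).1)
                ((hr n).comp measurable_snd) ((hr n).comp measurable_fst)
                (Eventually.of_forall fun z => hsY n (hrs n _))
                (Eventually.of_forall fun z => hsY n (hrs n _))).1
            · filter_upwards [hπY] with z hz
              have h1 := hrd n _ hz.1
              have h2 := hrd n _ hz.2
              have h3 : ‖(rr z).2 - (rr z).1‖ ≤ ‖z.1 - z.2‖ + 2 * δ := by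
                have e : (rr z).2 - (rr z).1 = (z.2 - z.1) + ((z.1 - r n z.1) - (z.2 - r n z.2)) := by
                  simp only [rr]; abel
                rw [e]
                refine (norm_add_le _ _).trans ?_
                rw [norm_sub_rev z.2 z.1]
                linarith [norm_sub_le (z.1 - r n z.1) (z.2 - r n z.2)]
              have h4 := pow_le_pow_left₀ (norm_nonneg _) h3 2
              nlinarith [sq_nonneg (‖z.1 - z.2‖ - 2 * δ), hsq n]
        _ = _ := by
            rw [integral_add (hci.const_mul 2) (integrable_const _), integral_const_mul]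
            simp [c]
    have hTY := ae_mem_of_map hY hμ hT.1 hT.2.1
    have hSY := ae_mem_of_map hY hν hS.1 hS.2.1
    have hTnY := ae_mem_of_map hY (hmapY n μ) (hTn n).1 (hTn n).2.1
    have hSnY := ae_mem_of_map hY (hmapY n ν) (hSn n).1 (hSn n).2.1
    have i1 := (lintegral_dist_eq hY hT.1 (hTn n).1 hTY hTnY).1
    have i2 := (lintegral_dist_eq hY (hTn n).1 (hSn n).1 hTnY hSnY).1
    have i3 := (lintegral_dist_eq hY hS.1 (hSn n).1 hSY hSnY).1
    have htri : ∫ x, ‖T x - S x‖ ^ 2 ∂(uniformOn K) ≤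
        3 * ((∫ x, ‖T x - Tn n x‖ ^ 2 ∂(uniformOn K)) +
          (∫ x, ‖Tn n x - Sn n x‖ ^ 2 ∂(uniformOn K)) + ∫ x, ‖S x - Sn n x‖ ^ 2 ∂(uniformOn K)) := by
      have i12 : Integrable (fun x => ‖T x - Tn n x‖ ^ 2 + ‖Tn n x - Sn n x‖ ^ 2) (uniformOn K) :=
        i1.add i2
      rw [← integral_add i1 i2, ← integral_add i12 i3, ← integral_const_mul]
      refine integral_mono (lintegral_dist_eq hY hT.1 hS.1 hTY hSY).1 ((i12.add i3).const_mul 3) fun x => ?_
      have := norm_sq_triangle (T x) (Tn n x) (Sn n x) (S x)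
      rwa [norm_sub_rev (Sn n x) (S x)] at this
    have hc0 : 0 ≤ c := integral_nonneg fun z => sq_nonneg _
    have hδ0 : 0 ≤ δ := by positivity
    have hVi : 0 ≤ V⁻¹ := inv_nonneg.2 hV
    have hmid : ∫ x, ‖Tn n x - Sn n x‖ ^ 2 ∂(uniformOn K) ≤
        (d:ℝ) * C₁ * ((2 + V⁻¹) * (c / h ^ 2 + h) + 8 / h ^ 2 * δ) := by
      refine hm.trans (mul_le_mul_of_nonneg_left ?_ (by positivity))
      have h1 : (∫ z, ‖z.2 - z.1‖ ^ 2 ∂(π.map rr)) / h ^ 2 ≤ (2 * c + 8 * δ) / h ^ 2 := by gcongr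
      have h2 : 0 ≤ c / h ^ 2 := by positivity
      have h3 : h / V = V⁻¹ * h := by ring
      rw [show (2 * c + 8 * δ) / h ^ 2 = 2 * (c / h ^ 2) + 8 / h ^ 2 * δ by ring] at h1
      rw [h3]
      nlinarith [mul_nonneg hVi h2]
    refine htri.trans ?_
    simp only [hD]
    have hne1 : (3 * ((d:ℝ) * C₁ * (8 / h ^ 2))) / ((n:ℝ) + 1) =
        3 * ((d:ℝ) * C₁ * (8 / h ^ 2 * δ)) := by rw [hδ]; ring
    rw [hne1]
    nlinarith [hmid]
  exact limit_step hbound (fun n => hclose μ hμp hμ T hT n _ (hTn n))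
    (fun n => hclose ν hνp hν S hS n _ (hSn n))

/-- Every exponent in `(0, 1/3]` is admissible. -/
theorem admissible_third {α : ℝ} (hα0 : 0 < α) (hα : α ≤ 1 / 3) : Admissible d α := by
  intro K hK hc hint Y hY hne
  obtain ⟨hprob, hρ, -⟩ := uniformOn_props hK hint
  obtain ⟨C, hC0, hC⟩ := general_estimate hK hc hint hY hne
  obtain ⟨R, hR⟩ := bound_on_compact hY
  let C' : ℝ≥0 := ((2 * C + 4 * (R:ℝ) ^ 2) ^ 3).toNNReal
  let D : ℝ≥0 := ((4 * R ^ 2 : ℝ≥0) : ℝ≥0) ^ (1 / 6 - α / 2 : ℝ)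
  refine ⟨C' ^ (1 / 6 : ℝ) * D, fun μ ν hμp hνp hμ hν T S hT hS => ?_⟩
  set m := ⨅ (π : Measure (Space d × Space d)) (_ : π.map Prod.fst = μ) (_ : π.map Prod.snd = ν),
    ∫⁻ p, ENNReal.ofReal (‖p.1 - p.2‖ ^ 2) ∂π with hm
  set N := ∫⁻ x, ENNReal.ofReal (‖T x - S x‖ ^ 2) ∂(uniformOn K) with hN
  have hTY := ae_mem_of_map hY hμ hT.1 hT.2.1
  have hSY := ae_mem_of_map hY hν hS.1 hS.2.1
  obtain ⟨hNi, hNe⟩ := lintegral_dist_eq hY hT.1 hS.1 hTY hSY
  have hpair : ∀ π : Measure (Space d × Space d), π.map Prod.fst = μ → π.map Prod.snd = ν →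
      N ^ 3 ≤ (C' : ℝ≥0∞) * ∫⁻ p, ENNReal.ofReal (‖p.1 - p.2‖ ^ 2) ∂π := by
    intro π h1 h2
    haveI : IsProbabilityMeasure π := by
      constructor
      have h := congrArg (fun m => m Set.univ) h1
      simpa [Measure.map_apply measurable_fst MeasurableSet.univ] using h
    obtain ⟨hci, hce⟩ := lintegral_dist_eq hY (T := fun z : Space d × Space d => z.1)
      (S := fun z => z.2) measurable_fst measurable_snd (ae_mem_map hY hμ measurable_fst h1)
      (ae_mem_map hY hν measurable_snd h2)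
    rw [hN, hNe, hce, ← ENNReal.ofReal_pow (integral_nonneg fun x => sq_nonneg _),
      ← ENNReal.ofReal_coe_nnreal, ← ENNReal.ofReal_mul NNReal.zero_le_coe]
    refine ENNReal.ofReal_le_ofReal ?_
    simp only [C', Real.coe_toNNReal _ (show 0 ≤ (2 * C + 4 * (R:ℝ) ^ 2) ^ 3 by positivity)]
    set c := ∫ z, ‖z.1 - z.2‖ ^ 2 ∂π
    have hc0 : 0 ≤ c := integral_nonneg fun z => sq_nonneg _
    set n := ∫ x, ‖T x - S x‖ ^ 2 ∂(uniformOn K)
    have hn0 : 0 ≤ n := integral_nonneg fun x => sq_nonneg _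
    have key := hC μ ν hμp hνp hμ hν T S hT hS π h1 h2
    rcases le_or_gt 1 c with hc1 | hc1
    · have hnb : n ≤ 4 * (R:ℝ) ^ 2 := by
        calc n ≤ ∫ _x, 4 * (R:ℝ) ^ 2 ∂(uniformOn K) := by
              refine integral_mono_ae hNi (integrable_const _) ?_
              filter_upwards [hTY, hSY] with x hx hy
              nlinarith [norm_sub_le (T x) (S x), hR _ hx, hR _ hy, norm_nonneg (T x - S x)]
          _ = _ := by simp
      calc n ^ 3 ≤ (2 * C + 4 * (R:ℝ) ^ 2) ^ 3 := by gcongr; linarith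
        _ ≤ _ := le_mul_of_one_le_right (by positivity) hc1
    rcases eq_or_lt_of_le hc0 with hcz | hcp
    · have hle : n ≤ 0 := by
        refine ge_of_tendsto (x := atTop) (f := fun k : ℕ => C * (1 / ((k:ℝ) + 1))) ?_
          (Eventually.of_forall fun k => ?_)
        · simpa using tendsto_one_div_add_atTop_nhds_zero_nat.const_mul C
        · refine (key (1 / ((k:ℝ) + 1)) (by positivity) ?_).trans_eq ?_
          · rw [div_le_one (by positivity)]; linarith [k.cast_nonneg (α := ℝ)]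
          · change C * (c / _ + _) = _
            rw [← hcz]; simp
      rw [← hcz, le_antisymm hle hn0]
      simp
    · set h := c ^ (1 / 3 : ℝ)
      have hh : 0 < h := Real.rpow_pos_of_pos hcp _
      have hh1 : h ≤ 1 := Real.rpow_le_one hc0 hc1.le (by norm_num)
      have hh3 : h ^ 3 = c := by
        rw [← Real.rpow_natCast, ← Real.rpow_mul hc0]; norm_num
      have hn : n ≤ 2 * C * h := by
        refine (key h hh hh1).trans_eq ?_
        change C * (c / h ^ 2 + h) = _
        rw [← hh3]; field_simp; ring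
      calc n ^ 3 ≤ ((2 * C + 4 * (R:ℝ) ^ 2) * h) ^ 3 := by
            gcongr
            exact hn.trans (by gcongr; nlinarith)
        _ = _ := by rw [mul_pow, hh3]
  have hNm : N ^ 3 ≤ (C' : ℝ≥0∞) * m := by
    rcases eq_or_ne (C' : ℝ≥0∞) 0 with h0 | h0
    · have h := hpair (μ.prod ν) (prod_marginals μ ν).1 (prod_marginals μ ν).2
      rw [h0, zero_mul] at h
      rw [h0, zero_mul]
      exact h
    · simp only [hm, ENNReal.mul_iInf_of_ne h0 ENNReal.coe_ne_top]
      exact le_iInf fun π => le_iInf fun h1 => le_iInf fun h2 => hpair π h1 h2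
  have hmb : m ≤ ((4 * R ^ 2 : ℝ≥0) : ℝ≥0∞) := by
    refine (iInf_le_of_le (μ.prod ν) <| iInf_le_of_le (prod_marginals μ ν).1 <|
      iInf_le_of_le (prod_marginals μ ν).2 le_rfl).trans ?_
    calc ∫⁻ p, ENNReal.ofReal (‖p.1 - p.2‖ ^ 2) ∂(μ.prod ν)
        ≤ ∫⁻ _p, ((4 * R ^ 2 : ℝ≥0) : ℝ≥0∞) ∂(μ.prod ν) := by
          refine lintegral_mono_ae ?_
          filter_upwards [ae_mem_map hY hμ measurable_fst (prod_marginals μ ν).1,
            ae_mem_map hY hν measurable_snd (prod_marginals μ ν).2] with p h1 h2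
          rw [← ENNReal.ofReal_coe_nnreal]
          refine ENNReal.ofReal_le_ofReal ?_
          have h := norm_sub_le p.1 p.2
          push_cast
          nlinarith [hR _ h1, hR _ h2, norm_nonneg (p.1 - p.2)]
      _ = _ := by simp
  have hW : W2 μ ν ^ α = m ^ (α / 2) := by
    rw [W2, ← hm, ← ENNReal.rpow_mul]; ring_nf
  calc mapDist (uniformOn K) T S = (N ^ 3) ^ (1 / 6 : ℝ) := by
        rw [mapDist, ← hN, ← ENNReal.rpow_natCast, ← ENNReal.rpow_mul]; norm_num
    _ ≤ ((C' : ℝ≥0∞) * m) ^ (1 / 6 : ℝ) := by gcongr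
    _ = (C' : ℝ≥0∞) ^ (1 / 6 : ℝ) * (m ^ (1 / 6 - α / 2 : ℝ) * m ^ (α / 2)) := by
        rw [ENNReal.mul_rpow_of_nonneg _ _ (by norm_num),
          ← ENNReal.rpow_add_of_nonneg _ _ (by linarith) (by linarith)]
        ring_nf
    _ ≤ (C' : ℝ≥0∞) ^ (1 / 6 : ℝ) *
          (((4 * R ^ 2 : ℝ≥0) : ℝ≥0∞) ^ (1 / 6 - α / 2 : ℝ) * m ^ (α / 2)) := by
        gcongr
        linarith
    _ = _ := by
        rw [hW, ← ENNReal.coe_rpow_of_nonneg C' (by norm_num : (0:ℝ) ≤ 1 / 6)]
        simp only [D]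
        simp only [ENNReal.coe_mul]
        rw [ENNReal.coe_rpow_of_nonneg _ (by linarith : (0:ℝ) ≤ 1 / 6 - α / 2)]
        push_cast
        ring

end Vale.Agent.P074
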