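import Vale.Agent.P074.Maps

/-!
The exponent `1/4` is admissible: `‖T - S‖₁² ≤ C W₁` by comparing with shifted points.
-/

open MeasureTheory Filter Topology
open scoped ENNReal NNReal RealInnerProductSpace

namespace Vale.Agent.P074

variable {d : ℕ}

/-- The second difference of a function. -/
def secondDiff (φ : Space d → ℝ) (v x : Space d) : ℝ := φ (x + v) + φ (x - v) - 2 * φ x

lemma secondDiff_nonneg {Y : Set (Space d)} (hY : IsCompact Y) (hne : Y.Nonempty)
    {Φ : Space d → ℝ} (hΦ : ContinuousOn Φ Y) (v x : Space d) :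
    0 ≤ secondDiff (conj Y Φ) v x := by
  obtain ⟨y, hy, hxy⟩ := exists_max hY hne hΦ x
  have h1 := le_conj hY hΦ (x + v) hy
  have h2 := le_conj hY hΦ (x - v) hy
  rw [inner_add_left] at h1
  rw [inner_sub_left] at h2
  unfold secondDiff
  linarith

/-- The integral over a compact set of the second difference of a Lipschitz convex function. -/
lemma secondDiff_bound {K : Set (Space d)} (hK : IsCompact K) {R : ℝ≥0} :
    ∃ C : ℝ, 0 ≤ C ∧ ∀ φ : Space d → ℝ, LipschitzWith R φ → ∀ v : Space d, ‖v‖ ≤ 1 →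
      (∀ x, 0 ≤ secondDiff φ v x) → ∫ x in K, secondDiff φ v x ≤ C * ‖v‖ ^ 2 := by
  obtain ⟨M, hM⟩ := hK.isBounded.exists_norm_le
  let χ : Space d → ℝ := fun x => max 0 (min 1 (M + 1 - ‖x‖))
  have hχc : Continuous χ :=
    continuous_const.max (continuous_const.min (continuous_const.sub continuous_norm))
  have hχ1 : ∀ x ∈ K, χ x = 1 := fun x hx => by
    have := hM x hx
    simp only [χ]
    rw [min_eq_left (by linarith), max_eq_right zero_le_one]
  have hχ0 : ∀ x, 0 ≤ χ x := fun x => le_max_left _ _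
  have hχout : ∀ x : Space d, M + 1 < ‖x‖ → χ x = 0 := fun x hx => by
    simp only [χ]
    rw [max_eq_left]
    exact (min_le_right _ _).trans (by linarith)
  have hχlip : ∀ x z, |χ x - χ z| ≤ ‖x - z‖ := by
    intro x z
    have hn := abs_norm_sub_norm_le x z
    simp only [χ]
    calc |max 0 (min 1 (M + 1 - ‖x‖)) - max 0 (min 1 (M + 1 - ‖z‖))|
        ≤ |min 1 (M + 1 - ‖x‖) - min 1 (M + 1 - ‖z‖)| := by
          simpa using abs_max_sub_max_le_max 0 (min 1 (M + 1 - ‖x‖)) 0 (min 1 (M + 1 - ‖z‖))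
      _ ≤ |(M + 1 - ‖x‖) - (M + 1 - ‖z‖)| := by
          simpa using abs_min_sub_min_le_max 1 (M + 1 - ‖x‖) 1 (M + 1 - ‖z‖)
      _ ≤ ‖x - z‖ := by
          rw [show (M + 1 - ‖x‖) - (M + 1 - ‖z‖) = -(‖x‖ - ‖z‖) by ring, abs_neg]
          exact hn
  let B : Set (Space d) := Metric.closedBall 0 (M + 2)
  have hBc : IsCompact B := isCompact_closedBall _ _
  refine ⟨R * volume.real B, by positivity, fun φ hφ v hv hpos => ?_⟩
  have hφc := hφ.continuous
  have hcs : HasCompactSupport χ := HasCompactSupport.intro hBc fun x hx => hχout x (by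
    simp only [B, Metric.mem_closedBall, dist_zero_right, not_le] at hx
    linarith)
  let f : Space d → ℝ := fun x => φ (x + v) - φ x
  have hfc : Continuous f := (hφc.comp (continuous_id.add continuous_const)).sub hφc
  have hfb : ∀ x, |f x| ≤ R * ‖v‖ := fun x => by
    have := hφ.dist_le_mul (x + v) x
    rwa [Real.dist_eq, dist_eq_norm, add_sub_cancel_left] at this
  have hint : ∀ g : Space d → ℝ, Continuous g → Integrable (fun x => χ x * g x) volume :=
    fun g hg => (hχc.mul hg).integrable_of_hasCompactSupport hcs.mul_right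
  have hsd : Continuous (secondDiff φ v) :=
    ((hφc.comp (continuous_id.add continuous_const)).add
      (hφc.comp (continuous_id.sub continuous_const))).sub (continuous_const.mul hφc)
  have h1 : ∫ x in K, secondDiff φ v x ≤ ∫ x, χ x * secondDiff φ v x := by
    calc ∫ x in K, secondDiff φ v x = ∫ x in K, χ x * secondDiff φ v x :=
          setIntegral_congr_fun hK.measurableSet fun x hx => by simp [hχ1 x hx]
      _ ≤ _ := setIntegral_le_integral (hint _ hsd)
          (Eventually.of_forall fun x => mul_nonneg (hχ0 x) (hpos x))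
  have h2 : ∫ x, χ x * secondDiff φ v x = ∫ x, (χ x - χ (x + v)) * f x := by
    have hg : Continuous fun x => f (x - v) := hfc.comp (continuous_id.sub continuous_const)
    have hshift : ∫ x, χ (x + v) * f x = ∫ x, χ x * f (x - v) := by
      rw [← integral_add_right_eq_self (fun x => χ x * f (x - v)) v]
      simp
    have hintshift : Integrable (fun x => χ (x + v) * f x) volume := by
      have := (hint _ hg).comp_add_right v
      simpa using this
    calc ∫ x, χ x * secondDiff φ v x = ∫ x, (χ x * f x - χ x * f (x - v)) := by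
          refine integral_congr_ae (Eventually.of_forall fun x => ?_)
          simp only [f, secondDiff, sub_add_cancel]
          ring
      _ = (∫ x, χ x * f x) - ∫ x, χ x * f (x - v) := integral_sub (hint _ hfc) (hint _ hg)
      _ = (∫ x, χ x * f x) - ∫ x, χ (x + v) * f x := by rw [hshift]
      _ = _ := by
          rw [← integral_sub (hint _ hfc) hintshift]
          exact integral_congr_ae (Eventually.of_forall fun x => by ring)
  have h3 : ∫ x, (χ x - χ (x + v)) * f x ≤ R * volume.real B * ‖v‖ ^ 2 := by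
    calc ∫ x, (χ x - χ (x + v)) * f x ≤ ∫ x, B.indicator (fun _ => R * ‖v‖ ^ 2) x := by
          refine integral_mono_of_nonneg ?_ ?_ ?_ |> fun h => le_trans
            (le_of_abs_le ((abs_integral_le_integral_abs).trans le_rfl)) h
          · exact Eventually.of_forall fun x => abs_nonneg _
          · exact (integrable_indicator_iff hBc.measurableSet).2
              (integrableOn_const hBc.measure_lt_top.ne)
          · refine Eventually.of_forall fun x => ?_
            by_cases hx : x ∈ B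
            · rw [Set.indicator_of_mem hx]
              dsimp only
              rw [abs_mul]
              calc |χ x - χ (x + v)| * |f x| ≤ ‖v‖ * (R * ‖v‖) := by
                    gcongr
                    · simpa using hχlip x (x + v)
                    · exact hfb x
                _ = R * ‖v‖ ^ 2 := by ring
            · rw [Set.indicator_of_notMem hx]
              simp only [B, Metric.mem_closedBall, dist_zero_right, not_le] at hx
              have h4 : ‖x‖ ≤ ‖x + v‖ + ‖v‖ := by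
                simpa using norm_sub_le (x + v) v
              simp [hχout x (by linarith), hχout (x + v) (by linarith)]
      _ = _ := by
          rw [integral_indicator hBc.measurableSet, setIntegral_const, smul_eq_mul]
          ring
  linarith

lemma ae_mem_map {Ω : Type*} [MeasurableSpace Ω] {π : Measure Ω} {μ : Measure (Space d)}
    {Y : Set (Space d)} (hY : IsCompact Y) (hμ : μ Yᶜ = 0) {f : Ω → Space d}
    (hf : Measurable f) (hmap : π.map f = μ) : ∀ᵐ p ∂π, f p ∈ Y := by
  rw [← hmap, Measure.map_apply hf hY.measurableSet.compl] at hμ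
  exact ae_iff.2 hμ

lemma prod_marginals (μ ν : Measure (Space d)) [IsProbabilityMeasure μ] [IsProbabilityMeasure ν] :
    (μ.prod ν).map Prod.fst = μ ∧ (μ.prod ν).map Prod.snd = ν := by
  simp [Measure.map_fst_prod, Measure.map_snd_prod]

lemma integral_uniformOn {K : Set (Space d)} (f : Space d → ℝ) :
    ∫ x, f x ∂(uniformOn K) = (volume.real K)⁻¹ * ∫ x in K, f x := by
  simp [uniformOn, integral_smul_measure, Measure.real]

/-- The main estimate, in integrals. -/
theorem key_estimate {K Y : Set (Space d)} (hK : IsCompact K) (hint : (interior K).Nonempty)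
    (hY : IsCompact Y) (hne : Y.Nonempty) :
    ∃ C : ℝ≥0, ∀ (μ ν : Measure (Space d)), IsProbabilityMeasure μ → IsProbabilityMeasure ν →
      μ Yᶜ = 0 → ν Yᶜ = 0 → ∀ T S : Space d → Space d,
        IsOTMap (uniformOn K) μ T → IsOTMap (uniformOn K) ν S →
          ∀ π : Measure (Space d × Space d), π.map Prod.fst = μ → π.map Prod.snd = ν →
            (∫⁻ x, ENNReal.ofReal (‖T x - S x‖ ^ 2) ∂(uniformOn K)) ^ 4 ≤
              (C : ℝ≥0∞) * ∫⁻ p, ENNReal.ofReal (‖p.1 - p.2‖ ^ 2) ∂π := by
  obtain ⟨hprob, hρ, hac⟩ := uniformOn_props hK hint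
  have hKne : K.Nonempty := hint.mono interior_subset
  obtain ⟨L, hL⟩ := bound_on_compact hK
  obtain ⟨R, hR⟩ := bound_on_compact hY
  obtain ⟨C₀, hC₀, hsd⟩ := secondDiff_bound hK (R := R)
  set c₁ : ℝ := (volume.real K)⁻¹ * C₀ + R + 1 with hc₁
  have hC₀' : (volume.real K)⁻¹ * C₀ ≤ c₁ := by
    have := R.coe_nonneg; linarith
  have hc₁pos : 0 < c₁ := by positivity
  refine ⟨(4 * (2 * (R:ℝ) * d) ^ 4 * (4 * c₁) ^ 2 * (L:ℝ) ^ 2).toNNReal, ?_⟩
  intro μ ν hμp hνp hμ hν T S hT hS π hπ1 hπ2
  obtain ⟨Φ, G, hΦL, -, hΦ⟩ := optimal_maps hK hKne hY hne hρ hμ hac hL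
  obtain ⟨Ψ, G', hΨL, -, hΨ⟩ := optimal_maps hK hKne hY hne hρ hν hac hL
  have hTpot := (hΦ T hT).2
  have hSpot := (hΨ S hS).2
  obtain ⟨hTm, hTmap, -⟩ := hT
  obtain ⟨hSm, hSmap, -⟩ := hS
  set ρ := uniformOn K
  haveI : IsProbabilityMeasure π := by
    constructor
    have h := congrArg (fun m => m Set.univ) hπ1
    simpa [Measure.map_apply measurable_fst MeasurableSet.univ] using h
  have hTY := ae_mem_of_map hY hμ hTm hTmap
  have hSY := ae_mem_of_map hY hν hSm hSmap
  have hπY : ∀ᵐ p ∂π, p.1 ∈ Y ∧ p.2 ∈ Y :=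
    (ae_mem_map hY hμ measurable_fst hπ1).and (ae_mem_map hY hν measurable_snd hπ2)
  have hb : ∀ (V W : Space d → Space d), Measurable V → Measurable W →
      (∀ᵐ x ∂ρ, V x ∈ Y) → (∀ᵐ x ∂ρ, W x ∈ Y) →
      ∀ f : Space d × Space d × Space d → ℝ, Continuous f →
        Integrable (fun x => f (x, V x, W x)) ρ := by
    intro V W hV hW hVY hWY f hf
    obtain ⟨M, hM⟩ := ((hK.prod (hY.prod hY)).image hf).isBounded.exists_norm_le
    refine Integrable.of_bound
      (hf.measurable.comp (measurable_id.prodMk (hV.prodMk hW))).aestronglyMeasurable M ?_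
    filter_upwards [ae_iff.2 hρ, hVY, hWY] with x hx hy hz
    exact hM _ ⟨(x, V x, W x), ⟨hx, hy, hz⟩, rfl⟩
  have hφc := continuous_conj hY hne hΦL.continuous.continuousOn
  have hψc := continuous_conj hY hne hΨL.continuous.continuousOn
  let gS : Space d → ℝ := fun x => conj Y Φ x + Φ (S x) - ⟪x, S x⟫
  let gT : Space d → ℝ := fun x => conj Y Ψ x + Ψ (T x) - ⟪x, T x⟫
  have hgSi : Integrable gS ρ := hb T S hTm hSm hTY hSY
    (fun q => conj Y Φ q.1 + Φ q.2.2 - ⟪q.1, q.2.2⟫)
    (((hφc.comp continuous_fst).add (hΦL.continuous.comp (continuous_snd.comp continuous_snd))).sub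
      (continuous_fst.inner (continuous_snd.comp continuous_snd)))
  have hgTi : Integrable gT ρ := hb T S hTm hSm hTY hSY
    (fun q => conj Y Ψ q.1 + Ψ q.2.1 - ⟪q.1, q.2.1⟫)
    (((hψc.comp continuous_fst).add (hΨL.continuous.comp (continuous_fst.comp continuous_snd))).sub
      (continuous_fst.inner (continuous_fst.comp continuous_snd)))
  set D : Space d → ℝ := fun y => Φ y - Ψ y with hD
  have hDc : Continuous D := hΦL.continuous.sub hΨL.continuous
  set I₁ : ℝ := ∫ p, ‖p.1 - p.2‖ ∂π with hI₁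
  have hI₁i : Integrable (fun p : Space d × Space d => ‖p.1 - p.2‖) π := by
    refine Integrable.of_bound (by fun_prop) (2 * (R:ℝ)) (hπY.mono fun p hp => ?_)
    rw [norm_norm]
    linarith [norm_sub_le p.1 p.2, hR _ hp.1, hR _ hp.2]
  have hP : (∫ x, gS x ∂ρ) + ∫ x, gT x ∂ρ ≤ 2 * L * I₁ := by
    have hDT : Integrable (fun x => D (T x)) ρ := hb T S hTm hSm hTY hSY (fun q => D q.2.1)
      (hDc.comp (continuous_fst.comp continuous_snd))
    have hDS : Integrable (fun x => D (S x)) ρ := hb T S hTm hSm hTY hSY (fun q => D q.2.2)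
      (hDc.comp (continuous_snd.comp continuous_snd))
    have h1 : (∫ x, gS x ∂ρ) + ∫ x, gT x ∂ρ = (∫ x, D (S x) ∂ρ) - ∫ x, D (T x) ∂ρ := by
      rw [← integral_add hgSi hgTi, ← integral_sub hDS hDT]
      refine integral_congr_ae ?_
      filter_upwards [hTpot, hSpot] with x hx hx'
      simp only [gS, gT, hD, hx.2, hx'.2]
      ring
    have hDfst : Integrable (fun p : Space d × Space d => D p.1) π := by
      have := integrable_of_continuous hY hμ hDc
      rw [← hπ1] at this
      exact this.comp_measurable measurable_fst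
    have hDsnd : Integrable (fun p : Space d × Space d => D p.2) π := by
      have := integrable_of_continuous hY hν hDc
      rw [← hπ2] at this
      exact this.comp_measurable measurable_snd
    have h2 : (∫ x, D (S x) ∂ρ) - ∫ x, D (T x) ∂ρ = ∫ p, (D p.2 - D p.1) ∂π := by
      rw [integral_sub hDsnd hDfst, ← integral_map hSm.aemeasurable hDc.aestronglyMeasurable,
        ← integral_map hTm.aemeasurable hDc.aestronglyMeasurable, hSmap, hTmap,
        ← integral_map measurable_snd.aemeasurable hDc.aestronglyMeasurable, hπ2,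
        ← integral_map measurable_fst.aemeasurable hDc.aestronglyMeasurable, hπ1]
    have h3 : ∫ p, (D p.2 - D p.1) ∂π ≤ ∫ p, 2 * (L:ℝ) * ‖p.1 - p.2‖ ∂π := by
      refine integral_mono (hDsnd.sub hDfst) (hI₁i.const_mul _) fun p => ?_
      have e1 := hΦL.dist_le_mul p.2 p.1
      have e2 := hΨL.dist_le_mul p.1 p.2
      rw [Real.dist_eq, dist_eq_norm, norm_sub_rev] at e1
      rw [Real.dist_eq, dist_eq_norm] at e2
      simp only [hD]
      linarith [le_abs_self (Φ p.2 - Φ p.1), le_abs_self (Ψ p.1 - Ψ p.2)]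
    rw [integral_const_mul] at h3
    linarith
  have hgT0 : 0 ≤ ∫ x, gT x ∂ρ := by
    refine integral_nonneg_of_ae ?_
    filter_upwards [hTY] with x hx
    have := le_conj hY hΨL.continuous.continuousOn x hx
    simp only [gT, Pi.zero_apply]
    linarith
  have hI₁0 : 0 ≤ I₁ := integral_nonneg fun p => norm_nonneg _
  have hcoord : ∀ i : Fin d, (∫ x, |T x i - S x i| ∂ρ) ^ 2 ≤ 4 * c₁ * (2 * L * I₁) := by
    intro i
    set A := ∫ x, |T x i - S x i| ∂ρ with hA
    have hAi : Integrable (fun x => |T x i - S x i|) ρ :=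
      hb T S hTm hSm hTY hSY (fun q => |q.2.1 i - q.2.2 i|) (by fun_prop)
    have hA0 : 0 ≤ A := integral_nonneg fun x => abs_nonneg _
    have hA2 : A ≤ 2 * R := by
      calc A ≤ ∫ x, 2 * (R:ℝ) ∂ρ := by
            refine integral_mono_ae hAi (integrable_const _) ?_
            filter_upwards [hTY, hSY] with x hx hy
            have h1 : |T x i| ≤ ‖T x‖ := by simpa using PiLp.norm_apply_le (T x) i
            have h2 : |S x i| ≤ ‖S x‖ := by simpa using PiLp.norm_apply_le (S x) i
            linarith [abs_sub (T x i) (S x i), hR _ hx, hR _ hy]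
        _ = 2 * R := by simp
    set h := A / (2 * c₁) with hh
    have hh0 : 0 ≤ h := div_nonneg hA0 (by linarith)
    have hh1 : h ≤ 1 := by
      rw [hh, div_le_one (by linarith)]
      have : (0:ℝ) ≤ (volume.real K)⁻¹ * C₀ := by positivity
      linarith [R.coe_nonneg]
    set v : Space d := EuclideanSpace.single i h with hv
    have hvn : ‖v‖ = h := by simp [hv, abs_of_nonneg hh0]
    have hinner : ∀ y : Space d, ⟪v, y⟫ = h * y i := fun y => by
      rw [hv, EuclideanSpace.inner_single_left]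
      simp
    have hsd0 : ∀ x, 0 ≤ secondDiff (conj Y Φ) v x :=
      secondDiff_nonneg hY hne hΦL.continuous.continuousOn v
    have hb2 := hsd _ (lipschitz_conj hY hne hΦL.continuous.continuousOn hR) v (by linarith) hsd0
    have hsdi : Integrable (secondDiff (conj Y Φ) v) ρ := integrable_of_continuous hK hρ
      (((hφc.comp (continuous_id.add continuous_const)).add
        (hφc.comp (continuous_id.sub continuous_const))).sub (continuous_const.mul hφc))
    have hpt : ∀ᵐ x ∂ρ, h * |T x i - S x i| ≤ gS x + secondDiff (conj Y Φ) v x := by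
      filter_upwards [hTpot, hSY] with x hx hy
      have a1 := le_conj hY hΦL.continuous.continuousOn (x + v) hy
      have a2 := le_conj hY hΦL.continuous.continuousOn (x - v) hy
      have a3 := le_conj hY hΦL.continuous.continuousOn (x + v) hx.1
      have a4 := le_conj hY hΦL.continuous.continuousOn (x - v) hx.1
      simp only [inner_add_left, inner_sub_left, hinner] at a1 a2 a3 a4
      simp only [gS, secondDiff]
      rcases abs_cases (T x i - S x i) with ⟨e, -⟩ | ⟨e, -⟩ <;> rw [e] <;>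
        linarith [hx.2]
    have hmain : h * A ≤ (∫ x, gS x ∂ρ) + ∫ x, secondDiff (conj Y Φ) v x ∂ρ := by
      rw [hA, ← integral_const_mul, ← integral_add hgSi hsdi]
      exact integral_mono_ae (hAi.const_mul _) (hgSi.add hsdi) hpt
    have hsdb : ∫ x, secondDiff (conj Y Φ) v x ∂ρ ≤ c₁ * h ^ 2 := by
      calc ∫ x, secondDiff (conj Y Φ) v x ∂ρ
          = (volume.real K)⁻¹ * ∫ x in K, secondDiff (conj Y Φ) v x := integral_uniformOn _
        _ ≤ (volume.real K)⁻¹ * (C₀ * ‖v‖ ^ 2) := by gcongr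
        _ = ((volume.real K)⁻¹ * C₀) * h ^ 2 := by rw [hvn]; ring
        _ ≤ c₁ * h ^ 2 := by gcongr
    have hAh : A = 2 * c₁ * h := by rw [hh]; field_simp
    rw [hAh] at hmain ⊢
    nlinarith [hmain, hsdb, hP, hgT0, hc₁pos, mul_nonneg hc₁pos.le hh0]
  set N := ∫ x, ‖T x - S x‖ ^ 2 ∂ρ with hN
  have hNi : Integrable (fun x => ‖T x - S x‖ ^ 2) ρ :=
    hb T S hTm hSm hTY hSY (fun q => ‖q.2.1 - q.2.2‖ ^ 2) (by fun_prop)
  have hN0 : 0 ≤ N := integral_nonneg fun x => sq_nonneg _
  have hNb : N ≤ 2 * R * ∑ i : Fin d, ∫ x, |T x i - S x i| ∂ρ := by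
    have hsi : ∀ i : Fin d, Integrable (fun x => |T x i - S x i|) ρ := fun i =>
      hb T S hTm hSm hTY hSY (fun q => |q.2.1 i - q.2.2 i|) (by fun_prop)
    rw [← integral_finset_sum _ fun i _ => hsi i, ← integral_const_mul]
    refine integral_mono_ae hNi ((integrable_finset_sum _ fun i _ => hsi i).const_mul _) ?_
    filter_upwards [hTY, hSY] with x hx hy
    have h1 : ‖T x - S x‖ ≤ 2 * R := by linarith [norm_sub_le (T x) (S x), hR _ hx, hR _ hy]
    have h2 : ‖T x - S x‖ ≤ ∑ i : Fin d, |T x i - S x i| := by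
      calc ‖T x - S x‖ = ‖∑ i : Fin d, EuclideanSpace.single i ((T x - S x) i)‖ := by
            congr 1
            ext j
            simp [Finset.sum_apply, Pi.single_apply]
        _ ≤ ∑ i : Fin d, ‖EuclideanSpace.single i ((T x - S x) i)‖ := norm_sum_le _ _
        _ = _ := by simp
    calc ‖T x - S x‖ ^ 2 = ‖T x - S x‖ * ‖T x - S x‖ := sq _
      _ ≤ _ := mul_le_mul h1 h2 (norm_nonneg _) (by positivity)
  have hN2 : N ^ 2 ≤ (2 * R * d) ^ 2 * (4 * c₁ * (2 * L * I₁)) := by
    have hsum : (∑ i : Fin d, ∫ x, |T x i - S x i| ∂ρ) ^ 2 ≤ (d:ℝ) ^ 2 * (4 * c₁ * (2 * L * I₁)) := by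
      refine (sq_sum_le_card_mul_sum_sq).trans ?_
      calc _ ≤ (Finset.univ : Finset (Fin d)).card * ∑ _i : Fin d, 4 * c₁ * (2 * L * I₁) := by
            gcongr with i; exact hcoord i
        _ = _ := by simp; ring
    calc N ^ 2 ≤ (2 * R * ∑ i : Fin d, ∫ x, |T x i - S x i| ∂ρ) ^ 2 := by gcongr
      _ ≤ _ := by
          rw [mul_pow, mul_pow _ (d:ℝ), mul_assoc]
          gcongr
  set c := ∫ p, ‖p.1 - p.2‖ ^ 2 ∂π with hc
  have hci : Integrable (fun p : Space d × Space d => ‖p.1 - p.2‖ ^ 2) π := by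
    refine Integrable.of_bound (by fun_prop) ((2 * (R:ℝ)) ^ 2) (hπY.mono fun p hp => ?_)
    rw [Real.norm_eq_abs, abs_of_nonneg (sq_nonneg _)]
    gcongr
    linarith [norm_sub_le p.1 p.2, hR _ hp.1, hR _ hp.2]
  have hcs : I₁ ^ 2 ≤ c := by
    have h := integral_nonneg (μ := π) (f := fun p : Space d × Space d => (‖p.1 - p.2‖ - I₁) ^ 2)
      fun p => sq_nonneg _
    have he : ∫ p, (‖p.1 - p.2‖ - I₁) ^ 2 ∂π = c - I₁ ^ 2 := by
      calc _ = ∫ p, (‖p.1 - p.2‖ ^ 2 - (2 * I₁ * ‖p.1 - p.2‖ - I₁ ^ 2)) ∂π :=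
            integral_congr_ae (Eventually.of_forall fun p => by ring)
        _ = _ := by
            rw [integral_sub (g := fun p : Space d × Space d => 2 * I₁ * ‖p.1 - p.2‖ - I₁ ^ 2) hci
                ((hI₁i.const_mul _).sub (integrable_const _)),
              integral_sub (hI₁i.const_mul _) (integrable_const _), integral_const_mul]
            simp
            ring
    linarith
  rw [← ofReal_integral_eq_lintegral_ofReal hNi (Eventually.of_forall fun x => sq_nonneg _),
    ← ofReal_integral_eq_lintegral_ofReal hci (Eventually.of_forall fun p => sq_nonneg _),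
    ← ENNReal.ofReal_pow hN0, ← ENNReal.ofReal_coe_nnreal, ← ENNReal.ofReal_mul NNReal.zero_le_coe,
    Real.coe_toNNReal _ (by positivity)]
  refine ENNReal.ofReal_le_ofReal ?_
  calc N ^ 4 = (N ^ 2) ^ 2 := by ring
    _ ≤ ((2 * R * d) ^ 2 * (4 * c₁ * (2 * L * I₁))) ^ 2 := by gcongr
    _ = 4 * (2 * (R:ℝ) * d) ^ 4 * (4 * c₁) ^ 2 * (L:ℝ) ^ 2 * I₁ ^ 2 := by ring
    _ ≤ _ := by gcongr

/-- Every exponent in `(0, 1/4]` is admissible. -/
theorem admissible_quarter {α : ℝ} (hα0 : 0 < α) (hα : α ≤ 1 / 4) : Admissible d α := by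
  intro K hK _ hint Y hY hne
  obtain ⟨C, hC⟩ := key_estimate hK hint hY hne
  obtain ⟨R, hR⟩ := bound_on_compact hY
  let D : ℝ≥0 := ((4 * R ^ 2 : ℝ≥0) : ℝ≥0) ^ (1 / 8 - α / 2 : ℝ)
  refine ⟨C ^ (1 / 8 : ℝ) * D, fun μ ν hμp hνp hμ hν T S hT hS => ?_⟩
  set m := ⨅ (π : Measure (Space d × Space d)) (_ : π.map Prod.fst = μ) (_ : π.map Prod.snd = ν),
    ∫⁻ p, ENNReal.ofReal (‖p.1 - p.2‖ ^ 2) ∂π with hm
  set N := ∫⁻ x, ENNReal.ofReal (‖T x - S x‖ ^ 2) ∂(uniformOn K) with hN
  have hNm : N ^ 4 ≤ (C : ℝ≥0∞) * m := by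
    rcases eq_or_ne (C : ℝ≥0∞) 0 with h0 | h0
    · have h := hC μ ν hμp hνp hμ hν T S hT hS (μ.prod ν) (prod_marginals μ ν).1 (prod_marginals μ ν).2
      rw [h0, zero_mul] at h
      rw [h0, zero_mul]
      exact h
    · simp only [hm, ENNReal.mul_iInf_of_ne h0 ENNReal.coe_ne_top]
      exact le_iInf fun π => le_iInf fun h1 => le_iInf fun h2 =>
        hC μ ν hμp hνp hμ hν T S hT hS π h1 h2
  have hmb : m ≤ ((4 * R ^ 2 : ℝ≥0) : ℝ≥0∞) := by
    refine (iInf_le_of_le (μ.prod ν) <| iInf_le_of_le (prod_marginals μ ν).1 <| iInf_le_of_le (prod_marginals μ ν).2 le_rfl).trans ?_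
    calc ∫⁻ p, ENNReal.ofReal (‖p.1 - p.2‖ ^ 2) ∂(μ.prod ν)
        ≤ ∫⁻ _p, ((4 * R ^ 2 : ℝ≥0) : ℝ≥0∞) ∂(μ.prod ν) := by
          refine lintegral_mono_ae ?_
          filter_upwards [(ae_mem_map hY hμ measurable_fst (prod_marginals μ ν).1),
            (ae_mem_map hY hν measurable_snd (prod_marginals μ ν).2)] with p h1 h2
          rw [← ENNReal.ofReal_coe_nnreal]
          refine ENNReal.ofReal_le_ofReal ?_
          have h := norm_sub_le p.1 p.2
          push_cast
          nlinarith [hR _ h1, hR _ h2, norm_nonneg (p.1 - p.2)]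
      _ = _ := by simp
  have hW : W2 μ ν ^ α = m ^ (α / 2) := by
    rw [W2, ← hm, ← ENNReal.rpow_mul]; ring_nf
  calc mapDist (uniformOn K) T S = (N ^ 4) ^ (1 / 8 : ℝ) := by
        rw [mapDist, ← hN, ← ENNReal.rpow_natCast, ← ENNReal.rpow_mul]; norm_num
    _ ≤ ((C : ℝ≥0∞) * m) ^ (1 / 8 : ℝ) := by gcongr
    _ = (C : ℝ≥0∞) ^ (1 / 8 : ℝ) * (m ^ (1 / 8 - α / 2 : ℝ) * m ^ (α / 2)) := by
        rw [ENNReal.mul_rpow_of_nonneg _ _ (by norm_num),
          ← ENNReal.rpow_add_of_nonneg _ _ (by linarith) (by linarith)]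
        ring_nf
    _ ≤ (C : ℝ≥0∞) ^ (1 / 8 : ℝ) *
          (((4 * R ^ 2 : ℝ≥0) : ℝ≥0∞) ^ (1 / 8 - α / 2 : ℝ) * m ^ (α / 2)) := by
        gcongr
        linarith
    _ = _ := by
        rw [hW, ENNReal.coe_mul, ← ENNReal.coe_rpow_of_nonneg C (by norm_num : (0:ℝ) ≤ 1 / 8)]
        simp only [D]
        rw [ENNReal.coe_mul, ENNReal.coe_rpow_of_nonneg _ (by linarith : (0:ℝ) ≤ 1 / 8 - α / 2)]
        push_cast
        ring

end Vale.Agent.P074
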