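import Vale.Agent.P074.Atomic
import Vale.Agent.P074.Stability

/-!
A source whose mass is shifted by `± h` along a coordinate, according to the sign of `S - T`.
-/

open MeasureTheory Filter Topology
open scoped ENNReal NNReal RealInnerProductSpace

namespace Vale.Agent.P074

variable {d : ℕ}

lemma pow_one_add_sub_le {c h : ℝ} (hc : 0 ≤ c) (h0 : 0 ≤ h) (h1 : h ≤ 1) (n : ℕ) :
    (1 + c * h) ^ n - 1 ≤ ((1 + c) ^ n - 1) * h := by
  induction n with
  | zero => simp
  | succ n ih =>
    have hle : (1 + c * h) ^ n ≤ (1 + c) ^ n := by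
      gcongr
      exact mul_le_of_le_one_right hc h1
    calc (1 + c * h) ^ (n + 1) - 1 = ((1 + c * h) ^ n - 1) + (1 + c * h) ^ n * (c * h) := by ring
      _ ≤ ((1 + c) ^ n - 1) * h + (1 + c) ^ n * (c * h) := by gcongr
      _ = _ := by ring

/-- Enlarging a convex body by a homothety. -/
lemma enlarge {K : Set (Space d)} (hK : IsCompact K) (hc : Convex ℝ K)
    (hint : (interior K).Nonempty) :
    ∃ C L : ℝ, 0 ≤ C ∧ 0 ≤ L ∧ ∀ h : ℝ, 0 < h → h ≤ 1 → ∃ K' : Set (Space d),
      IsCompact K' ∧ Convex ℝ K' ∧ K ⊆ K' ∧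
        (∀ x ∈ K, ∀ v : Space d, ‖v‖ ≤ h → x + v ∈ K') ∧
        volume.real K' - volume.real K ≤ C * h ∧ ∀ x ∈ K', ‖x‖ ≤ L := by
  obtain ⟨x₀, hx₀⟩ := hint
  obtain ⟨r, hr, hball⟩ := Metric.mem_nhds_iff.1 (mem_interior_iff_mem_nhds.1 hx₀)
  obtain ⟨M, hM⟩ := hK.isBounded.exists_norm_le
  have hxK : x₀ ∈ K := interior_subset hx₀
  have hM0 : 0 ≤ M := (norm_nonneg _).trans (hM x₀ hxK)
  set c := 2 / r with hcdef
  have hc0 : 0 ≤ c := by positivity
  have hcpos : 0 < c := by positivity
  refine ⟨((1 + c) ^ d - 1) * volume.real K + 1, M + (1 + c) * (M + M), ?_, by positivity,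
    fun h hh hh1 => ?_⟩
  · have : (1:ℝ) ≤ (1 + c) ^ d := one_le_pow₀ (by linarith)
    nlinarith [measureReal_nonneg (μ := (volume : Measure (Space d))) (s := K)]
  set t := 1 + c * h with ht
  have ht0 : 0 < t := by positivity
  have ht1 : 1 ≤ t := by nlinarith
  let K' := AffineMap.homothety x₀ t '' K
  have hmem : ∀ y ∈ K, ∀ v : Space d, ‖v‖ ≤ h → y + v ∈ K' := by
    intro y hy v hv
    have hzmem : x₀ + (1 / (c * h)) • v ∈ K := by
      refine hball ?_
      rw [Metric.mem_ball, dist_eq_norm, add_sub_cancel_left, norm_smul, Real.norm_eq_abs,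
        abs_of_pos (by positivity)]
      calc 1 / (c * h) * ‖v‖ ≤ 1 / (c * h) * h := by gcongr
        _ = r / 2 := by rw [hcdef]; field_simp
        _ < r := by linarith
    refine ⟨(1 / t) • y + (c * h / t) • (x₀ + (1 / (c * h)) • v), ?_, ?_⟩
    · exact hc hy hzmem (by positivity) (by positivity) (by rw [← add_div, div_eq_one_iff_eq ht0.ne'])
    · simp only [AffineMap.homothety_apply, vsub_eq_sub, vadd_eq_add]
      rw [smul_sub, smul_add, smul_smul, smul_smul, smul_add, smul_smul]
      have e1 : t * (1 / t) = 1 := by field_simp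
      have e2 : t * (c * h / t) = c * h := by field_simp
      have e3 : c * h * (1 / (c * h)) = 1 := by field_simp
      rw [e1, e2, e3, one_smul, one_smul, ht, add_smul, one_smul]
      abel
  have hsub : K ⊆ K' := fun y hy => by simpa using hmem y hy 0 (by simpa using hh.le)
  refine ⟨K', hK.image (AffineMap.homothety_continuous x₀ t), hc.affine_image _, hsub, hmem, ?_, ?_⟩
  · have hv : volume.real K' = t ^ d * volume.real K := by
      simp only [Measure.real, K', Measure.addHaar_image_homothety, ENNReal.toReal_mul,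
        finrank_euclideanSpace_fin]
      rw [ENNReal.toReal_ofReal (abs_nonneg _), abs_of_nonneg (by positivity)]
    rw [hv]
    have hconv : t ^ d - 1 ≤ ((1 + c) ^ d - 1) * h := pow_one_add_sub_le hc0 hh.le hh1 d
    nlinarith [mul_le_mul_of_nonneg_right hconv
      (measureReal_nonneg (μ := (volume : Measure (Space d))) (s := K))]
  · rintro _ ⟨y, hy, rfl⟩
    simp only [AffineMap.homothety_apply, vsub_eq_sub, vadd_eq_add]
    calc ‖t • (y - x₀) + x₀‖ ≤ t * ‖y - x₀‖ + ‖x₀‖ := by
          refine (norm_add_le _ _).trans ?_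
          rw [norm_smul, Real.norm_eq_abs, abs_of_pos ht0]
      _ ≤ (1 + c) * (M + M) + M := by
          gcongr
          · rw [ht]; nlinarith
          · exact (norm_sub_le _ _).trans (add_le_add (hM y hy) (hM x₀ hxK))
          · exact hM x₀ hxK
      _ = _ := by ring

lemma monotone_at {Y : Set (Space d)} (hY : IsCompact Y) {Φ : Space d → ℝ} (hΦ : Continuous Φ)
    {x y a b : Space d} (ha : a ∈ Y) (hb : b ∈ Y) (hx : conj Y Φ x = ⟪x, a⟫ - Φ a)
    (hy : conj Y Φ y = ⟪y, b⟫ - Φ b) : 0 ≤ ⟪x - y, a - b⟫ := by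
  have h1 := le_conj hY hΦ.continuousOn x hb
  have h2 := le_conj hY hΦ.continuousOn y ha
  simp only [inner_sub_left, inner_sub_right]
  linarith

/-- `L¹`-translation bound for one component of an optimal map. -/
lemma translate_component {K Y : Set (Space d)} (hK : IsCompact K) (hY : IsCompact Y)
    {Φ : Space d → ℝ} (hΦ : Continuous Φ) {T : Space d → Space d} (hT : Measurable T) {R : ℝ}
    (hTR : ∀ x, ‖T x‖ ≤ R)
    (hpot : ∀ᵐ x ∂volume.restrict K, T x ∈ Y ∧ conj Y Φ x = ⟪x, T x⟫ - Φ (T x))
    (i : Fin d) {c : ℝ} (hc : c ≠ 0) {δ : ℝ}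
    (hδ : volume.real (K \ ((fun x => x - EuclideanSpace.single i c) ⁻¹' K)) ≤ δ) :
    ∫ x in K ∩ (fun x => x - EuclideanSpace.single i c) ⁻¹' K,
        |T x i - T (x - EuclideanSpace.single i c) i| ≤ 2 * R * δ := by
  set w : Space d := EuclideanSpace.single i c
  set A := K ∩ (fun x => x - w) ⁻¹' K
  have hAm : MeasurableSet A := hK.measurableSet.inter (hK.measurableSet.preimage (by fun_prop))
  have hAfin : volume A ≠ ∞ :=
    ne_top_of_le_ne_top hK.measure_lt_top.ne (measure_mono Set.inter_subset_left)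
  haveI : IsFiniteMeasure (volume.restrict A) := isFiniteMeasure_restrict.2 hAfin
  haveI : IsFiniteMeasure (volume.restrict K) := isFiniteMeasure_restrict.2 hK.measure_lt_top.ne
  have hTi : ∀ x, |T x i| ≤ R := fun x => abs_coord_le (hTR x) i
  have hm1 : Measurable fun x => T x i := by fun_prop
  have hm2 : Measurable fun x => T (x - w) i := by fun_prop
  have i1 : IntegrableOn (fun x => T x i) A :=
    Integrable.of_bound hm1.aestronglyMeasurable R (Eventually.of_forall fun x => hTi x)
  have i1K : IntegrableOn (fun x => T x i) K :=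
    Integrable.of_bound hm1.aestronglyMeasurable R (Eventually.of_forall fun x => hTi x)
  have i2 : IntegrableOn (fun x => T (x - w) i) A :=
    Integrable.of_bound hm2.aestronglyMeasurable R (Eventually.of_forall fun x => hTi _)
  have hp1 : ∀ᵐ x, x ∈ K → T x ∈ Y ∧ conj Y Φ x = ⟪x, T x⟫ - Φ (T x) :=
    (ae_restrict_iff' hK.measurableSet).1 hpot
  have hp2 : ∀ᵐ x, x - w ∈ K → T (x - w) ∈ Y ∧
      conj Y Φ (x - w) = ⟪x - w, T (x - w)⟫ - Φ (T (x - w)) :=
    (measurePreserving_sub_right volume w).quasiMeasurePreserving.ae hp1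
  have habs : ∀ᵐ x ∂volume.restrict A,
      |T x i - T (x - w) i| = (|c| / c) * (T x i - T (x - w) i) := by
    refine (ae_restrict_iff' hAm).2 ?_
    filter_upwards [hp1, hp2] with x h1 h2 hx
    obtain ⟨a1, a2⟩ := h1 hx.1
    obtain ⟨b1, b2⟩ := h2 hx.2
    have hm := monotone_at hY hΦ a1 b1 a2 b2
    rw [sub_sub_cancel, EuclideanSpace.inner_single_left] at hm
    simp only [RCLike.conj_to_real, PiLp.sub_apply] at hm
    rcases lt_or_gt_of_ne hc with h | h
    · rw [abs_of_neg h, neg_div_self hc, abs_of_nonpos (by nlinarith)]; ring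
    · rw [abs_of_pos h, div_self hc, abs_of_nonneg (by nlinarith), one_mul]
  rw [integral_congr_ae habs, integral_const_mul, integral_sub i1 i2]
  have hshift : ∫ x in A, T (x - w) i = ∫ y in (fun y => y + w) ⁻¹' A, T y i := by
    have := (measurePreserving_add_right volume w).setIntegral_preimage_emb
      (MeasurableEquiv.addRight w).measurableEmbedding (fun x => T (x - w) i) A
    rw [← this]
    simp
  have hB : (fun y => y + w) ⁻¹' A ⊆ K := fun y hy => by simpa using hy.2
  have hBvol : volume.real ((fun y => y + w) ⁻¹' A) = volume.real A := by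
    simp [Measure.real, measure_preimage_add_right]
  have hclose : ∀ B : Set (Space d), MeasurableSet B → B ⊆ K → volume.real B = volume.real A →
      |(∫ x in K, T x i) - ∫ x in B, T x i| ≤ R * δ := by
    intro B hB hBK hBA
    rw [← setIntegral_sdiff hB i1K hBK]
    have h1 : ‖∫ x in K \ B, T x i‖ ≤ R * volume.real (K \ B) :=
      norm_setIntegral_le_of_norm_le_const
        ((measure_mono Set.sdiff_subset).trans_lt hK.measure_lt_top) fun x _ => hTi x
    rw [Real.norm_eq_abs] at h1
    refine h1.trans (mul_le_mul_of_nonneg_left ?_ ((norm_nonneg _).trans (hTR 0)))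
    refine le_trans (le_of_eq ?_) hδ
    rw [measureReal_sdiff hBK hB hK.measure_lt_top.ne, hBA,
      ← Set.sdiff_self_inter (s := K),
      measureReal_sdiff Set.inter_subset_left hAm hK.measure_lt_top.ne]
  obtain ⟨e1, e2⟩ := abs_le.1 (hclose A hAm Set.inter_subset_left rfl)
  obtain ⟨e3, e4⟩ := abs_le.1 (hclose _ (hAm.preimage (by fun_prop)) hB hBvol)
  rw [hshift]
  rcases lt_or_gt_of_ne hc with h | h
  · rw [abs_of_neg h, neg_div_self hc]; linarith
  · rw [abs_of_pos h, div_self hc]; linarith

/-- Positive part of `σ (S - T)_i / (4R)`, on `K`. -/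
noncomputable def shiftProb (K : Set (Space d)) (T S : Space d → Space d) (R : ℝ) (i : Fin d)
    (σ : ℝ) : Space d → ℝ :=
  K.indicator fun x => max (σ * (S x i - T x i)) 0 / (4 * R)

/-- The shifted density. -/
noncomputable def shiftDensity (K : Set (Space d)) (T S : Space d → Space d) (R : ℝ) (i : Fin d)
    (h : ℝ) : Space d → ℝ := fun x =>
  K.indicator (fun _ => (1:ℝ)) x - shiftProb K T S R i 1 x - shiftProb K T S R i (-1) x +
    shiftProb K T S R i 1 (x - EuclideanSpace.single i h) +
    shiftProb K T S R i (-1) (x + EuclideanSpace.single i h)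

section Facts

variable {K : Set (Space d)} {T S : Space d → Space d} {R : ℝ} {i : Fin d}

lemma shiftProb_nonneg (hR : 0 < R) (σ : ℝ) (x : Space d) : 0 ≤ shiftProb K T S R i σ x :=
  Set.indicator_nonneg (fun _ _ => div_nonneg (le_max_right _ _) (by linarith)) x

lemma shiftProb_le (hR : 0 < R) (hT : ∀ x, ‖T x‖ ≤ R) (hS : ∀ x, ‖S x‖ ≤ R) {σ : ℝ} (hσ : |σ| = 1)
    (x : Space d) : shiftProb K T S R i σ x ≤ 1 / 2 := by
  refine Set.indicator_apply_le' (fun _ => ?_) (fun _ => by norm_num)
  rw [div_le_iff₀ (by linarith), max_le_iff]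
  refine ⟨(le_abs_self _).trans ?_, by linarith⟩
  rw [abs_mul, hσ, one_mul]
  linarith [abs_sub (S x i) (T x i), abs_coord_le (hT x) i, abs_coord_le (hS x) i]

lemma shiftProb_add (hR : 0 < R) (x : Space d) (hx : x ∈ K) :
    shiftProb K T S R i 1 x + shiftProb K T S R i (-1) x = |S x i - T x i| / (4 * R) ∧
      shiftProb K T S R i 1 x - shiftProb K T S R i (-1) x = (S x i - T x i) / (4 * R) := by
  simp only [shiftProb, Set.indicator_of_mem hx, one_mul, neg_one_mul, ← add_div, ← sub_div]
  have h4 : (4:ℝ) * R ≠ 0 := by positivity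
  rcases le_total 0 (S x i - T x i) with h | h
  · rw [max_eq_left h, max_eq_right (by linarith), abs_of_nonneg h]; simp
  · rw [max_eq_right h, max_eq_left (by linarith), abs_of_nonpos h]; simp

lemma measurable_shiftProb (hK : IsCompact K) (hT : Measurable T) (hS : Measurable S) (σ : ℝ) :
    Measurable (shiftProb K T S R i σ) :=
  Measurable.indicator (by fun_prop) hK.measurableSet

lemma density_shift {K' : Set (Space d)} (hK' : IsCompact K') (hK : IsCompact K) (hR : 0 < R)
    (hTm : Measurable T) (hSm : Measurable S) (hT : ∀ x, ‖T x‖ ≤ R) (hS : ∀ x, ‖S x‖ ≤ R)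
    (h : ℝ) : Density K' (shiftDensity K T S R i h) := by
  have hm := measurable_shiftProb (R := R) (i := i) hK hTm hSm
  refine ⟨hK', ?_, fun x => ?_, fun x => ?_⟩
  · exact ((((measurable_const.indicator hK.measurableSet).sub (hm 1)).sub (hm (-1))).add
      ((hm 1).comp (measurable_id.sub_const _))).add ((hm (-1)).comp (measurable_id.add_const _))
  · have h1 := shiftProb_nonneg (K := K) (T := T) (S := S) (i := i) hR 1 (x - EuclideanSpace.single i h)
    have h2 := shiftProb_nonneg (K := K) (T := T) (S := S) (i := i) hR (-1) (x + EuclideanSpace.single i h)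
    have h3 : shiftProb K T S R i 1 x + shiftProb K T S R i (-1) x ≤ K.indicator (fun _ => (1:ℝ)) x := by
      by_cases hx : x ∈ K
      · rw [Set.indicator_of_mem hx]
        linarith [shiftProb_le (K := K) (i := i) hR hT hS (σ := 1) (by simp) x,
          shiftProb_le (K := K) (i := i) hR hT hS (σ := -1) (by simp) x]
      · simp [shiftProb, hx]
    simp only [shiftDensity]
    linarith
  · have h1 := shiftProb_le (K := K) (i := i) hR hT hS (σ := 1) (by simp) (x - EuclideanSpace.single i h)
    have h2 := shiftProb_le (K := K) (i := i) hR hT hS (σ := -1) (by simp) (x + EuclideanSpace.single i h)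
    have h3 := shiftProb_nonneg (K := K) (T := T) (S := S) (i := i) hR 1 x
    have h4 := shiftProb_nonneg (K := K) (T := T) (S := S) (i := i) hR (-1) x
    have h5 : K.indicator (fun _ => (1:ℝ)) x ≤ 1 :=
      Set.indicator_le' (fun _ _ => le_rfl) (fun _ _ => zero_le_one) x
    simp only [shiftDensity]
    linarith

lemma prob_integrable (hK : IsCompact K) (hR : 0 < R) (hTm : Measurable T) (hSm : Measurable S)
    (hT : ∀ x, ‖T x‖ ≤ R) (hS : ∀ x, ‖S x‖ ≤ R) {σ : ℝ} (hσ : |σ| = 1) {f : Space d → ℝ}
    (hf : Continuous f) : Integrable (fun x => shiftProb K T S R i σ x * f x) := by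
  obtain ⟨M, hM⟩ := (hK.image hf).isBounded.exists_norm_le
  haveI : IsFiniteMeasure (volume.restrict K) := isFiniteMeasure_restrict.2 hK.measure_lt_top.ne
  refine (integrableOn_iff_integrable_of_support_subset (s := K) fun x hx => ?_).1 ?_
  · by_contra h
    simp [shiftProb, h] at hx
  refine Integrable.of_bound ((measurable_shiftProb hK hTm hSm σ).mul hf.measurable).aestronglyMeasurable
    (1 / 2 * M) ?_
  filter_upwards [ae_restrict_mem hK.measurableSet] with x hx
  rw [norm_mul, Real.norm_eq_abs, abs_of_nonneg (shiftProb_nonneg hR σ x)]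
  exact mul_le_mul (shiftProb_le hR hT hS hσ x) (hM _ ⟨x, hx, rfl⟩) (norm_nonneg _) (by norm_num)

/-- Integration against the shifted density. -/
lemma integral_shift {K' : Set (Space d)} (hK' : IsCompact K') (hK : IsCompact K) (hR : 0 < R)
    (hTm : Measurable T) (hSm : Measurable S) (hT : ∀ x, ‖T x‖ ≤ R) (hS : ∀ x, ‖S x‖ ≤ R) {h : ℝ}
    (hsub : K ⊆ K') (hmem : ∀ x ∈ K, ∀ v : Space d, ‖v‖ ≤ |h| → x + v ∈ K')
    {f : Space d → ℝ} (hf : Continuous f) :
    ∫ x in K', f x * shiftDensity K T S R i h x =
      ∫ x in K, (f x + shiftProb K T S R i 1 x * (f (x + EuclideanSpace.single i h) - f x) +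
        shiftProb K T S R i (-1) x * (f (x - EuclideanSpace.single i h) - f x)) := by
  set v : Space d := EuclideanSpace.single i h
  set P := shiftProb K T S R i 1 with hP
  set Q := shiftProb K T S R i (-1) with hQ
  have hv : ‖v‖ ≤ |h| := by simp [v]
  have hv' : ‖-v‖ ≤ |h| := by rw [norm_neg]; exact hv
  have hout : ∀ x, x ∉ K → P x = 0 ∧ Q x = 0 := fun x hx => by simp [P, Q, shiftProb, hx]
  have hPi : ∀ g : Space d → ℝ, Continuous g → Integrable fun x => P x * g x := fun g hg =>
    prob_integrable hK hR hTm hSm hT hS (by simp) hg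
  have hQi : ∀ g : Space d → ℝ, Continuous g → Integrable fun x => Q x * g x := fun g hg =>
    prob_integrable hK hR hTm hSm hT hS (by simp) hg
  have hc1 : Continuous fun x => f (x + v) := hf.comp (continuous_id.add continuous_const)
  have hc2 : Continuous fun x => f (x - v) := hf.comp (continuous_id.sub continuous_const)
  have i0 : Integrable (K.indicator f) :=
    (integrable_indicator_iff hK.measurableSet).2 (hf.continuousOn.integrableOn_compact hK)
  have i3 : Integrable fun x => P (x - v) * f x := by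
    simpa using (hPi _ hc1).comp_sub_right v
  have i4 : Integrable fun x => Q (x + v) * f x := by
    simpa using (hQi _ hc2).comp_add_right v
  calc ∫ x in K', f x * shiftDensity K T S R i h x = ∫ x, f x * shiftDensity K T S R i h x := by
        refine setIntegral_eq_integral_of_forall_compl_eq_zero fun x hx => ?_
        have h1 : x ∉ K := fun hh => hx (hsub hh)
        have h2 : x - v ∉ K := fun hh => hx (by simpa using hmem _ hh v hv)
        have h3 : x + v ∉ K := fun hh => hx (by simpa [← sub_eq_add_neg] using hmem _ hh (-v) hv')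
        simp only [shiftDensity, Set.indicator_of_notMem h1]
        rw [← hP, ← hQ, (hout _ h1).1, (hout _ h1).2, (hout _ h2).1, (hout _ h3).2]
        ring
    _ = ∫ x, ((K.indicator f x - P x * f x - Q x * f x) + P (x - v) * f x + Q (x + v) * f x) := by
        refine integral_congr_ae (Eventually.of_forall fun x => ?_)
        simp only [shiftDensity]
        rw [← hP, ← hQ]
        by_cases hx : x ∈ K <;> simp [hx] <;> ring
    _ = ((∫ x, K.indicator f x) - (∫ x, P x * f x) - ∫ x, Q x * f x) +
          (∫ x, P x * f (x + v)) + ∫ x, Q x * f (x - v) := by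
        have j1 : Integrable fun x => K.indicator f x - P x * f x := i0.sub (hPi f hf)
        have j2 : Integrable fun x => K.indicator f x - P x * f x - Q x * f x := j1.sub (hQi f hf)
        have j3 : Integrable fun x => K.indicator f x - P x * f x - Q x * f x + P (x - v) * f x :=
          j2.add i3
        rw [integral_add j3 i4, integral_add j2 i3, integral_sub j1 (hQi f hf),
          integral_sub i0 (hPi f hf)]
        congr 1
        · congr 1
          rw [← integral_add_right_eq_self (fun x => P (x - v) * f x) v]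
          simp
        · rw [← integral_sub_right_eq_self (fun x => Q (x + v) * f x) v]
          simp
    _ = ∫ x, (K.indicator f x + P x * (f (x + v) - f x) + Q x * (f (x - v) - f x)) := by
        simp only [mul_sub]
        have k1 : Integrable fun x => P x * f (x + v) - P x * f x := (hPi _ hc1).sub (hPi f hf)
        have k2 : Integrable fun x => Q x * f (x - v) - Q x * f x := (hQi _ hc2).sub (hQi f hf)
        have k3 : Integrable fun x => K.indicator f x + (P x * f (x + v) - P x * f x) := i0.add k1
        rw [integral_add k3 k2, integral_add i0 k1, integral_sub (hPi _ hc1) (hPi f hf),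
          integral_sub (hQi _ hc2) (hQi f hf)]
        ring
    _ = _ := by
        rw [← integral_indicator hK.measurableSet]
        refine integral_congr_ae (Eventually.of_forall fun x => ?_)
        by_cases hx : x ∈ K
        · simp [hx, P, Q, v]
        · simp [hx, (hout x hx).1, (hout x hx).2]

lemma shift_pointwise (hR : 0 < R) (hT : ∀ x, ‖T x‖ ≤ R) (hS : ∀ x, ‖S x‖ ≤ R) {σ : ℝ}
    (hσ : |σ| = 1) (w x : Space d) :
    |shiftProb K T S R i σ (x - w) - shiftProb K T S R i σ x| ≤
      (K ∩ (fun x => x - w) ⁻¹' K).indicator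
        (fun x => (|T x i - T (x - w) i| + |S x i - S (x - w) i|) / (4 * R)) x +
      (K \ (fun x => x - w) ⁻¹' K).indicator (fun _ => (1 / 2 : ℝ)) x +
      ((fun x => x - w) ⁻¹' K \ K).indicator (fun _ => (1 / 2 : ℝ)) x := by
  have hb := fun y => shiftProb_le (K := K) (i := i) hR hT hS hσ y
  have hn := fun y => shiftProb_nonneg (K := K) (T := T) (S := S) (i := i) hR σ y
  by_cases h1 : x ∈ K <;> by_cases h2 : x - w ∈ K
  · have e : ∀ a b : ℝ, |max a 0 - max b 0| ≤ |a - b| := fun a b => by
      simpa using abs_max_sub_max_le_max a 0 b 0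
    rw [Set.indicator_of_mem (show x ∈ K ∩ (fun x => x - w) ⁻¹' K from ⟨h1, h2⟩),
      Set.indicator_of_notMem (show x ∉ K \ (fun x => x - w) ⁻¹' K from fun hh => hh.2 h2),
      Set.indicator_of_notMem (show x ∉ (fun x => x - w) ⁻¹' K \ K from fun hh => hh.2 h1),
      add_zero, add_zero]
    simp only [shiftProb, Set.indicator_of_mem h1, Set.indicator_of_mem h2]
    rw [← sub_div, abs_div, abs_of_pos (by positivity : (0:ℝ) < 4 * R)]
    gcongr
    refine (e _ _).trans ?_
    rw [← mul_sub, abs_mul, hσ, one_mul]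
    calc |S (x - w) i - T (x - w) i - (S x i - T x i)|
        = |(T x i - T (x - w) i) - (S x i - S (x - w) i)| := by ring_nf
      _ ≤ _ := abs_sub _ _
  · rw [Set.indicator_of_notMem (show x ∉ K ∩ (fun x => x - w) ⁻¹' K from fun hh => h2 hh.2),
      Set.indicator_of_mem (show x ∈ K \ (fun x => x - w) ⁻¹' K from ⟨h1, h2⟩),
      Set.indicator_of_notMem (show x ∉ (fun x => x - w) ⁻¹' K \ K from fun hh => hh.2 h1),
      show shiftProb K T S R i σ (x - w) = 0 from Set.indicator_of_notMem h2 _, add_zero, zero_add,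
      zero_sub, abs_neg, abs_of_nonneg (hn x)]
    exact hb x
  · rw [Set.indicator_of_notMem (show x ∉ K ∩ (fun x => x - w) ⁻¹' K from fun hh => h1 hh.1),
      Set.indicator_of_notMem (show x ∉ K \ (fun x => x - w) ⁻¹' K from fun hh => h1 hh.1),
      Set.indicator_of_mem (show x ∈ (fun x => x - w) ⁻¹' K \ K from ⟨h2, h1⟩),
      show shiftProb K T S R i σ x = 0 from Set.indicator_of_notMem h1 _, add_zero, zero_add,
      sub_zero, abs_of_nonneg (hn _)]
    exact hb _
  · rw [Set.indicator_of_notMem (show x ∉ K ∩ (fun x => x - w) ⁻¹' K from fun hh => h1 hh.1),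
      Set.indicator_of_notMem (show x ∉ K \ (fun x => x - w) ⁻¹' K from fun hh => h1 hh.1),
      Set.indicator_of_notMem (show x ∉ (fun x => x - w) ⁻¹' K \ K from fun hh => h2 hh.1),
      show shiftProb K T S R i σ x = 0 from Set.indicator_of_notMem h1 _,
      show shiftProb K T S R i σ (x - w) = 0 from Set.indicator_of_notMem h2 _]
    simp

lemma integrableOn_translate_diff {A : Set (Space d)} (hA : volume A ≠ ∞) {U : Space d → Space d}
    (hU : Measurable U) (hUR : ∀ x, ‖U x‖ ≤ R) (i : Fin d) (w : Space d) :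
    IntegrableOn (fun x => |U x i - U (x - w) i|) A := by
  haveI : IsFiniteMeasure (volume.restrict A) := isFiniteMeasure_restrict.2 hA
  have h1 : Measurable fun x => U x i :=
    (measurable_pi_apply i).comp ((PiLp.continuous_ofLp 2 _).measurable.comp hU)
  have h2 : Measurable fun x => U (x - w) i := h1.comp (measurable_id.sub_const w)
  refine Integrable.of_bound (μ := volume.restrict A) (f := fun x => |U x i - U (x - w) i|)
    (h1.sub h2).abs.aestronglyMeasurable (2 * R) (Eventually.of_forall fun x => ?_)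
  rw [Real.norm_eq_abs, abs_abs]
  linarith [abs_sub (U x i) (U (x - w) i), abs_coord_le (hUR x) i, abs_coord_le (hUR (x - w)) i]

/-- Translates of one shift probability differ little in `L¹`. -/
lemma prob_translate {K' Y Y' : Set (Space d)} (hK' : IsCompact K') (hK : IsCompact K)
    (hY : IsCompact Y) (hY' : IsCompact Y')
    (hR : 0 < R) (hTm : Measurable T) (hSm : Measurable S) (hT : ∀ x, ‖T x‖ ≤ R)
    (hS : ∀ x, ‖S x‖ ≤ R) {Φ Ψ : Space d → ℝ} (hΦ : Continuous Φ) (hΨ : Continuous Ψ)
    (hTpot : ∀ᵐ x ∂volume.restrict K, T x ∈ Y ∧ conj Y Φ x = ⟪x, T x⟫ - Φ (T x))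
    (hSpot : ∀ᵐ x ∂volume.restrict K, S x ∈ Y' ∧ conj Y' Ψ x = ⟪x, S x⟫ - Ψ (S x))
    {h : ℝ} (hh : 0 < h) (hsub : K ⊆ K') (hmem : ∀ x ∈ K, ∀ v : Space d, ‖v‖ ≤ h → x + v ∈ K')
    {σ : ℝ} (hσ : |σ| = 1) {c : ℝ} (hc : |c| = h) :
    ∫ x, |shiftProb K T S R i σ (x - EuclideanSpace.single i c) - shiftProb K T S R i σ x| ≤
      2 * (volume.real K' - volume.real K) := by
  set δ := volume.real K' - volume.real K
  set P := shiftProb K T S R i with hP
  have hPint : ∀ σ : ℝ, |σ| = 1 → Integrable (P σ) := fun σ hσ => by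
    simpa using prob_integrable (f := fun _ => (1:ℝ)) (i := i) hK hR hTm hSm hT hS hσ continuous_const
  have hc0 : c ≠ 0 := fun e => by simp [e] at hc; linarith
  set w : Space d := EuclideanSpace.single i c
  have hw : ‖w‖ ≤ h := by simp [w, hc]
  set Kw := (fun x => x - w) ⁻¹' K
  have hKwm : MeasurableSet Kw := hK.measurableSet.preimage (by fun_prop)
  have hKw : Kw ⊆ K' := fun x hx => by simpa using hmem _ hx w hw
  have hKwV : volume.real Kw = volume.real K := by
    simp [Kw, Measure.real, sub_eq_add_neg, measure_preimage_add_right]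
  have d1 : volume.real (K \ Kw) ≤ δ := by
    refine (measureReal_mono (Set.sdiff_subset_sdiff_left hsub) ?_).trans ?_
    · exact ne_top_of_le_ne_top hK'.measure_lt_top.ne (measure_mono Set.sdiff_subset)
    · rw [measureReal_sdiff hKw hKwm hK'.measure_lt_top.ne, hKwV]
  have d2 : volume.real (Kw \ K) ≤ δ := by
    refine (measureReal_mono (Set.sdiff_subset_sdiff_left hKw) ?_).trans ?_
    · exact ne_top_of_le_ne_top hK'.measure_lt_top.ne (measure_mono Set.sdiff_subset)
    · rw [measureReal_sdiff hsub hK.measurableSet hK'.measure_lt_top.ne]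
  set A := K ∩ Kw
  have hAm : MeasurableSet A := hK.measurableSet.inter hKwm
  haveI : IsFiniteMeasure (volume.restrict A) := isFiniteMeasure_restrict.2
    (ne_top_of_le_ne_top hK.measure_lt_top.ne (measure_mono Set.inter_subset_left))
  let bnd : Space d → ℝ := fun x => A.indicator
    (fun x => (|T x i - T (x - w) i| + |S x i - S (x - w) i|) / (4 * R)) x +
    (K \ Kw).indicator (fun _ => (1 / 2 : ℝ)) x + (Kw \ K).indicator (fun _ => (1 / 2 : ℝ)) x
  have hle : ∀ x, |P σ (x - w) - P σ x| ≤ bnd x := fun x => shift_pointwise hR hT hS hσ w x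
  have hint : ∀ U : Space d → Space d, Measurable U → (∀ x, ‖U x‖ ≤ R) →
      IntegrableOn (fun x => |U x i - U (x - w) i|) A := fun U hU hUR =>
    integrableOn_translate_diff (ne_top_of_le_ne_top hK.measure_lt_top.ne
      (measure_mono Set.inter_subset_left)) hU hUR i w
  have iA : Integrable (A.indicator
      (fun x => (|T x i - T (x - w) i| + |S x i - S (x - w) i|) / (4 * R))) :=
    (integrable_indicator_iff hAm).2 (((hint T hTm hT).add (hint S hSm hS)).div_const _)
  have iB : ∀ B : Set (Space d), MeasurableSet B → B ⊆ K' →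
      Integrable (B.indicator (fun _ => (1 / 2 : ℝ))) := fun B hB hBK =>
    (integrable_indicator_iff hB).2
      (integrableOn_const (ne_top_of_le_ne_top hK'.measure_lt_top.ne (measure_mono hBK)))
  have ib1 := iB (K \ Kw) (hK.measurableSet.diff hKwm) (Set.sdiff_subset.trans hsub)
  have ib2 := iB (Kw \ K) (hKwm.diff hK.measurableSet) (Set.sdiff_subset.trans hKw)
  calc ∫ x, |P σ (x - w) - P σ x| ≤ ∫ x, bnd x :=
        integral_mono (((hPint σ hσ).comp_sub_right w).sub (hPint σ hσ)).abs ((iA.add ib1).add ib2) hle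
    _ = ((∫ x in A, |T x i - T (x - w) i|) + ∫ x in A, |S x i - S (x - w) i|) / (4 * R) +
          volume.real (K \ Kw) * (1 / 2) + volume.real (Kw \ K) * (1 / 2) := by
        simp only [bnd]
        have iA1 : Integrable fun x => A.indicator
            (fun x => (|T x i - T (x - w) i| + |S x i - S (x - w) i|) / (4 * R)) x +
            (K \ Kw).indicator (fun _ => (1 / 2 : ℝ)) x := iA.add ib1
        rw [integral_add iA1 ib2, integral_add iA ib1, integral_indicator hAm,
          integral_div, integral_add (hint T hTm hT) (hint S hSm hS),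
          integral_indicator (hK.measurableSet.diff hKwm),
          integral_indicator (hKwm.diff hK.measurableSet), setIntegral_const, setIntegral_const]
        simp
    _ ≤ (2 * R * δ + 2 * R * δ) / (4 * R) + δ * (1 / 2) + δ * (1 / 2) := by
        gcongr
        · exact translate_component hK hY hΦ hTm hT hTpot i hc0 d1
        · exact translate_component hK hY' hΨ hSm hS hSpot i hc0 d1
    _ = 2 * δ := by field_simp; ring

/-- The shifted density differs little from the uniform one. -/
lemma shift_L1 {K' Y : Set (Space d)} (hK' : IsCompact K') (hK : IsCompact K) (hY : IsCompact Y)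
    (hR : 0 < R) (hTm : Measurable T) (hSm : Measurable S) (hT : ∀ x, ‖T x‖ ≤ R)
    (hS : ∀ x, ‖S x‖ ≤ R) {Φ Ψ : Space d → ℝ} (hΦ : Continuous Φ) (hΨ : Continuous Ψ) {Y' : Set (Space d)}
    (hY' : IsCompact Y')
    (hTpot : ∀ᵐ x ∂volume.restrict K, T x ∈ Y ∧ conj Y Φ x = ⟪x, T x⟫ - Φ (T x))
    (hSpot : ∀ᵐ x ∂volume.restrict K, S x ∈ Y' ∧ conj Y' Ψ x = ⟪x, S x⟫ - Ψ (S x))
    {h : ℝ} (hh : 0 < h) (hsub : K ⊆ K') (hmem : ∀ x ∈ K, ∀ v : Space d, ‖v‖ ≤ h → x + v ∈ K') :
    ∫ x in K', |shiftDensity K T S R i h x - 1| ≤ 5 * (volume.real K' - volume.real K) := by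
  set δ := volume.real K' - volume.real K
  set P := shiftProb K T S R i with hP
  have hPint : ∀ σ : ℝ, |σ| = 1 → Integrable (P σ) := fun σ hσ => by
    simpa using prob_integrable (f := fun _ => (1:ℝ)) (i := i) hK hR hTm hSm hT hS hσ continuous_const
  have step : ∀ σ : ℝ, |σ| = 1 → ∀ c : ℝ, |c| = h →
      ∫ x, |P σ (x - EuclideanSpace.single i c) - P σ x| ≤ 2 * δ := fun σ hσ c hc =>
    prob_translate hK' hK hY hY' hR hTm hSm hT hS hΦ hΨ hTpot hSpot hh hsub hmem hσ hc
  have s1 := step 1 (by simp) h (abs_of_pos hh)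
  have s2 := step (-1) (by simp) (-h) (by rw [abs_neg, abs_of_pos hh])
  set v : Space d := EuclideanSpace.single i h
  have hneg : (EuclideanSpace.single i (-h) : Space d) = -v := by
    ext j; by_cases hj : j = i <;> simp [v, hj]
  simp only [hneg, sub_neg_eq_add] at s2
  have i1 : Integrable fun x => |P 1 (x - v) - P 1 x| :=
    (((hPint 1 (by simp)).comp_sub_right v).sub (hPint 1 (by simp))).abs
  have i2 : Integrable fun x => |P (-1) (x + v) - P (-1) x| :=
    (((hPint (-1) (by simp)).comp_add_right v).sub (hPint (-1) (by simp))).abs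
  have i0 : IntegrableOn (fun x => |K.indicator (fun _ => (1:ℝ)) x - 1|) K' :=
    (((integrable_indicator_iff hK.measurableSet).2 (integrableOn_const hK.measure_lt_top.ne)).integrableOn.sub
      (integrableOn_const hK'.measure_lt_top.ne)).abs
  have h0 : ∫ x in K', |K.indicator (fun _ => (1:ℝ)) x - 1| = δ := by
    have e : ∀ x, |K.indicator (fun _ => (1:ℝ)) x - 1| = Kᶜ.indicator (fun _ => (1:ℝ)) x := fun x => by
      by_cases hx : x ∈ K <;> simp [hx]
    simp only [e]
    rw [setIntegral_indicator hK.measurableSet.compl, setIntegral_const, smul_eq_mul, mul_one,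
      ← Set.sdiff_eq, measureReal_sdiff hsub hK.measurableSet hK'.measure_lt_top.ne]
  calc ∫ x in K', |shiftDensity K T S R i h x - 1|
      ≤ ∫ x in K', (|K.indicator (fun _ => (1:ℝ)) x - 1| + |P 1 (x - v) - P 1 x| +
          |P (-1) (x + v) - P (-1) x|) := by
        refine setIntegral_mono_on
          (((density_shift hK' hK hR hTm hSm hT hS h).integrableOn.sub
            (integrableOn_const hK'.measure_lt_top.ne)).abs)
          ((i0.add i1.integrableOn).add i2.integrableOn) hK'.measurableSet fun x _ => ?_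
        simp only [shiftDensity, hP]
        exact le_trans (le_of_eq (by congr 1; ring)) (abs_add_three _ _ _)
    _ ≤ δ + 2 * δ + 2 * δ := by
        have i01 : IntegrableOn
            (fun x => |K.indicator (fun _ => (1:ℝ)) x - 1| + |P 1 (x - v) - P 1 x|) K' :=
          i0.add i1.integrableOn
        rw [integral_add i01 i2.integrableOn, integral_add i0 i1.integrableOn, h0]
        gcongr
        · exact (setIntegral_le_integral i1 (Eventually.of_forall fun x => abs_nonneg _)).trans s1
        · exact (setIntegral_le_integral i2 (Eventually.of_forall fun x => abs_nonneg _)).trans s2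
    _ = _ := by ring

end Facts

end Vale.Agent.P074
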